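import Mathlib

/-!
Exact integral data of a unitary triangle group with Frobenius edge groups.
-/

namespace Vale.Agent.P083

open Matrix

/-- The ring `ℤ[θ]`, `θ ^ 2 = -2 - θ`. -/
abbrev Z2 := QuadraticAlgebra ℤ (-2) (-1)

def mA : Matrix (Fin 3) (Fin 3) Z2 :=
  !![⟨1, 0⟩, ⟨0, 0⟩, ⟨0, 1⟩;
    ⟨0, 0⟩, ⟨0, 0⟩, ⟨-1, 0⟩;
    ⟨0, 0⟩, ⟨1, 0⟩, ⟨-1, 0⟩]

def mB : Matrix (Fin 3) (Fin 3) Z2 :=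
  !![⟨0, 0⟩, ⟨0, 1⟩, ⟨-1, -1⟩;
    ⟨0, 0⟩, ⟨-1, 0⟩, ⟨0, -1⟩;
    ⟨1, 0⟩, ⟨-1, 0⟩, ⟨1, 0⟩]

def mC : Matrix (Fin 3) (Fin 3) Z2 :=
  !![⟨2, 1⟩, ⟨1, 0⟩, ⟨-2, 1⟩;
    ⟨2, 1⟩, ⟨0, 1⟩, ⟨-2, -1⟩;
    ⟨0, 2⟩, ⟨-2, 0⟩, ⟨-2, -2⟩]

def mH : Matrix (Fin 3) (Fin 3) Z2 :=
  !![⟨3, 0⟩, ⟨0, 1⟩, ⟨0, 1⟩;
    ⟨-1, -1⟩, ⟨3, 0⟩, ⟨0, 1⟩;
    ⟨-1, -1⟩, ⟨-1, -1⟩, ⟨3, 0⟩]

def mV : Matrix (Fin 3) (Fin 3) Z2 :=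
  !![⟨-3, 1⟩, ⟨8, 2⟩, ⟨2, 4⟩;
    ⟨0, 0⟩, ⟨7, 7⟩, ⟨0, 0⟩;
    ⟨3, -1⟩, ⟨-1, 5⟩, ⟨-2, 3⟩]

def mW : Matrix (Fin 3) (Fin 3) Z2 :=
  !![⟨-56, -14⟩, ⟨-14, -28⟩, ⟨42, -14⟩;
    ⟨0, 0⟩, ⟨-14, -28⟩, ⟨0, 0⟩;
    ⟨-35, -21⟩, ⟨35, 21⟩, ⟨-35, -21⟩]

def mL : Matrix (Fin 3) (Fin 3) Z2 :=
  !![⟨3, 0⟩, ⟨0, 1⟩, ⟨0, 1⟩;
    ⟨0, 0⟩, ⟨7, 0⟩, ⟨-2, 3⟩;
    ⟨0, 0⟩, ⟨0, 0⟩, ⟨1, 0⟩]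

def wDen : Z2 := ⟨294, -98⟩

def spanDen : Z2 := ⟨32928, 0⟩

def spanCoeff : Fin 3 × Fin 3 → Fin 9 → Z2 := fun p => match p.1, p.2 with
  | 0, 0 => ![⟨10976, 0⟩, ⟨64, 80⟩, ⟨0, 48⟩, ⟨128, 64⟩, ⟨8, -5⟩, ⟨-64, 16⟩, ⟨144, 24⟩, ⟨128, 104⟩, ⟨2, 2⟩]
  | 0, 1 => ![⟨0, 0⟩, ⟨64, 80⟩, ⟨0, 48⟩, ⟨112, 96⟩, ⟨16, 3⟩, ⟨-64, -32⟩, ⟨144, 72⟩, ⟨64, 136⟩, ⟨-8, 1⟩]
  | 0, 2 => ![⟨0, 0⟩, ⟨-160, 112⟩, ⟨-96, 48⟩, ⟨-80, 160⟩, ⟨10, 7⟩, ⟨-80, -64⟩, ⟨0, 144⟩, ⟨-144, 136⟩, ⟨0, -8⟩]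
  | 1, 0 => ![⟨0, 0⟩, ⟨0, 64⟩, ⟨0, 48⟩, ⟨-16, 56⟩, ⟨8, 2⟩, ⟨0, 32⟩, ⟨0, 72⟩, ⟨-80, 24⟩, ⟨-2, -6⟩]
  | 1, 1 => ![⟨10976, 0⟩, ⟨16, 40⟩, ⟨0, 48⟩, ⟨32, 48⟩, ⟨2, 3⟩, ⟨-16, 8⟩, ⟨-48, 24⟩, ⟨-64, -8⟩, ⟨-4, -5⟩]
  | 1, 2 => ![⟨0, 0⟩, ⟨-112, -72⟩, ⟨-144, -48⟩, ⟨-144, -80⟩, ⟨0, 1⟩, ⟨-32, -24⟩, ⟨-96, -48⟩, ⟨-128, -112⟩, ⟨10, 5⟩]
  | 2, 0 => ![⟨0, 0⟩, ⟨-192, -96⟩, ⟨-144, -72⟩, ⟨-112, -24⟩, ⟨8, 9⟩, ⟨-96, -48⟩, ⟨-48, -24⟩, ⟨-128, -72⟩, ⟨4, 6⟩]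
  | 2, 1 => ![⟨0, 0⟩, ⟨-128, -24⟩, ⟨-144, -72⟩, ⟨-176, 24⟩, ⟨-2, 9⟩, ⟨-16, -48⟩, ⟨-48, 24⟩, ⟨-128, -24⟩, ⟨4, -3⟩]
  | 2, 2 => ![⟨10976, 0⟩, ⟨-80, -120⟩, ⟨0, -96⟩, ⟨-160, -112⟩, ⟨-10, 2⟩, ⟨80, -24⟩, ⟨-96, -48⟩, ⟨-64, -96⟩, ⟨2, 3⟩]
/-- `mA * mB * mA * mC`, which is twice the element with eigenvalues `1, λ, conj λ`. -/
def mG : Matrix (Fin 3) (Fin 3) Z2 := mA * mB * mA * mC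

/-- The diagonalized derivation direction. -/
def mX : Matrix (Fin 3) (Fin 3) Z2 := mV * Matrix.diagonal ![0, 1, -1] * mW

/-- Twice the eigenvalues of the element represented by `mG`. -/
def gEig : Fin 3 → Z2 := ![⟨2, 0⟩, ⟨-1, 1⟩, ⟨-2, -1⟩]

/-- Conjugates of `mX`, together with the identity. -/
def spanVec : Fin 9 → Matrix (Fin 3) (Fin 3) Z2 :=
  ![1, mX, mA * mX * (mA * mA), mB * mX * (mB * mB), mC * mX * (mC * mC),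
    (mA * mB) * mX * (mB * mB * (mA * mA)), (mB * mA) * mX * (mA * mA * (mB * mB)),
    (mB * mB) * mX * (mB * mB * (mB * mB)), (mB * mC) * mX * (mC * mC * (mB * mB))]

lemma mA_cube : mA * mA * mA = 1 := by decide +kernel
lemma mB_cube : mB * mB * mB = 1 := by decide +kernel
lemma mC_cube : mC * mC * mC = (8 : Z2) • (1 : Matrix (Fin 3) (Fin 3) Z2) := by decide +kernel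
lemma mA_herm : mA.conjTranspose * mH * mA = mH := by decide +kernel
lemma mB_herm : mB.conjTranspose * mH * mB = mH := by decide +kernel
lemma mC_herm : mC.conjTranspose * mH * mC = (4 : Z2) • mH := by decide +kernel
lemma pair1_seven : (mA * mA * mB) ^ 7 = 1 := by decide +kernel
lemma pair1_rel :
    mA * (mA * mA * mB) * (mA * mA) = (mA * mA * mB) ^ 2 := by decide +kernel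
lemma pair2_seven : (mA * mA * mC) ^ 7 = (128 : Z2) • (1 : Matrix (Fin 3) (Fin 3) Z2) := by
  decide +kernel
lemma pair2_rel :
    (2 : Z2) • (mA * mA * (mA * mA * mC) * mA) = (mA * mA * mC) ^ 2 := by decide +kernel
lemma pair3_seven :
    (mB * mB * (mC * mC)) ^ 7 = (16384 : Z2) • (1 : Matrix (Fin 3) (Fin 3) Z2) := by
  decide +kernel
lemma pair3_rel : (4 : Z2) • (mB * mB * (mB * mB * (mC * mC)) * mB)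
    = (mB * mB * (mC * mC)) ^ 2 := by decide +kernel
lemma mW_mV : mW * mV = wDen • (1 : Matrix (Fin 3) (Fin 3) Z2) := by decide +kernel
lemma mV_mW : mV * mW = wDen • (1 : Matrix (Fin 3) (Fin 3) Z2) := by decide +kernel
lemma mG_mV : mG * mV = mV * Matrix.diagonal gEig := by decide +kernel
lemma mL_herm : mL.conjTranspose * Matrix.diagonal ![7, 1, 21] * mL = (21 : Z2) • mH := by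
  decide +kernel
lemma spanVec_eq : ∀ p : Fin 3 × Fin 3,
    ∑ j, spanCoeff p j • spanVec j
      = spanDen • (Matrix.single p.1 p.2 1 : Matrix (Fin 3) (Fin 3) Z2) := by decide +kernel

end Vale.Agent.P083
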