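import Mathlib

/-!
Robust spectral gap for three approximately periodic elements whose pairs come from the group of
order twenty-one.
-/

namespace Vale.Agent.P083

open Finset

/-- The nonabelian group of order twenty-one. -/
@[ext] structure F21 where
  x : ZMod 7
  a : ZMod 3
deriving DecidableEq

namespace F21

/-- `F21` as a product type. -/
def equiv : F21 ≃ ZMod 7 × ZMod 3 where
  toFun g := (g.x, g.a)
  invFun p := ⟨p.1, p.2⟩
  left_inv _ := rfl
  right_inv _ := rfl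

instance : Fintype F21 := Fintype.ofEquiv _ equiv.symm

instance : One F21 := ⟨⟨0, 0⟩⟩
instance : Mul F21 := ⟨fun u v => ⟨u.x + 2 ^ u.a.val * v.x, u.a + v.a⟩⟩
instance : Inv F21 := ⟨fun u => ⟨-(2 ^ (-u.a).val * u.x), -u.a⟩⟩

instance : Group F21 where
  mul_assoc := by decide +kernel
  one_mul := by decide +kernel
  mul_one := by decide +kernel
  inv_mul_cancel := by decide +kernel

/-- The generator of order three. -/
def al : F21 := ⟨0, 1⟩
/-- The generator of order seven. -/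
def xi : F21 := ⟨1, 0⟩

/-- Convolution. -/
def conv (f g : F21 → ℤ) : F21 → ℤ := fun w => ∑ u, f u * g (u⁻¹ * w)

/-- A group element as a function. -/
def dl (h : F21) : F21 → ℤ := fun u => if u = h then 1 else 0

/-- The element `2 - h - h^2`. -/
def pe (h : F21) : F21 → ℤ := 2 • dl 1 - dl h - dl (h * h)

/-- The second generator of an edge. -/
def IsSecond (h : F21) : Prop := h = al * xi ∨ h = al * al * xi

/-- The sum of the two edge operators. -/
def de (h : F21) : F21 → ℤ := pe al + pe h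

/-- The annihilating polynomial evaluated at `de h`. -/
def fe (h : F21) : F21 → ℤ :=
  conv (conv (de h) (de h - 6 • dl 1))
    (conv (de h - 3 • dl 1) (de h - 3 • dl 1) - 2 • dl 1)

lemma fe_zero (h : F21) (hh : IsSecond h) : fe h = 0 := by
  funext w
  rcases hh with rfl | rfl <;> revert w <;> decide +kernel

lemma pe_sq_al : conv (pe al) (pe al) = 3 • pe al := by
  funext w; revert w; decide +kernel

lemma pe_sq (h : F21) (hh : IsSecond h) : conv (pe h) (pe h) = 3 • pe h := by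
  funext w
  rcases hh with rfl | rfl <;> revert w <;> decide +kernel

/-- The `l^1` norm. -/
def l1 (f : F21 → ℤ) : ℝ := ∑ u, |(f u : ℝ)|

lemma l1_nonneg (f : F21 → ℤ) : 0 ≤ l1 f := Finset.sum_nonneg fun _ _ => abs_nonneg _

end F21

open F21

variable {B : Type*} [CStarAlgebra B]

/-- Linear extension of a function on `F21`. -/
def lin (V : F21 → B) (f : F21 → ℤ) : B := ∑ u, (f u) • V u

lemma lin_add (V : F21 → B) (f g : F21 → ℤ) : lin V (f + g) = lin V f + lin V g := by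
  simp [lin, add_smul, Finset.sum_add_distrib]

lemma lin_sub (V : F21 → B) (f g : F21 → ℤ) : lin V (f - g) = lin V f - lin V g := by
  simp [lin, sub_smul, Finset.sum_sub_distrib]

lemma lin_nsmul (V : F21 → B) (k : ℕ) (f : F21 → ℤ) : lin V (k • f) = k • lin V f := by
  simp [lin, Finset.smul_sum, mul_smul, ← Int.cast_smul_eq_zsmul ℂ, ← Nat.cast_smul_eq_nsmul ℂ]

lemma lin_dl (V : F21 → B) (h : F21) : lin V (dl h) = V h := by
  simp [lin, dl, ite_smul]

lemma norm_lin_le {V : F21 → B} {C : ℝ} (hV : ∀ u, ‖V u‖ ≤ C) (f : F21 → ℤ) :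
    ‖lin V f‖ ≤ C * l1 f := by
  refine (norm_sum_le _ _).trans ?_
  rw [l1, Finset.mul_sum]
  refine Finset.sum_le_sum fun u _ => ?_
  rw [← Int.cast_smul_eq_zsmul ℂ, norm_smul, mul_comm C]
  simp only [Complex.norm_intCast]
  exact mul_le_mul_of_nonneg_left (hV u) (abs_nonneg _)

lemma lin_conv {V : F21 → B} {δ : ℝ} (hm : ∀ u v, ‖V u * V v - V (u * v)‖ ≤ δ)
    (f g : F21 → ℤ) : ‖lin V f * lin V g - lin V (conv f g)‖ ≤ δ * (l1 f * l1 g) := by
  have e : lin V (conv f g) = ∑ u, ∑ v, (f u * g v) • V (u * v) := by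
    simp only [lin, conv, Finset.sum_smul]
    rw [Finset.sum_comm]
    refine Finset.sum_congr rfl fun u _ => ?_
    exact (Fintype.sum_equiv (Equiv.mulLeft u) _ _ fun v => by simp).symm
  have e' : lin V f * lin V g = ∑ u, ∑ v, (f u * g v) • (V u * V v) := by
    simp only [lin, Finset.sum_mul, Finset.mul_sum, smul_mul_smul_comm]
    rw [Finset.sum_comm]
  have e'' : δ * (l1 f * l1 g) = ∑ u, ∑ v, δ * (|(f u : ℝ)| * |(g v : ℝ)|) := by
    rw [l1, l1, Finset.sum_mul_sum, Finset.mul_sum]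
    simp only [Finset.mul_sum]
  rw [e, e', e'', ← Finset.sum_sub_distrib]
  simp only [← Finset.sum_sub_distrib, ← smul_sub]
  refine (norm_sum_le _ _).trans (Finset.sum_le_sum fun u _ => ?_)
  refine (norm_sum_le _ _).trans (Finset.sum_le_sum fun v _ => ?_)
  rw [← Int.cast_smul_eq_zsmul ℂ, norm_smul, mul_comm δ, Complex.norm_intCast, Int.cast_mul,
    abs_mul]
  exact mul_le_mul_of_nonneg_left (hm u v) (mul_nonneg (abs_nonneg _) (abs_nonneg _))

/-- `X` is within `k δ` of `lin V f` and has norm at most `a`. -/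
def App (V : F21 → B) (δ : ℝ) (f : F21 → ℤ) (X : B) (k a : ℝ) : Prop :=
  ‖X - lin V f‖ ≤ k * δ ∧ ‖X‖ ≤ a

lemma App.add {V : F21 → B} {δ : ℝ} {f g : F21 → ℤ} {X Y : B} {k l a b : ℝ}
    (hX : App V δ f X k a) (hY : App V δ g Y l b) :
    App V δ (f + g) (X + Y) (k + l) (a + b) :=
  ⟨by rw [lin_add, add_mul, add_sub_add_comm]; exact (norm_add_le _ _).trans (add_le_add hX.1 hY.1),
    (norm_add_le _ _).trans (add_le_add hX.2 hY.2)⟩

lemma App.sub_one {V : F21 → B} {δ : ℝ} (h1 : ‖V 1 - 1‖ ≤ δ) {f : F21 → ℤ}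
    {X : B} {k a : ℝ} (hX : App V δ f X k a) (c : ℕ) :
    App V δ (f - c • dl 1) (X - (c : ℝ) • 1) (k + c) (a + c * ‖(1 : B)‖) := by
  have hc : (c : ℝ) • (1 : B) = c • (1 : B) := Nat.cast_smul_eq_nsmul ℝ c 1
  have hn : ‖(c : ℝ) • (1 : B)‖ = c * ‖(1 : B)‖ := by simp [norm_smul]
  refine ⟨?_, (norm_sub_le _ _).trans (by rw [hn]; linarith [hX.2])⟩
  rw [lin_sub, lin_nsmul, lin_dl, hc,
    show X - c • (1 : B) - (lin V f - c • V 1) = (X - lin V f) + c • (V 1 - 1) by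
      rw [smul_sub]; abel]
  refine (norm_add_le _ _).trans ?_
  rw [← Nat.cast_smul_eq_nsmul ℝ c (V 1 - 1), norm_smul, Real.norm_natCast, add_mul]
  exact add_le_add hX.1 (mul_le_mul_of_nonneg_left h1 (Nat.cast_nonneg c))

lemma App.mul {V : F21 → B} {C δ : ℝ} (hV : ∀ u, ‖V u‖ ≤ C)
    (hm : ∀ u v, ‖V u * V v - V (u * v)‖ ≤ δ) {f g : F21 → ℤ} {X Y : B} {k l a b : ℝ}
    (hX : App V δ f X k a) (hY : App V δ g Y l b) :
    App V δ (conv f g) (X * Y) (k * b + C * l1 f * l + l1 f * l1 g) (a * b) := by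
  refine ⟨?_, (norm_mul_le _ _).trans (mul_le_mul hX.2 hY.2 (norm_nonneg _)
    ((norm_nonneg _).trans hX.2))⟩
  have e : X * Y - lin V (conv f g) = (X - lin V f) * Y + lin V f * (Y - lin V g)
      + (lin V f * lin V g - lin V (conv f g)) := by noncomm_ring
  rw [e]
  refine (norm_add₃_le).trans ?_
  have h1 : ‖(X - lin V f) * Y‖ ≤ k * δ * b := (norm_mul_le _ _).trans
    (mul_le_mul hX.1 hY.2 (norm_nonneg _) ((norm_nonneg _).trans hX.1))
  have h2 : ‖lin V f * (Y - lin V g)‖ ≤ C * l1 f * (l * δ) := (norm_mul_le _ _).trans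
    (mul_le_mul (norm_lin_le hV f) hY.1 (norm_nonneg _)
      ((norm_nonneg _).trans (norm_lin_le hV f)))
  have h3 := lin_conv hm f g
  linarith

/-- Two operators come, up to `δ`, from the edge group of order twenty-one. -/
def EdgeData (C δ : ℝ) (P Q : B) : Prop :=
  ∃ (h : F21) (V : F21 → B), IsSecond h ∧ (∀ u, ‖V u‖ ≤ C) ∧
    (∀ u v, ‖V u * V v - V (u * v)‖ ≤ δ) ∧ ‖V 1 - 1‖ ≤ δ ∧
    ‖P - lin V (pe al)‖ ≤ δ ∧ ‖Q - lin V (pe h)‖ ≤ δ

/-- The annihilating polynomial. -/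
def fpoly (t : ℝ) : ℝ := t * (t - 6) * ((t - 3) * (t - 3) - 2)

lemma edge_bounds (C : ℝ) (hC : 0 ≤ C) :
    ∃ K : ℝ, 0 ≤ K ∧ ∀ (B : Type) [CStarAlgebra B], ‖(1 : B)‖ ≤ 1 →
      ∀ (δ : ℝ), 0 ≤ δ → δ ≤ 1 → ∀ P Q : B, EdgeData C δ P Q →
      ‖P * P - (3 : ℝ) • P‖ ≤ K * δ ∧ ‖Q * Q - (3 : ℝ) • Q‖ ≤ K * δ ∧
      ‖(P + Q) * (P + Q - (6 : ℝ) • 1)
          * ((P + Q - (3 : ℝ) • 1) * (P + Q - (3 : ℝ) • 1) - (2 : ℝ) • 1)‖ ≤ K * δ := by
  have key : ∀ (h : F21), IsSecond h → ∃ K : ℝ, ∀ (B : Type) [CStarAlgebra B], ‖(1 : B)‖ ≤ 1 →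
      ∀ (δ : ℝ), 0 ≤ δ → δ ≤ 1 → ∀ P Q : B,
      ∀ V : F21 → B, (∀ u, ‖V u‖ ≤ C) →
      (∀ u v, ‖V u * V v - V (u * v)‖ ≤ δ) → ‖V 1 - 1‖ ≤ δ →
      ‖P - lin V (pe al)‖ ≤ δ → ‖Q - lin V (pe h)‖ ≤ δ →
      ‖P * P - (3 : ℝ) • P‖ ≤ K * δ ∧ ‖Q * Q - (3 : ℝ) • Q‖ ≤ K * δ ∧
      ‖(P + Q) * (P + Q - (6 : ℝ) • 1)
          * ((P + Q - (3 : ℝ) • 1) * (P + Q - (3 : ℝ) • 1) - (2 : ℝ) • 1)‖ ≤ K * δ := by
    intro h hh
    set A := C * l1 (pe al) + 1
    set A' := C * l1 (pe h) + 1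
    set kP := (1 * A + C * l1 (pe al) * 1 + l1 (pe al) * l1 (pe al)) + 3
    set kQ := (1 * A' + C * l1 (pe h) * 1 + l1 (pe h) * l1 (pe h)) + 3
    set aD := A + A'
    set k1 := 2 * (aD + 6) + C * l1 (de h) * (2 + 6) + l1 (de h) * l1 (de h - 6 • dl 1)
    set f3 := de h - 3 • dl 1
    set k2 := (2 + 3) * (aD + 3) + C * l1 f3 * (2 + 3) + l1 f3 * l1 f3 + 2
    set k3 := k1 * ((aD + 3) * (aD + 3) + 2)
      + C * l1 (conv (de h) (de h - 6 • dl 1)) * k2
      + l1 (conv (de h) (de h - 6 • dl 1)) * l1 (conv f3 f3 - 2 • dl 1)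
    refine ⟨max kP (max kQ k3), fun B _ h1 δ hδ hδ1 P Q V hV hm hone hP hQ => ?_⟩
    have appP : App V δ (pe al) P 1 A := by
      refine ⟨by simpa using hP, ?_⟩
      have := norm_le_norm_add_norm_sub' P (lin V (pe al))
      linarith [norm_lin_le hV (pe al)]
    have appQ : App V δ (pe h) Q 1 A' := by
      refine ⟨by simpa using hQ, ?_⟩
      have := norm_le_norm_add_norm_sub' Q (lin V (pe h))
      linarith [norm_lin_le hV (pe h)]
    have sq : ∀ (f : F21 → ℤ) (X : B) (M : ℝ), App V δ f X 1 M → conv f f = 3 • f →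
        ‖X * X - (3 : ℝ) • X‖
          ≤ ((1 * M + C * l1 f * 1 + l1 f * l1 f) + 3) * δ := by
      intro f X M hX hf
      have hp := (hX.mul hV hm hX).1
      rw [hf, lin_nsmul, ← Nat.cast_smul_eq_nsmul ℝ] at hp
      rw [show X * X - (3 : ℝ) • X
        = (X * X - ((3 : ℕ) : ℝ) • lin V f) - (3 : ℝ) • (X - lin V f) by
          rw [smul_sub]; push_cast; abel]
      refine (norm_sub_le _ _).trans ?_
      rw [norm_smul, Real.norm_ofNat, add_mul]
      refine add_le_add hp ?_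
      have := hX.1
      linarith
    have appD : App V δ (de h) (P + Q) (1 + 1) (A + A') := appP.add appQ
    have a6 := appD.sub_one hone 6
    have a3 := appD.sub_one hone 3
    have a33 := (a3.mul hV hm a3).sub_one hone 2
    have af := ((appD.mul hV hm a6).mul hV hm a33).1
    rw [show conv (conv (de h) (de h - 6 • dl 1))
      (conv (de h - 3 • dl 1) (de h - 3 • dl 1) - 2 • dl 1) = 0 from fe_zero h hh] at af
    simp only [lin, Pi.zero_apply, zero_smul, Finset.sum_const_zero, sub_zero,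
      Nat.cast_ofNat] at af
    refine ⟨(sq _ _ _ appP pe_sq_al).trans ?_, (sq _ _ _ appQ (pe_sq h hh)).trans ?_,
      af.trans ?_⟩
    · exact mul_le_mul_of_nonneg_right (le_max_left _ _) hδ
    · exact mul_le_mul_of_nonneg_right (le_max_of_le_right (le_max_left _ _)) hδ
    · refine mul_le_mul_of_nonneg_right (le_trans ?_ (le_max_of_le_right (le_max_right _ _))) hδ
      have hA : 0 ≤ A := by have := l1_nonneg (pe al); positivity
      have hA' : 0 ≤ A' := by have := l1_nonneg (pe h); positivity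
      have := l1_nonneg (de h)
      have := l1_nonneg f3
      have := l1_nonneg (conv (de h) (de h - 6 • dl 1))
      have n6 : A + A' + 6 * ‖(1 : B)‖ ≤ aD + 6 := by linarith
      have n3 : A + A' + 3 * ‖(1 : B)‖ ≤ aD + 3 := by linarith
      have : 0 ≤ A + A' + 3 * ‖(1 : B)‖ := by positivity
      have := l1_nonneg (de h - 6 • dl 1)
      have : 0 ≤ aD := add_nonneg hA hA'
      simp only [k3, k1, k2, one_add_one_eq_two]
      gcongr
      linarith
  obtain ⟨K1, hK1⟩ := key _ (Or.inl rfl)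
  obtain ⟨K2, hK2⟩ := key _ (Or.inr rfl)
  refine ⟨max 0 (max K1 K2), le_max_left _ _, ?_⟩
  rintro B _ h1 δ hδ hδ1 P Q ⟨h, V, hh, hV, hm, hone, hP, hQ⟩
  rcases hh with rfl | rfl
  · obtain ⟨e1, e2, e3⟩ := hK1 B h1 δ hδ hδ1 P Q V hV hm hone hP hQ
    have := mul_le_mul_of_nonneg_right
      (le_max_of_le_right (le_max_left K1 K2) : K1 ≤ max 0 (max K1 K2)) hδ
    exact ⟨e1.trans this, e2.trans this, e3.trans this⟩
  · obtain ⟨e1, e2, e3⟩ := hK2 B h1 δ hδ hδ1 P Q V hV hm hone hP hQ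
    have := mul_le_mul_of_nonneg_right
      (le_max_of_le_right (le_max_right K1 K2) : K2 ≤ max 0 (max K1 K2)) hδ
    exact ⟨e1.trans this, e2.trans this, e3.trans this⟩

variable [PartialOrder B] [StarOrderedRing B]

lemma self_le_of_norm_le {x : B} (hx : IsSelfAdjoint x) {r : ℝ} (h : ‖x‖ ≤ r) :
    x ≤ r • 1 := by
  rw [← Algebra.algebraMap_eq_smul_one]
  exact hx.le_algebraMap_norm_self.trans (algebraMap_mono B h)

/-- The spectral consequences of the annihilating polynomial. -/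
lemma edge_order {D : B} (hD : IsSelfAdjoint D) {ε : ℝ}
    (h : ‖D * (D - (6 : ℝ) • 1) * ((D - (3 : ℝ) • 1) * (D - (3 : ℝ) • 1) - (2 : ℝ) • 1)‖ ≤ ε) :
    0 ≤ D + ε • 1 ∧ 0 ≤ D * D - (39 / 25 : ℝ) • D + (7 * ε) • 1 := by
  have e1 : cfc (fun t : ℝ => t) D = D := cfc_id' ℝ D
  have ec : ∀ c : ℝ, cfc (fun _ : ℝ => c) D = c • (1 : B) := fun c => by
    rw [cfc_const c D, Algebra.algebraMap_eq_smul_one]
  have ef : cfc fpoly D
      = D * (D - (6 : ℝ) • 1) * ((D - (3 : ℝ) • 1) * (D - (3 : ℝ) • 1) - (2 : ℝ) • 1) := by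
    unfold fpoly
    rw [cfc_mul (fun t : ℝ => t * (t - 6)) (fun t : ℝ => (t - 3) * (t - 3) - 2) D,
      cfc_mul (fun t : ℝ => t) (fun t : ℝ => t - 6) D,
      cfc_sub (fun t : ℝ => (t - 3) * (t - 3)) (fun _ : ℝ => (2 : ℝ)) D,
      cfc_mul (fun t : ℝ => t - 3) (fun t : ℝ => t - 3) D,
      cfc_sub (fun t : ℝ => t) (fun _ : ℝ => (6 : ℝ)) D,
      cfc_sub (fun t : ℝ => t) (fun _ : ℝ => (3 : ℝ)) D, e1, ec, ec, ec]
  have hb : ∀ t ∈ spectrum ℝ D, |fpoly t| ≤ ε := by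
    intro t ht
    have := norm_apply_le_norm_cfc fpoly D ht (by unfold fpoly; fun_prop) hD
    rw [ef, Real.norm_eq_abs] at this
    exact this.trans h
  have bd : ∀ t ∈ spectrum ℝ D, 0 ≤ t + ε ∧ 0 ≤ t * t - 39 / 25 * t + 7 * ε := by
    intro t ht
    have hε := (abs_nonneg _).trans (hb t ht)
    rcases le_or_gt t 0 with h0 | h0
    · have h1 : 0 ≤ (6 - t) * ((t - 3) * (t - 3) - 2) - 1 := by nlinarith
      have : -t ≤ |fpoly t| := by
        refine le_trans ?_ (le_abs_self _)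
        unfold fpoly
        nlinarith [mul_nonneg (neg_nonneg.2 h0) h1]
      constructor <;> nlinarith [hb t ht]
    · refine ⟨by linarith, ?_⟩
      rcases le_or_gt t (39 / 25) with h2 | h2
      · have a2 : 736 / 10000 ≤ (t - 3) * (t - 3) - 2 := by nlinarith
        have h1 : (1 : ℝ) / 4 ≤ (6 - t) * ((t - 3) * (t - 3) - 2) := by nlinarith
        have : t / 4 ≤ |fpoly t| := by
          refine le_trans ?_ (neg_le_abs _)
          unfold fpoly
          nlinarith [mul_le_mul_of_nonneg_left h1 h0.le]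
        nlinarith [hb t ht]
      · nlinarith
  constructor
  · rw [show D + ε • 1 = cfc (fun t : ℝ => t + ε) D by rw [cfc_add .., e1, ec]]
    exact cfc_nonneg fun t ht => (bd t ht).1
  · rw [show D * D - (39 / 25 : ℝ) • D + (7 * ε) • 1
        = cfc (fun t : ℝ => t * t - 39 / 25 * t + 7 * ε) D by
      rw [cfc_add (a := D) (fun t : ℝ => t * t - 39 / 25 * t) (fun _ => 7 * ε),
        cfc_sub (fun t : ℝ => t * t) (fun t : ℝ => 39 / 25 * t) D,
        cfc_mul (fun t : ℝ => t) (fun t : ℝ => t) D, cfc_const_mul (39 / 25 : ℝ) (fun t : ℝ => t) D,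
        e1, ec]]
    exact cfc_nonneg fun t ht => (bd t ht).2

/-- The robust gap: three operators, pairwise from edge groups. -/
lemma triangle_gap {P₁ P₂ P₃ : B} (hP : IsSelfAdjoint P₁ ∧ IsSelfAdjoint P₂ ∧ IsSelfAdjoint P₃)
    {ε : ℝ} (hε : 0 ≤ ε)
    (s₁ : ‖P₁ * P₁ - (3 : ℝ) • P₁‖ ≤ ε) (s₂ : ‖P₂ * P₂ - (3 : ℝ) • P₂‖ ≤ ε)
    (s₃ : ‖P₃ * P₃ - (3 : ℝ) • P₃‖ ≤ ε)
    (hf : ∀ D ∈ ({P₁ + P₂, P₁ + P₃, P₂ + P₃} : Set B),
      ‖D * (D - (6 : ℝ) • 1) * ((D - (3 : ℝ) • 1) * (D - (3 : ℝ) • 1) - (2 : ℝ) • 1)‖ ≤ ε) :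
    0 ≤ P₁ + P₂ + P₃ + (24 * ε) • (1 : B) ∧
    0 ≤ (P₁ + P₂ + P₃) * (P₁ + P₂ + P₃) - (3 / 25 : ℝ) • (P₁ + P₂ + P₃) + (24 * ε) • (1 : B) := by
  obtain ⟨a12, b12⟩ := edge_order (hP.1.add hP.2.1) (hf _ (by simp))
  obtain ⟨a13, b13⟩ := edge_order (hP.1.add hP.2.2) (hf _ (by simp))
  obtain ⟨a23, b23⟩ := edge_order (hP.2.1.add hP.2.2) (hf _ (by simp))
  have c : ∀ P : B, IsSelfAdjoint P → ‖P * P - (3 : ℝ) • P‖ ≤ ε →
      0 ≤ (3 : ℝ) • P - P * P + ε • 1 := by
    intro P hP hs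
    have hx : IsSelfAdjoint (P * P - (3 : ℝ) • P) := by
      refine IsSelfAdjoint.sub ?_ (IsSelfAdjoint.smul (star_trivial _) hP)
      simpa only [hP.star_eq] using IsSelfAdjoint.mul_star_self P
    have := sub_nonneg.2 (self_le_of_norm_le hx hs)
    convert this using 1
    abel
  have one0 : (0 : B) ≤ 1 := zero_le_one
  constructor
  · have := add_nonneg (add_nonneg (smul_nonneg (by norm_num : (0 : ℝ) ≤ 1 / 2) a12)
      (smul_nonneg (by norm_num : (0 : ℝ) ≤ 1 / 2) a13))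
      (smul_nonneg (by norm_num : (0 : ℝ) ≤ 1 / 2) a23)
    have h' := add_nonneg this (smul_nonneg (by positivity : (0 : ℝ) ≤ 45 / 2 * ε) one0)
    convert h' using 1
    module
  · have := add_nonneg (add_nonneg b12 b13) b23
    have := add_nonneg this (add_nonneg (add_nonneg (c _ hP.1 s₁) (c _ hP.2.1 s₂)) (c _ hP.2.2 s₃))
    convert this using 1
    simp only [add_mul, mul_add]
    module

/-- Approximate spectral projection onto the almost-kernel. -/
lemma gap_projection {D : B} (hD : IsSelfAdjoint D) {ε : ℝ} (hε : 0 ≤ ε)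
    (h1 : 0 ≤ D + ε • (1 : B)) (h2 : 0 ≤ D * D - (3 / 25 : ℝ) • D + ε • (1 : B)) :
    ∃ g k : B, g + k * D = 1 ∧ ‖D * g‖ ≤ 17 * ε ∧ ‖k‖ ≤ 34 := by
  set g : ℝ → ℝ := fun t => max 0 (min 1 (2 - 100 / 3 * t)) with hg
  set k : ℝ → ℝ := fun t => (1 - g t) / max t (3 / 100) with hk
  have hgc : Continuous g := by fun_prop
  have hkc : Continuous k := by
    refine Continuous.div (by fun_prop) (by fun_prop) fun t => ?_
    exact ne_of_gt (lt_of_lt_of_le (by norm_num) (le_max_right _ _))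
  have e1 : cfc (fun t : ℝ => t) D = D := cfc_id' ℝ D
  have hs1 : ∀ t ∈ spectrum ℝ D, 0 ≤ t + ε := by
    rw [← cfc_nonneg_iff (fun t : ℝ => t + ε) D]
    rw [cfc_add .., e1, cfc_const ε D, Algebra.algebraMap_eq_smul_one]
    exact h1
  have hs2 : ∀ t ∈ spectrum ℝ D, 0 ≤ t * t - 3 / 25 * t + ε := by
    rw [← cfc_nonneg_iff (fun t : ℝ => t * t - 3 / 25 * t + ε) D]
    rw [cfc_add (a := D) (fun t : ℝ => t * t - 3 / 25 * t) (fun _ => ε),
      cfc_sub (fun t : ℝ => t * t) (fun t : ℝ => 3 / 25 * t) D,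
      cfc_mul (fun t : ℝ => t) (fun t : ℝ => t) D,
      cfc_const_mul (3 / 25 : ℝ) (fun t : ℝ => t) D,
      e1, cfc_const ε D, Algebra.algebraMap_eq_smul_one]
    exact h2
  have hgval : ∀ t, 0 ≤ g t ∧ g t ≤ 1 ∧ (t ≤ 3 / 100 → g t = 1) ∧ (3 / 50 ≤ t → g t = 0) := by
    intro t
    refine ⟨le_max_left _ _, max_le zero_le_one (min_le_left _ _), fun h => ?_, fun h => ?_⟩
    · simp only [hg]; rw [min_eq_left (by linarith), max_eq_right zero_le_one]
    · simp only [hg]; rw [max_eq_left]; exact (min_le_right _ _).trans (by linarith)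
  refine ⟨cfc g D, cfc k D, ?_, ?_, ?_⟩
  · conv_lhs => arg 2; arg 2; rw [← e1]
    rw [← cfc_mul k (fun t => t) D hkc.continuousOn continuous_id.continuousOn,
      ← cfc_add (a := D) g (fun t => k t * t) hgc.continuousOn
        (hkc.mul continuous_id).continuousOn, ← cfc_one ℝ D]
    refine cfc_congr fun t _ => ?_
    simp only [hk]
    rcases le_or_gt t (3 / 100) with h | h
    · simp [(hgval t).2.2.1 h]
    · rw [max_eq_left h.le, div_mul_cancel₀ _ (by linarith)]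
      simp
  · conv_lhs => arg 1; arg 1; rw [← e1]
    rw [← cfc_mul (fun t => t) g D continuous_id.continuousOn hgc.continuousOn]
    refine norm_cfc_le (by positivity) fun t ht => ?_
    obtain ⟨g0, g1, -, g3⟩ := hgval t
    rw [Real.norm_eq_abs, abs_mul, abs_of_nonneg g0]
    rcases le_or_gt (3 / 50) t with h | h
    · simp [g3 h]; positivity
    · refine (mul_le_of_le_one_right (abs_nonneg _) g1).trans ?_
      rw [abs_le]
      constructor
      · linarith [hs1 t ht]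
      · rcases le_or_gt t 0 with h0 | h0
        · linarith
        · nlinarith [hs2 t ht]
  · refine norm_cfc_le (by norm_num) fun t _ => ?_
    obtain ⟨g0, g1, -, -⟩ := hgval t
    have hm : 3 / 100 ≤ max t (3 / 100) := le_max_right _ _
    rw [Real.norm_eq_abs, hk, abs_div, abs_of_pos (lt_of_lt_of_le (by norm_num) hm),
      abs_of_nonneg (by linarith), div_le_iff₀ (lt_of_lt_of_le (by norm_num) hm)]
    nlinarith

end Vale.Agent.P083
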