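import Vale.Agent.P083.Tensor
import Vale.Agent.P083.Data
import Vale.Agent.P083.Gap

/-!
The unitary representation of the triangle group, and irreducibility on symmetric tensors.
-/

namespace Vale.Agent.P083

open Finset Matrix
open scoped Real

/-- The complex number `θ`. -/
noncomputable def theta : ℂ := (-1 + Real.sqrt 7 * Complex.I) / 2

lemma theta_sq : theta * theta = (-2 : ℤ) • (1 : ℂ) + (-1 : ℤ) • theta := by
  have h : ((Real.sqrt 7 : ℝ) : ℂ) * (Real.sqrt 7 : ℝ) = 7 := by
    rw [← Complex.ofReal_mul, Real.mul_self_sqrt (by norm_num)]; norm_num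
  simp only [theta, zsmul_eq_mul, Int.cast_neg, Int.cast_ofNat, Int.cast_one]
  linear_combination (Complex.I * Complex.I / 4) * h + (7 / 4 : ℂ) * Complex.I_mul_I

/-- The embedding of `ℤ[θ]` into `ℂ`. -/
noncomputable def emb : Z2 →+* ℂ := (QuadraticAlgebra.lift ⟨theta, theta_sq⟩).toRingHom

lemma emb_apply (z : Z2) : emb z = (z.re : ℂ) + (z.im : ℂ) * theta := by
  simp [emb, QuadraticAlgebra.lift]

lemma star_theta : star theta = -1 - theta := by
  simp only [theta, Complex.star_def, map_div₀, map_add, map_neg, map_one, map_mul,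
    Complex.conj_ofReal, Complex.conj_I, map_ofNat]
  ring

lemma emb_star (z : Z2) : emb (star z) = star (emb z) := by
  simp [emb_apply, QuadraticAlgebra.re_star, QuadraticAlgebra.im_star, star_add, star_mul,
    star_theta]
  ring

lemma emb_injective : Function.Injective emb := by
  refine (injective_iff_map_eq_zero emb).2 fun z hz => ?_
  rw [emb_apply] at hz
  have h1 := congrArg Complex.im hz
  have h2 := congrArg Complex.re hz
  have h7 : (0 : ℝ) < Real.sqrt 7 := by positivity
  simp [theta] at h1 h2
  have him : z.im = 0 := h1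
  have hre : z.re = 0 := by
    simp [him] at h2
    exact h2
  ext <;> assumption

/-- Entrywise embedding of matrices. -/
noncomputable def embM : Matrix (Fin 3) (Fin 3) Z2 →+* Matrix (Fin 3) (Fin 3) ℂ := emb.mapMatrix

lemma embM_smul (c : Z2) (M : Matrix (Fin 3) (Fin 3) Z2) :
    embM (c • M) = emb c • embM M := by
  ext i j; simp [embM]

lemma embM_star (M : Matrix (Fin 3) (Fin 3) Z2) : embM Mᴴ = (embM M)ᴴ := by
  ext i j; simp [embM, emb_star]

/-- The three generators before unitarization. -/
noncomputable def gen0 : Fin 3 → Matrix (Fin 3) (Fin 3) ℂ :=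
  ![embM mA, embM mB, (1 / 2 : ℂ) • embM mC]

lemma gen0_cube (i : Fin 3) : gen0 i * gen0 i * gen0 i = 1 := by
  fin_cases i <;> simp only [gen0] <;> simp
  · rw [← map_mul, ← map_mul, mA_cube, map_one]
  · rw [← map_mul, ← map_mul, mB_cube, map_one]
  · rw [← map_mul, ← map_mul, mC_cube, embM_smul, map_one, smul_smul, map_ofNat]
    norm_num [smul_smul]

/-- The invariant Hermitian form. -/
noncomputable def formH : Matrix (Fin 3) (Fin 3) ℂ := embM mH

/-- A matrix `R` with `Rᴴ R = formH`. -/
noncomputable def unitarizer : Matrix (Fin 3) (Fin 3) ℂ :=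
  Matrix.diagonal ![((Real.sqrt (7 / 21) : ℝ) : ℂ), ((Real.sqrt (1 / 21) : ℝ) : ℂ), 1] * embM mL

lemma unitarizer_herm : unitarizerᴴ * unitarizer = formH := by
  have h := congrArg embM mL_herm
  rw [map_mul, map_mul, embM_star, embM_smul, map_ofNat] at h
  have e : (Matrix.diagonal ![((Real.sqrt (7 / 21) : ℝ) : ℂ), ((Real.sqrt (1 / 21) : ℝ) : ℂ), 1])ᴴ
      * Matrix.diagonal ![((Real.sqrt (7 / 21) : ℝ) : ℂ), ((Real.sqrt (1 / 21) : ℝ) : ℂ), 1]
      = (1 / 21 : ℂ) • embM (Matrix.diagonal ![7, 1, 21]) := by
    have sq : ∀ x : ℝ, 0 ≤ x → star ((Real.sqrt x : ℝ) : ℂ) * ((Real.sqrt x : ℝ) : ℂ) = (x : ℂ) :=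
      fun x hx => by
        rw [Complex.star_def, Complex.conj_ofReal, ← Complex.ofReal_mul, Real.mul_self_sqrt hx]
    have s1 := sq (7 / 21) (by norm_num)
    have s2 := sq (1 / 21) (by norm_num)
    push_cast at s1 s2
    rw [Matrix.diagonal_conjTranspose, Matrix.diagonal_mul_diagonal]
    ext i j
    by_cases hij : i = j
    · subst hij
      revert s1 s2
      generalize ((Real.sqrt (7 / 21) : ℝ) : ℂ) = u
      generalize ((Real.sqrt (1 / 21) : ℝ) : ℂ) = v
      intro s1 s2
      fin_cases i
      · simp [embM, map_ofNat]; simp at s1; rw [s1]; norm_num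
      · simp [embM, map_ofNat]; simp at s2; rw [s2]
      · simp [embM, map_ofNat]
    · simp [embM, hij]
  rw [unitarizer, Matrix.conjTranspose_mul, Matrix.mul_assoc, ← Matrix.mul_assoc (Matrix.diagonal _)ᴴ,
    e, Matrix.smul_mul, Matrix.mul_smul, ← Matrix.mul_assoc, h, smul_smul, formH]
  norm_num

lemma unitarizer_det : IsUnit unitarizer.det := by
  rw [unitarizer, Matrix.det_mul, Matrix.det_diagonal, isUnit_iff_ne_zero, embM,
    ← RingHom.map_det]
  refine mul_ne_zero ?_ ?_
  · simp [Fin.prod_univ_three, Complex.ofReal_eq_zero, Real.sqrt_eq_zero']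
  · rw [show mL.det = 21 by decide +kernel, map_ofNat]; norm_num

/-- The unitary generators. -/
noncomputable def gen (i : Fin 3) : Matrix (Fin 3) (Fin 3) ℂ :=
  unitarizer * gen0 i * unitarizer⁻¹

lemma gen0_herm (i : Fin 3) : (gen0 i)ᴴ * formH * gen0 i = formH := by
  fin_cases i <;> simp only [gen0, formH] <;> simp
  · rw [← embM_star, ← map_mul, ← map_mul, mA_herm]
  · rw [← embM_star, ← map_mul, ← map_mul, mB_herm]
  · rw [← embM_star, ← map_mul, ← map_mul, mC_herm, embM_smul, smul_smul, map_ofNat]
    norm_num [smul_smul]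

lemma gen_cube (i : Fin 3) : gen i * gen i * gen i = 1 := by
  have h := unitarizer_det
  simp only [gen, Matrix.mul_assoc, Matrix.nonsing_inv_mul_cancel_left _ _ h]
  rw [← Matrix.mul_assoc (gen0 i), ← Matrix.mul_assoc (gen0 i * gen0 i), gen0_cube, Matrix.one_mul,
    Matrix.mul_nonsing_inv _ h]

lemma gen_unitary (i : Fin 3) : (gen i)ᴴ * gen i = 1 := by
  have h := unitarizer_det
  calc (gen i)ᴴ * gen i
      = (unitarizer⁻¹)ᴴ * ((gen0 i)ᴴ * (unitarizerᴴ * unitarizer) * gen0 i) * unitarizer⁻¹ := by
        simp only [gen, Matrix.conjTranspose_mul, Matrix.mul_assoc]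
    _ = (unitarizer⁻¹)ᴴ * unitarizerᴴ * (unitarizer * unitarizer⁻¹) := by
        rw [unitarizer_herm, gen0_herm, ← unitarizer_herm]; simp only [Matrix.mul_assoc]
    _ = 1 := by
        rw [← Matrix.conjTranspose_mul, Matrix.mul_nonsing_inv _ h, Matrix.conjTranspose_one,
          Matrix.mul_one]

lemma gen_conjTranspose (i : Fin 3) : (gen i)ᴴ = gen i * gen i := by
  calc (gen i)ᴴ = (gen i)ᴴ * (gen i * gen i * gen i) := by rw [gen_cube, Matrix.mul_one]
    _ = ((gen i)ᴴ * gen i) * (gen i * gen i) := by simp only [Matrix.mul_assoc]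
    _ = gen i * gen i := by rw [gen_unitary, Matrix.one_mul]

/-- A representation of `F21` from a presentation. -/
def repOf {M : Type*} [Monoid M] (Y A : M) (u : F21) : M := Y ^ u.x.val * A ^ u.a.val

lemma repOf_mul {M : Type*} [Monoid M] {Y A : M} (hY : Y ^ 7 = 1) (hA : A ^ 3 = 1)
    (hR : A * Y = Y ^ 2 * A) (u v : F21) :
    repOf Y A u * repOf Y A v = repOf Y A (u * v) := by
  have h1 : ∀ k, A * Y ^ k = Y ^ (2 * k) * A := by
    intro k
    induction k with
    | zero => simp
    | succ k ih =>
      rw [pow_succ, ← mul_assoc, ih, mul_assoc, hR, ← mul_assoc, ← pow_add, mul_add, mul_one]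
  have h2 : ∀ m k, A ^ m * Y ^ k = Y ^ (2 ^ m * k) * A ^ m := by
    intro m
    induction m with
    | zero => intro k; simp
    | succ m ih =>
      intro k
      rw [pow_succ, mul_assoc, h1, ← mul_assoc, ih, mul_assoc]
      congr 2
      ring
  have hy : ∀ k, Y ^ (k % 7) = Y ^ k := fun k => by
    conv_rhs => rw [← Nat.mod_add_div k 7, pow_add, pow_mul, hY, one_pow, mul_one]
  have ha : ∀ k, A ^ (k % 3) = A ^ k := fun k => by
    conv_rhs => rw [← Nat.mod_add_div k 3, pow_add, pow_mul, hA, one_pow, mul_one]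
  calc repOf Y A u * repOf Y A v
      = Y ^ u.x.val * (A ^ u.a.val * Y ^ v.x.val) * A ^ v.a.val := by
        simp only [repOf, mul_assoc]
    _ = Y ^ (u.x.val + 2 ^ u.a.val * v.x.val) * A ^ (u.a.val + v.a.val) := by
        rw [h2, pow_add Y, pow_add A]; simp only [mul_assoc]
    _ = repOf Y A (u * v) := by
        have ex : (u * v).x.val = (u.x.val + 2 ^ u.a.val * v.x.val) % 7 := by
          have : (u * v).x = ((u.x.val + 2 ^ u.a.val * v.x.val : ℕ) : ZMod 7) := by
            rw [Nat.cast_add, Nat.cast_mul, Nat.cast_pow, ZMod.natCast_val, ZMod.natCast_val,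
              ZMod.cast_id, ZMod.cast_id]
            rfl
          rw [this, ZMod.val_natCast]
        have ea : (u * v).a.val = (u.a.val + v.a.val) % 3 := ZMod.val_add u.a v.a
        rw [repOf, ex, ea, hy, ha]

/-- Conjugation by the unitarizer. -/
noncomputable def conjR (M : Matrix (Fin 3) (Fin 3) ℂ) : Matrix (Fin 3) (Fin 3) ℂ :=
  unitarizer * M * unitarizer⁻¹

lemma conjR_mul (M N : Matrix (Fin 3) (Fin 3) ℂ) : conjR M * conjR N = conjR (M * N) := by
  simp only [conjR, Matrix.mul_assoc, Matrix.nonsing_inv_mul_cancel_left _ _ unitarizer_det]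

lemma conjR_one : conjR 1 = 1 := by
  rw [conjR, Matrix.mul_one, Matrix.mul_nonsing_inv _ unitarizer_det]

lemma conjR_pow (M : Matrix (Fin 3) (Fin 3) ℂ) (k : ℕ) : conjR M ^ k = conjR (M ^ k) := by
  induction k with
  | zero => simp [conjR_one]
  | succ k ih => rw [pow_succ, ih, conjR_mul, pow_succ]

lemma conjR_smul (c : ℂ) (M : Matrix (Fin 3) (Fin 3) ℂ) : conjR (c • M) = c • conjR M := by
  simp [conjR, Matrix.mul_smul, Matrix.smul_mul]

/-- For an edge: the images of the two generators of `F21` and the index of the second vertex. -/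
noncomputable def edgeY : Fin 3 → Matrix (Fin 3) (Fin 3) ℂ :=
  ![gen 0 * gen 0 * gen 1, gen 0 * gen 0 * gen 2, gen 1 * gen 1 * (gen 2 * gen 2)]

/-- The image of the order three generator. -/
noncomputable def edgeA : Fin 3 → Matrix (Fin 3) (Fin 3) ℂ :=
  ![gen 0, gen 0 * gen 0, gen 1 * gen 1]

lemma edge_rels (e : Fin 3) :
    edgeY e ^ 7 = 1 ∧ edgeA e ^ 3 = 1 ∧ edgeA e * edgeY e = edgeY e ^ 2 * edgeA e := by
  have cube : ∀ i, gen i ^ 3 = 1 := fun i => by rw [pow_succ, pow_two, gen_cube]
  have cube2 : ∀ i, (gen i * gen i) ^ 3 = 1 := fun i => by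
    rw [← pow_two, ← pow_mul, pow_mul', cube, one_pow]
  have hg : ∀ i, gen i = conjR (gen0 i) := fun i => rfl
  fin_cases e
  · refine ⟨?_, ?_, ?_⟩
    · simp [edgeY, hg, conjR_mul, conjR_pow, gen0, ← map_mul, ← map_pow, pair1_seven,
        conjR_one]
    · simpa [edgeA] using cube 0
    · have h := congrArg (fun M => conjR (embM M) * gen 0) pair1_rel
      simp only [map_mul, map_pow, ← conjR_mul, ← conjR_pow] at h
      simp only [edgeY, edgeA, hg]
      simp [gen0] at h ⊢
      rw [show gen 0 = conjR (embM mA) from rfl] at h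
      rw [← h]
      simp only [Matrix.mul_assoc]
      rw [show conjR (embM mA) * (conjR (embM mA) * conjR (embM mA)) = 1 by
        rw [← Matrix.mul_assoc]; exact gen_cube 0, Matrix.mul_one]
  · refine ⟨?_, ?_, ?_⟩
    · simp [edgeY, hg, conjR_mul, conjR_pow, gen0, ← map_mul, ← map_pow, smul_pow, pair2_seven,
        embM_smul, smul_smul, map_ofNat, conjR_one]
      norm_num [conjR_one]
    · simpa [edgeA] using cube2 0
    · have h := congrArg (fun M => conjR ((1 / 4 : ℂ) • embM M) * (gen 0 * gen 0)) pair2_rel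
      simp only [map_mul, map_pow, embM_smul, smul_smul, conjR_smul, ← conjR_mul, ← conjR_pow,
        map_ofNat] at h
      simp only [edgeY, edgeA, hg]
      simp [gen0, conjR_smul, smul_pow] at h ⊢
      rw [show gen 0 = conjR (embM mA) from rfl] at h
      norm_num at h ⊢
      rw [← h]
      simp only [Matrix.mul_assoc]
      rw [show conjR (embM mA) * (conjR (embM mA) * conjR (embM mA)) = 1 by
        rw [← Matrix.mul_assoc]; exact gen_cube 0, Matrix.mul_one]
  · refine ⟨?_, ?_, ?_⟩
    · simp [edgeY, hg, conjR_mul, conjR_pow, gen0, ← map_mul, ← map_pow, smul_pow, pair3_seven,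
        embM_smul, smul_smul, map_ofNat, conjR_one]
      norm_num [conjR_one]
    · simpa [edgeA] using cube2 1
    · have h := congrArg (fun M => conjR ((1 / 16 : ℂ) • embM M) * (gen 1 * gen 1)) pair3_rel
      simp only [map_mul, map_pow, embM_smul, smul_smul, conjR_smul, ← conjR_mul, ← conjR_pow,
        map_ofNat] at h
      simp only [edgeY, edgeA, hg]
      simp [gen0, conjR_smul, smul_pow, smul_smul] at h ⊢
      rw [show gen 1 = conjR (embM mB) from rfl] at h
      norm_num at h ⊢
      rw [← h]
      simp only [Matrix.mul_assoc]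
      rw [show conjR (embM mB) * (conjR (embM mB) * conjR (embM mB)) = 1 by
        rw [← Matrix.mul_assoc]; exact gen_cube 1, Matrix.mul_one]

/-- The representation of `F21` attached to an edge. -/
noncomputable def edgeRep (e : Fin 3) (u : F21) : Matrix (Fin 3) (Fin 3) ℂ :=
  repOf (edgeY e) (edgeA e) u

lemma edgeRep_mul (e : Fin 3) (u v : F21) : edgeRep e u * edgeRep e v = edgeRep e (u * v) :=
  repOf_mul (edge_rels e).1 (edge_rels e).2.1 (edge_rels e).2.2 u v

lemma edgeRep_one (e : Fin 3) : edgeRep e 1 = 1 := by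
  simp [edgeRep, repOf, show (1 : F21).x = 0 from rfl, show (1 : F21).a = 0 from rfl]

lemma edgeRep_unitary (e : Fin 3) (u : F21) : (edgeRep e u)ᴴ * edgeRep e u = 1 := by
  have hU : ∀ i, gen i ∈ Matrix.unitaryGroup (Fin 3) ℂ := fun i =>
    Matrix.mem_unitaryGroup_iff'.2 (gen_unitary i)
  have : edgeRep e u ∈ Matrix.unitaryGroup (Fin 3) ℂ := by
    unfold edgeRep repOf edgeY edgeA
    revert hU
    generalize gen = G
    intro hU
    refine mul_mem (pow_mem ?_ _) (pow_mem ?_ _)
    · match e with
      | 0 => exact mul_mem (mul_mem (hU 0) (hU 0)) (hU 1)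
      | 1 => exact mul_mem (mul_mem (hU 0) (hU 0)) (hU 2)
      | 2 => exact mul_mem (mul_mem (hU 1) (hU 1)) (mul_mem (hU 2) (hU 2))
    · match e with
      | 0 => exact hU 0
      | 1 => exact mul_mem (hU 0) (hU 0)
      | 2 => exact mul_mem (hU 1) (hU 1)
  exact Matrix.mem_unitaryGroup_iff'.1 this

/-- Scalar lemma: commuting with all derivations forces a multiple of the symmetrizer. -/
lemma eq_smul_symProj {n : ℕ} {T : Matrix (Wd n) (Wd n) ℂ}
    (hp : ∀ p, T * permMat ℂ p = T) (hd : ∀ i j, Commute T (der n (Matrix.single i j (1 : ℂ)))) :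
    ∃ c : ℂ, T = c • symProj n := by
  refine ⟨T (fun _ => 0) (fun _ => 0), ?_⟩
  set c := T (fun _ => 0) (fun _ => 0)
  have hdiag : ∀ v, v ≠ (fun _ => 0) → T v (fun _ => 0) = 0 := by
    intro v hv
    have h := congrArg (fun M : Matrix (Wd n) (Wd n) ℂ => M v fun _ => 0) (hd 0 0).eq
    have e : (Matrix.single (0 : Fin 3) 0 (1 : ℂ)) = Matrix.diagonal (fun i => if i = 0 then 1 else 0) := by
      ext i j; fin_cases i <;> fin_cases j <;> simp [Matrix.single]
    rw [e, der_diagonal] at h
    simp [Matrix.mul_diagonal, Matrix.diagonal_mul] at h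
    by_contra hne
    have hcard : (univ.filter fun i => v i = 0).card = n := by
      have : (n : ℂ) = ((univ.filter fun i => v i = 0).card : ℂ) :=
        mul_left_cancel₀ hne (by rw [h, mul_comm])
      exact_mod_cast this.symm
    apply hv
    funext i
    have := Finset.eq_univ_of_card _ (hcard.trans (Fintype.card_fin n).symm)
    have hi : i ∈ univ.filter fun i => v i = 0 := by rw [this]; exact mem_univ i
    simpa using hi
  have hsym0 : ∀ v, symProj n v (fun _ => 0) = if v = (fun _ => 0) then 1 else 0 := by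
    intro v
    have : ∀ p : Equiv.Perm (Fin n), permMat ℂ p v (fun _ => 0)
        = if v = (fun _ => 0) then 1 else 0 := by
      intro p
      have : ((fun _ => (0 : Fin 3)) = v ∘ p) ↔ v = fun _ => 0 := by
        constructor
        · intro h; funext i; simpa using (congrFun h (p.symm i)).symm
        · rintro rfl; rfl
      simp [permMat, this]
    simp [symProj, Matrix.sum_apply, this, Fintype.card_perm, n.factorial_ne_zero]
  have hS : ∀ (w v : Wd n) (p : Equiv.Perm (Fin n)),
      (T - c • symProj n) v (w ∘ p) = (T - c • symProj n) v w := by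
    have hSp : ∀ p, (T - c • symProj n) * permMat ℂ p = T - c • symProj n := by
      intro p
      rw [Matrix.sub_mul, hp, Matrix.smul_mul]
      congr 2
      have := congrArg Matrix.conjTranspose (permMat_symProj (n := n) p⁻¹)
      rwa [Matrix.conjTranspose_mul, symProj_conjTranspose, permMat_conjTranspose, inv_inv] at this
    intro w v p
    have := congrArg (fun M : Matrix (Wd n) (Wd n) ℂ => M v (w ∘ p)) (hSp p)
    rw [← this, Matrix.mul_apply, Finset.sum_eq_single w]
    · simp [permMat]
    · intro u _ hu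
      have : ¬ (w ∘ p = u ∘ p) := fun h => hu (p.surjective.injective_comp_right h).symm
      simp [permMat, this]
    · simp
  have hcomm : ∀ i j, Commute (T - c • symProj n) (der n (Matrix.single i j (1 : ℂ))) := by
    intro i j
    refine (hd i j).sub_left (Commute.smul_left ?_ _)
    have : ∀ p : Equiv.Perm (Fin n), Commute (permMat ℂ p) (der n (Matrix.single i j (1 : ℂ))) := by
      intro p
      ext w v
      have e : ∀ u : Wd n, (v = u ∘ p) ↔ (v ∘ p.symm = u) := fun u => by
        constructor
        · rintro rfl; funext a; simp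
        · rintro rfl; funext a; simp
      simp only [Matrix.mul_apply, permMat, ite_mul, one_mul, zero_mul, mul_ite, mul_one,
        mul_zero, e]
      rw [Finset.sum_ite_eq', Finset.sum_ite_eq]
      simp only [mem_univ, if_true, der, Matrix.sum_apply, ten_apply]
      refine Fintype.sum_equiv p _ _ fun a => ?_
      refine Fintype.prod_equiv p _ _ fun b => ?_
      by_cases hb : b = a
      · subst hb; simp
      · have : p b ≠ p a := fun h => hb (p.injective h)
        simp [Function.update_of_ne hb, Function.update_of_ne this]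
    unfold symProj
    exact Commute.smul_left (Commute.sum_left _ _ _ fun p _ => this p) _
  suffices H : ∀ k (w : Wd n), (univ.filter fun i => w i ≠ 0).card = k →
      ∀ v, (T - c • symProj n) v w = 0 by
    rw [← sub_eq_zero]; ext v w; exact H _ w rfl v
  intro k
  induction k with
  | zero =>
    intro w hw v
    have : w = fun _ => 0 := by
      funext i
      by_contra h
      exact (Finset.card_ne_zero_of_mem (Finset.mem_filter.2 ⟨mem_univ i, h⟩)) hw
    subst this
    rw [Matrix.sub_apply, Matrix.smul_apply, hsym0]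
    split_ifs with h
    · subst h; simp [c]
    · simp [hdiag v h]
  | succ k ih =>
    intro w hw v
    obtain ⟨j, hj⟩ := Finset.card_pos.1 (by omega : 0 < (univ.filter fun i => w i ≠ 0).card)
    simp only [mem_filter, mem_univ, true_and] at hj
    set d := w j with hd'
    set w' := Function.update w j 0 with hw'
    have hk : (univ.filter fun i => w' i ≠ 0).card = k := by
      have : (univ.filter fun i => w' i ≠ 0) = (univ.filter fun i => w i ≠ 0).erase j := by
        ext i
        by_cases h : i = j
        · subst h; simp [hw']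
        · simp [hw', Function.update_of_ne h, h]
      rw [this, Finset.card_erase_of_mem (Finset.mem_filter.2 ⟨mem_univ j, hj⟩), hw]; omega
    have h := congrArg (fun M : Matrix (Wd n) (Wd n) ℂ => M v w') (hcomm d 0).eq
    simp only [Matrix.mul_apply] at h
    conv_rhs at h => arg 2; intro u; rw [ih w' hk u, mul_zero]
    rw [Finset.sum_const_zero] at h
    have hder : ∀ u, der n (Matrix.single d 0 (1 : ℂ)) u w'
        = ∑ a, if w' a = 0 ∧ u = Function.update w' a d then (1 : ℂ) else 0 := by
      intro u
      simp only [der, Matrix.sum_apply, ten_update_apply]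
      refine Finset.sum_congr rfl fun a _ => ?_
      by_cases hc : w' a = 0 ∧ u = Function.update w' a d
      · rw [if_pos hc]
        obtain ⟨hc1, rfl⟩ := hc
        rw [Function.update_self, hc1, Matrix.single_apply_same, one_mul]
        refine Finset.prod_eq_one fun b hb => ?_
        rw [Function.update_of_ne (ne_of_mem_erase hb)]
        exact Matrix.one_apply_eq (w' b)
      · rw [if_neg hc]
        by_cases h1 : w' a = 0 ∧ u a = d
        · have : ∃ b, b ≠ a ∧ u b ≠ w' b := by
            by_contra hh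
            push Not at hh
            refine hc ⟨h1.1, funext fun b => ?_⟩
            by_cases hb : b = a
            · subst hb; simp [h1.2]
            · rw [Function.update_of_ne hb, hh b hb]
          obtain ⟨b, hb, hub⟩ := this
          refine mul_eq_zero_of_right _ (Finset.prod_eq_zero
            (Finset.mem_erase.2 ⟨hb, mem_univ b⟩) ?_)
          exact Matrix.one_apply_ne hub
        · rw [Matrix.single_apply, if_neg (fun hh => h1 ⟨hh.2.symm, hh.1.symm⟩), zero_mul]
    simp only [hder, Finset.mul_sum] at h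
    rw [Finset.sum_comm] at h
    simp only [mul_ite, mul_one, mul_zero, ite_and] at h
    have h' : ∑ a : Fin n, (if w' a = 0 then (T - c • symProj n) v w else 0) = 0 := by
      refine Eq.trans (Finset.sum_congr rfl fun a _ => ?_) h
      by_cases ha : w' a = 0
      · simp only [ha, if_true, Finset.sum_ite_eq', mem_univ]
        have : Function.update w' a d = w ∘ Equiv.swap a j := by
          funext b
          by_cases hb : b = a
          · subst hb; simp [hd']
          · rw [Function.update_of_ne hb]
            by_cases hbj : b = j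
            · subst hbj
              have : w a = 0 := by
                rw [← ha, hw', Function.update_of_ne (Ne.symm hb)]
              simp [hw', this]
            · simp [hw', Function.update_of_ne hbj, Equiv.swap_apply_of_ne_of_ne hb hbj]
        rw [this, hS]
      · simp [ha]
    rw [← Finset.sum_filter, Finset.sum_const, nsmul_eq_mul] at h'
    refine (mul_eq_zero.1 h').resolve_left ?_
    have : j ∈ univ.filter fun a => w' a = 0 := by simp [hw']
    exact_mod_cast Finset.card_ne_zero_of_mem this

lemma commute_diag {ι : Type*} [Fintype ι] [DecidableEq ι] {D : Matrix ι ι ℂ} {f g : ι → ℂ}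
    (h : Commute D (Matrix.diagonal f)) (hfg : ∀ a b, f a = f b → g a = g b) :
    Commute D (Matrix.diagonal g) := by
  ext a b
  have := congrArg (fun M : Matrix ι ι ℂ => M a b) h.eq
  simp only [Matrix.mul_diagonal, Matrix.diagonal_mul] at this ⊢
  by_cases hD : D a b = 0
  · simp [hD]
  · rw [mul_comm (g a)]
    rw [mul_comm (f a)] at this
    rw [hfg a b (mul_left_cancel₀ hD this).symm]

lemma commute_conj {M : Type*} [Monoid M] {T X P Q : M} (hPQ : Q * P = 1) (hP : Commute T P)
    (hQ : Commute T Q) (hX : Commute T X) : Commute T (P * X * Q) := by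
  have := hPQ
  exact ((hP.mul_right hX).mul_right hQ)

lemma eig_pow_ne {j : ℕ} (hj : 0 < j) :
    (emb (⟨-1, 1⟩ : Z2)) ^ j ≠ (2 : ℂ) ^ j := by
  intro h
  have h2 : emb (2 : Z2) = 2 := map_ofNat emb 2
  rw [← h2, ← map_pow, ← map_pow] at h
  have h' := emb_injective h
  let red : Z2 →+* ZMod 2 := (QuadraticAlgebra.lift ⟨(0 : ZMod 2), by decide⟩).toRingHom
  have h3 := congrArg red h'
  rw [map_pow, map_pow, map_ofNat] at h3
  have e : red ⟨-1, 1⟩ = 1 := by
    simp [red, QuadraticAlgebra.lift]
  rw [e, show (2 : ZMod 2) = 0 from rfl, zero_pow hj.ne', one_pow] at h3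
  exact one_ne_zero h3

/-- Eigenvalues of `abac`. -/
noncomputable def chi (i : Fin 3) : ℂ := emb (gEig i) / 2

lemma chi_separates {n : ℕ} (w v : Wd n) (h : ∏ i, chi (w i) = ∏ i, chi (v i)) :
    ∑ i, (![0, 1, -1] : Fin 3 → ℂ) (w i) = ∑ i, (![0, 1, -1] : Fin 3 → ℂ) (v i) := by
  set l := chi 1 with hl
  have h0 : chi 0 = 1 := by
    simp [chi, gEig, emb_apply]
  have h12 : chi 1 * chi 2 = 1 := by
    have : (⟨-1, 1⟩ : Z2) * ⟨-2, -1⟩ = 4 := by decide +kernel
    rw [chi, chi, div_mul_div_comm, ← map_mul]
    simp only [gEig]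
    simp [this, map_ofNat]
    norm_num
  let e1 : Fin 3 → ℕ := ![0, 1, 0]
  let e2 : Fin 3 → ℕ := ![0, 0, 1]
  have key : ∀ u : Wd n, (∏ i, chi (u i)) * l ^ (∑ i, e2 (u i)) = l ^ (∑ i, e1 (u i)) := by
    intro u
    rw [← Finset.prod_pow_eq_pow_sum, ← Finset.prod_pow_eq_pow_sum, ← Finset.prod_mul_distrib]
    refine Finset.prod_congr rfl fun i _ => ?_
    generalize u i = a
    fin_cases a <;> simp [e1, e2, h0, hl, h12, mul_comm]
  have hne : l ≠ 0 := fun e => by simp [hl] at e; rw [e, zero_mul] at h12; exact zero_ne_one h12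
  have hinj : ∀ a b : ℕ, l ^ a = l ^ b → a = b := by
    suffices ∀ a b : ℕ, a < b → l ^ a ≠ l ^ b by
      intro a b hab
      rcases lt_trichotomy a b with hh | hh | hh
      · exact absurd hab (this a b hh)
      · exact hh
      · exact absurd hab.symm (this b a hh)
    intro a b hab heq
    obtain ⟨j, rfl⟩ := Nat.exists_eq_add_of_lt hab
    rw [add_assoc, pow_add, eq_comm, mul_eq_left₀ (pow_ne_zero _ hne)] at heq
    apply eig_pow_ne (Nat.succ_pos j)
    simp only [hl, chi, gEig, div_pow] at heq
    rw [div_eq_one_iff_eq (pow_ne_zero _ two_ne_zero)] at heq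
    simpa using heq
  have hN : (∑ i, e1 (w i)) + ∑ i, e2 (v i) = (∑ i, e1 (v i)) + ∑ i, e2 (w i) := by
    apply hinj
    rw [pow_add, pow_add, ← key w, ← key v, h]; ring
  have hw : ∀ u : Wd n, ∑ i, (![0, 1, -1] : Fin 3 → ℂ) (u i)
      = ((∑ i, e1 (u i) : ℕ) : ℂ) - ((∑ i, e2 (u i) : ℕ) : ℂ) := by
    intro u
    rw [Nat.cast_sum, Nat.cast_sum, ← Finset.sum_sub_distrib]
    refine Finset.sum_congr rfl fun i _ => ?_
    generalize u i = a
    fin_cases a <;> simp [e1, e2]
  rw [hw, hw]
  have := congrArg (Nat.cast : ℕ → ℂ) hN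
  push_cast at this ⊢
  linear_combination this

/-- Irreducibility of the symmetric powers. -/
theorem irreducible {n : ℕ} {T : Matrix (Wd n) (Wd n) ℂ}
    (hp : ∀ p, T * permMat ℂ p = T) (hc : ∀ i, Commute T (pow' n (gen i))) :
    ∃ c : ℂ, T = c • symProj n := by
  set R := unitarizer
  have hR := unitarizer_det
  set S := pow' n R⁻¹ * T * pow' n R with hS
  have r1 : pow' n R * pow' n R⁻¹ = 1 := by
    rw [← pow'_mul, Matrix.mul_nonsing_inv _ hR, pow'_one]
  have r2 : pow' n R⁻¹ * pow' n R = 1 := by
    rw [← pow'_mul, Matrix.nonsing_inv_mul _ hR, pow'_one]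
  have hSp : ∀ p, S * permMat ℂ p = S := by
    intro p
    rw [hS, Matrix.mul_assoc, ← permMat_comm, ← Matrix.mul_assoc, Matrix.mul_assoc _ T, hp]
  have hSg : ∀ i, Commute S (pow' n (gen0 i)) := by
    intro i
    have e : pow' n (gen i) = pow' n R * pow' n (gen0 i) * pow' n R⁻¹ := by
      rw [← pow'_mul, ← pow'_mul]; rfl
    have h := (hc i).eq
    rw [e] at h
    change S * _ = _ * S
    calc S * pow' n (gen0 i)
        = pow' n R⁻¹ * (T * (pow' n R * pow' n (gen0 i) * pow' n R⁻¹)) * pow' n R := by
          simp only [hS, Matrix.mul_assoc, r2, Matrix.mul_one]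
      _ = pow' n (gen0 i) * S := by
          rw [h]
          simp only [hS, ← Matrix.mul_assoc, r2, Matrix.one_mul]
  have hA : Commute S (pow' n (embM mA)) := by simpa [gen0] using hSg 0
  have hB : Commute S (pow' n (embM mB)) := by simpa [gen0] using hSg 1
  have hC : Commute S (pow' n (embM mC)) := by
    have e : embM mC = ((2 : ℂ) • (1 : Matrix (Fin 3) (Fin 3) ℂ)) * gen0 2 := by
      simp [gen0, smul_smul]
    have e2 : pow' n ((2 : ℂ) • (1 : Matrix (Fin 3) (Fin 3) ℂ))
        = ((2 : ℂ) ^ n) • (1 : Matrix (Wd n) (Wd n) ℂ) := by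
      rw [Matrix.smul_one_eq_diagonal, pow', ten_diagonal]
      simp [Matrix.smul_one_eq_diagonal]
    rw [e, pow'_mul, e2, Matrix.smul_mul, Matrix.one_mul]
    exact (hSg 2).smul_right _
  have hG : Commute S (pow' n (embM mG)) := by
    simp only [mG, map_mul, pow'_mul]
    exact ((hA.mul_right hB).mul_right hA).mul_right hC
  set V := embM mV
  set W := (emb wDen)⁻¹ • embM mW with hW
  have hd0 : emb wDen ≠ 0 := by
    rw [ne_eq, map_eq_zero_iff _ emb_injective]; decide +kernel
  have hWV : W * V = 1 := by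
    rw [hW, Matrix.smul_mul, ← map_mul, mW_mV, embM_smul, map_one, smul_smul,
      inv_mul_cancel₀ hd0, one_smul]
  have hVW : V * W = 1 := by
    rw [hW, Matrix.mul_smul, ← map_mul, mV_mW, embM_smul, map_one, smul_smul,
      inv_mul_cancel₀ hd0, one_smul]
  have v1 : pow' n V * pow' n W = 1 := by rw [← pow'_mul, hVW, pow'_one]
  have v2 : pow' n W * pow' n V = 1 := by rw [← pow'_mul, hWV, pow'_one]
  set D := pow' n W * S * pow' n V with hD
  have hDd : Commute D (Matrix.diagonal fun w : Wd n => ∏ i, chi (w i)) := by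
    have e : pow' n (embM mG) = pow' n V * Matrix.diagonal (fun w => ∏ i, emb (gEig (w i)))
        * pow' n W := by
      rw [← ten_diagonal (fun _ i => emb (gEig i))]
      change _ = pow' n V * pow' n (Matrix.diagonal fun i => emb (gEig i)) * pow' n W
      rw [← pow'_mul, ← pow'_mul]
      congr 1
      have := congrArg embM mG_mV
      rw [map_mul, map_mul] at this
      rw [show Matrix.diagonal (fun i => emb (gEig i)) = embM (Matrix.diagonal gEig) by
        ext a b; by_cases hab : a = b <;> simp [embM, hab], ← this, Matrix.mul_assoc, hVW,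
        Matrix.mul_one]
    have h1 : Commute D (Matrix.diagonal fun w : Wd n => ∏ i, emb (gEig (w i))) := by
      change _ * _ = _ * _
      calc D * Matrix.diagonal (fun w : Wd n => ∏ i, emb (gEig (w i)))
          = pow' n W * (S * pow' n (embM mG)) * pow' n V := by
            simp only [hD, e, Matrix.mul_assoc, v2, Matrix.mul_one]
        _ = Matrix.diagonal (fun w : Wd n => ∏ i, emb (gEig (w i))) * D := by
            rw [hG.eq]; simp only [hD, e, ← Matrix.mul_assoc, v2, Matrix.one_mul]
    refine commute_diag h1 fun a b hab => ?_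
    simp only [chi, Finset.prod_div_distrib, hab]
  have hDder : Commute D (der n (Matrix.diagonal (![0, 1, -1] : Fin 3 → ℂ))) := by
    rw [der_diagonal]
    exact commute_diag hDd chi_separates
  have hX : Commute S (der n (embM mX)) := by
    have e : embM mX = emb wDen • (V * Matrix.diagonal (![0, 1, -1] : Fin 3 → ℂ) * W) := by
      rw [hW, Matrix.mul_smul, smul_smul, mul_inv_cancel₀ hd0, one_smul, mX, map_mul, map_mul]
      congr 2
      ext a b
      fin_cases a <;> fin_cases b <;> simp [embM]
    have hsm : der n (embM mX)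
        = emb wDen • der n (V * Matrix.diagonal (![0, 1, -1] : Fin 3 → ℂ) * W) := by
      rw [e]; exact (derₗ n).map_smul _ _
    rw [hsm, ← der_conj _ _ _ hVW]
    refine Commute.smul_right ?_ _
    have hS' : S = pow' n V * D * pow' n W := by
      simp only [hD, Matrix.mul_assoc, v1, Matrix.mul_one]
      rw [← Matrix.mul_assoc, v1, Matrix.one_mul]
    rw [hS']
    change _ * _ = _ * _
    simp only [Matrix.mul_assoc]
    rw [← Matrix.mul_assoc (pow' n W) (pow' n V), v2, Matrix.one_mul,
      ← Matrix.mul_assoc (pow' n W) (pow' n V), v2, Matrix.one_mul,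
      ← Matrix.mul_assoc D, hDder.eq, Matrix.mul_assoc]
  have conj : ∀ M P Q : Matrix (Fin 3) (Fin 3) Z2, ∀ k : Z2, k ≠ 0 → P * Q = k • 1 →
      Commute S (pow' n (embM P)) → Commute S (pow' n (embM Q)) →
      Commute S (der n (embM M)) → Commute S (der n (embM (P * M * Q))) := by
    intro M P Q k hk hPQ cP cQ cM
    have hk' : emb k ≠ 0 := by rwa [ne_eq, map_eq_zero_iff _ emb_injective]
    set Q' := (emb k)⁻¹ • embM Q with hQ'
    have h1 : embM P * Q' = 1 := by
      rw [hQ', Matrix.mul_smul, ← map_mul, hPQ, embM_smul, map_one, smul_smul,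
        inv_mul_cancel₀ hk', one_smul]
    have e : embM (P * M * Q) = emb k • (embM P * embM M * Q') := by
      rw [hQ', Matrix.mul_smul, smul_smul, mul_inv_cancel₀ hk', one_smul, map_mul, map_mul]
    have hsm : der n (embM (P * M * Q)) = emb k • der n (embM P * embM M * Q') := by
      rw [e]; exact (derₗ n).map_smul _ _
    rw [hsm, ← der_conj _ _ _ h1]
    refine Commute.smul_right ((cP.mul_right cM).mul_right ?_) _
    have : pow' n Q' = ((emb k)⁻¹ ^ n) • pow' n (embM Q) := by
      ext a b
      simp [hQ', pow', ten_apply, Finset.prod_mul_distrib]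
    rw [this]; exact cQ.smul_right _
  have hAA : Commute S (pow' n (embM (mA * mA))) := by
    rw [map_mul, pow'_mul]; exact hA.mul_right hA
  have hBB : Commute S (pow' n (embM (mB * mB))) := by
    rw [map_mul, pow'_mul]; exact hB.mul_right hB
  have hCC : Commute S (pow' n (embM (mC * mC))) := by
    rw [map_mul, pow'_mul]; exact hC.mul_right hC
  have hm : ∀ P Q, Commute S (pow' n (embM P)) → Commute S (pow' n (embM Q)) →
      Commute S (pow' n (embM (P * Q))) := by
    intro P Q h1 h2
    rw [map_mul, pow'_mul]; exact h1.mul_right h2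
  have hspan : ∀ j, Commute S (der n (embM (spanVec j))) := by
    intro j
    fin_cases j <;> simp only [spanVec] <;> dsimp
    · rw [map_one, show (1 : Matrix (Fin 3) (Fin 3) ℂ) = Matrix.diagonal fun _ => 1 from
        Matrix.diagonal_one.symm, der_diagonal]
      simp only [sum_const, card_univ, Fintype.card_fin, nsmul_eq_mul, mul_one]
      rw [← Matrix.smul_one_eq_diagonal]
      exact (Commute.one_right _).smul_right _
    · exact hX
    · exact conj _ _ _ 1 (by decide +kernel) (by decide +kernel) hA hAA hX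
    · exact conj _ _ _ 1 (by decide +kernel) (by decide +kernel) hB hBB hX
    · exact conj _ _ _ 8 (by decide +kernel) (by decide +kernel) hC hCC hX
    · exact conj _ _ _ 1 (by decide +kernel) (by decide +kernel) (hm _ _ hA hB) (hm _ _ hBB hAA) hX
    · exact conj _ _ _ 1 (by decide +kernel) (by decide +kernel) (hm _ _ hB hA) (hm _ _ hAA hBB) hX
    · exact conj _ _ _ 1 (by decide +kernel) (by decide +kernel) (hm _ _ hB hB) (hm _ _ hBB hBB) hX
    · exact conj _ _ _ 8 (by decide +kernel) (by decide +kernel) (hm _ _ hB hC) (hm _ _ hCC hBB) hX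
  have hsingle : ∀ i j, Commute S (der n (Matrix.single i j (1 : ℂ))) := by
    intro i j
    have hk : emb spanDen ≠ 0 := by
      rw [ne_eq, map_eq_zero_iff _ emb_injective]; decide +kernel
    have h := congrArg embM (spanVec_eq (i, j))
    rw [map_sum, embM_smul, show embM (Matrix.single i j (1 : Z2)) = Matrix.single i j (1 : ℂ) by
      simp [embM]] at h
    have h2 : Matrix.single i j (1 : ℂ)
        = (emb spanDen)⁻¹ • ∑ l, emb (spanCoeff (i, j) l) • embM (spanVec l) := by
      rw [eq_inv_smul_iff₀ hk, ← h]; simp [embM_smul]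
    rw [show der n (Matrix.single i j (1 : ℂ)) = derₗ n (Matrix.single i j 1) from rfl, h2,
      map_smul, map_sum]
    refine Commute.smul_right (Commute.sum_right _ _ _ fun l _ => ?_) _
    rw [map_smul]
    exact (hspan l).smul_right _
  obtain ⟨c, hcS⟩ := eq_smul_symProj hSp hsingle
  refine ⟨c, ?_⟩
  have : T = pow' n R * S * pow' n R⁻¹ := by
    simp only [hS, Matrix.mul_assoc, r1, Matrix.mul_one]
    rw [← Matrix.mul_assoc, r1, Matrix.one_mul]
  rw [this, hcS, Matrix.mul_smul, Matrix.smul_mul, ← symProj_comm, Matrix.mul_assoc, r1,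
    Matrix.mul_one]

end Vale.Agent.P083
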