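import Vale.Agent.P083.Op
import Vale.Agent.P083.Irred

/-!
`H`-valued functions on words, the tensor action, and the finite dimensional obstruction.
-/

namespace Vale.Agent.P083

open Finset Matrix
open scoped InnerProductSpace

variable {H : Type} [NormedAddCommGroup H] [InnerProductSpace ℂ H] [CompleteSpace H] {n : ℕ}

/-- `H`-valued functions on words, with the `l^2` norm. -/
abbrev TW (H : Type) (n : ℕ) := PiLp 2 (fun _ : Wd n => H)

/-- Coordinates. -/
noncomputable def coordEquiv (H : Type) [NormedAddCommGroup H] [InnerProductSpace ℂ H] (n : ℕ) :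
    TW H n ≃L[ℂ] (Wd n → H) := PiLp.continuousLinearEquiv 2 ℂ (fun _ : Wd n => H)

/-- Apply an operator in every coordinate. -/
noncomputable def diagOp (A : H →L[ℂ] H) : TW H n →L[ℂ] TW H n :=
  (coordEquiv H n).symm.toContinuousLinearMap ∘L
    (ContinuousLinearMap.pi fun w => A ∘L ContinuousLinearMap.proj w) ∘L
      (coordEquiv H n).toContinuousLinearMap

/-- Act by a scalar matrix. -/
noncomputable def matOp (c : Matrix (Wd n) (Wd n) ℂ) : TW H n →L[ℂ] TW H n :=
  (coordEquiv H n).symm.toContinuousLinearMap ∘L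
    (ContinuousLinearMap.pi fun w =>
      ∑ v, c w v • (ContinuousLinearMap.proj v : (Wd n → H) →L[ℂ] H)) ∘L
      (coordEquiv H n).toContinuousLinearMap

@[simp] lemma diagOp_apply (A : H →L[ℂ] H) (x : TW H n) (w : Wd n) :
    diagOp A x w = A (x w) := by
  simp [diagOp, coordEquiv]

@[simp] lemma matOp_apply (c : Matrix (Wd n) (Wd n) ℂ) (x : TW H n) (w : Wd n) :
    matOp c x w = ∑ v, c w v • x v := by
  simp [matOp, coordEquiv]

lemma matOp_mul (c d : Matrix (Wd n) (Wd n) ℂ) :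
    (matOp (c * d) : TW H n →L[ℂ] TW H n) = matOp c * matOp d := by
  ext x w
  change _ = matOp c (matOp d x) w
  simp only [matOp_apply, Matrix.mul_apply, Finset.sum_smul, Finset.smul_sum, smul_smul]
  rw [Finset.sum_comm]

lemma matOp_one : (matOp 1 : TW H n →L[ℂ] TW H n) = 1 := by
  ext x w
  simp [Matrix.one_apply, ite_smul]

lemma diagOp_matOp (A : H →L[ℂ] H) (c : Matrix (Wd n) (Wd n) ℂ) :
    diagOp A * matOp c = matOp c * diagOp A := by
  ext x w
  simp [map_sum]

lemma diagOp_mul (A B : H →L[ℂ] H) :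
    (diagOp (A * B) : TW H n →L[ℂ] TW H n) = diagOp A * diagOp B := by
  ext x w; simp

lemma diagOp_one : (diagOp (1 : H →L[ℂ] H) : TW H n →L[ℂ] TW H n) = 1 := by
  ext x w; simp

lemma diagOp_sub (A B : H →L[ℂ] H) :
    (diagOp (A - B) : TW H n →L[ℂ] TW H n) = diagOp A - diagOp B := by
  ext x w; simp

lemma norm_diagOp_apply_le {A : H →L[ℂ] H} {r : ℝ} (hr : 0 ≤ r) (hA : ‖A‖ ≤ r) (x : TW H n) :
    ‖diagOp A x‖ ≤ r * ‖x‖ := by
  refine (sq_le_sq₀ (norm_nonneg _) (by positivity)).1 ?_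
  rw [mul_pow, PiLp.norm_sq_eq_of_L2, PiLp.norm_sq_eq_of_L2, Finset.mul_sum]
  refine Finset.sum_le_sum fun w _ => ?_
  rw [diagOp_apply, ← mul_pow]
  exact pow_le_pow_left₀ (norm_nonneg _) (A.le_of_opNorm_le hA _) 2

lemma norm_diagOp_le (A : H →L[ℂ] H) : ‖(diagOp A : TW H n →L[ℂ] TW H n)‖ ≤ ‖A‖ :=
  ContinuousLinearMap.opNorm_le_bound _ (norm_nonneg _)
    (norm_diagOp_apply_le (norm_nonneg _) le_rfl)

lemma star_diagOp (A : H →L[ℂ] H) :
    star (diagOp A : TW H n →L[ℂ] TW H n) = diagOp (star A) := by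
  rw [ContinuousLinearMap.star_eq_adjoint, eq_comm, ContinuousLinearMap.eq_adjoint_iff]
  intro x y
  simp [PiLp.inner_apply, ContinuousLinearMap.star_eq_adjoint,
    ContinuousLinearMap.adjoint_inner_left]

lemma inner_matOp (c : Matrix (Wd n) (Wd n) ℂ) (x y : TW H n) :
    ⟪matOp cᴴ x, y⟫_ℂ = ⟪x, matOp c y⟫_ℂ := by
  simp only [PiLp.inner_apply, matOp_apply, sum_inner, inner_sum, inner_smul_left,
    inner_smul_right, Matrix.conjTranspose_apply, Complex.star_def, Complex.conj_conj]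
  rw [Finset.sum_comm]

lemma star_matOp (c : Matrix (Wd n) (Wd n) ℂ) :
    star (matOp c : TW H n →L[ℂ] TW H n) = matOp cᴴ := by
  rw [ContinuousLinearMap.star_eq_adjoint, eq_comm, ContinuousLinearMap.eq_adjoint_iff]
  exact inner_matOp c

lemma norm_matOp_apply {c : Matrix (Wd n) (Wd n) ℂ} (hc : cᴴ * c = 1) (x : TW H n) :
    ‖matOp c x‖ = ‖x‖ := by
  have h : ⟪matOp c x, matOp c x⟫_ℂ = ⟪x, x⟫_ℂ := by
    rw [← inner_matOp, show matOp cᴴ (matOp c x) = ((matOp cᴴ * matOp c : TW H n →L[ℂ] TW H n)) x from rfl, ← matOp_mul,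
      hc, matOp_one]
    rfl
  rw [inner_self_eq_norm_sq_to_K, inner_self_eq_norm_sq_to_K] at h
  exact (sq_eq_sq₀ (norm_nonneg _) (norm_nonneg _)).1 (by exact_mod_cast h)

lemma norm_matOp_le {c : Matrix (Wd n) (Wd n) ℂ} (hc : cᴴ * c = 1) :
    ‖(matOp c : TW H n →L[ℂ] TW H n)‖ ≤ 1 :=
  ContinuousLinearMap.opNorm_le_bound _ zero_le_one fun x => by rw [norm_matOp_apply hc, one_mul]

/-- Entrywise complex conjugate of the tensor power. -/
noncomputable def cpow (n : ℕ) (M : Matrix (Fin 3) (Fin 3) ℂ) : Matrix (Wd n) (Wd n) ℂ :=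
  pow' n (M.map (starRingEnd ℂ))

lemma cpow_mul (M N : Matrix (Fin 3) (Fin 3) ℂ) : cpow n (M * N) = cpow n M * cpow n N := by
  simp [cpow, Matrix.map_mul, pow'_mul]

lemma cpow_one : cpow n (1 : Matrix (Fin 3) (Fin 3) ℂ) = 1 := by
  simp [cpow, pow'_one]

lemma cpow_conjTranspose (M : Matrix (Fin 3) (Fin 3) ℂ) : (cpow n M)ᴴ = cpow n Mᴴ := by
  rw [cpow, cpow, pow'_conjTranspose]
  rfl

lemma cpow_isometry {M : Matrix (Fin 3) (Fin 3) ℂ} (hM : Mᴴ * M = 1) :
    (cpow n M)ᴴ * cpow n M = 1 := by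
  rw [cpow_conjTranspose, ← cpow_mul, hM, cpow_one]

/-- The tensor action of an operator and a matrix. -/
noncomputable def act (n : ℕ) (A : H →L[ℂ] H) (M : Matrix (Fin 3) (Fin 3) ℂ) :
    TW H n →L[ℂ] TW H n :=
  diagOp A * matOp (cpow n M)

lemma act_apply (A : H →L[ℂ] H) (M : Matrix (Fin 3) (Fin 3) ℂ) (x : TW H n) (w : Wd n) :
    act n A M x w = A (∑ v, cpow n M w v • x v) := by
  simp [act]

lemma act_mul (A B : H →L[ℂ] H) (M N : Matrix (Fin 3) (Fin 3) ℂ) :
    act n A M * act n B N = act n (A * B) (M * N) := by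
  simp only [act, cpow_mul, matOp_mul, diagOp_mul]
  rw [mul_assoc, ← mul_assoc (matOp _), ← diagOp_matOp, mul_assoc, ← mul_assoc]

lemma act_sub (A B : H →L[ℂ] H) (M : Matrix (Fin 3) (Fin 3) ℂ) :
    act n A M - act n B M = act n (A - B) M := by
  simp [act, diagOp_sub, sub_mul]

lemma act_one : (act n (1 : H →L[ℂ] H) 1) = 1 := by
  simp [act, diagOp_one, cpow_one, matOp_one]

lemma norm_act_le (A : H →L[ℂ] H) {M : Matrix (Fin 3) (Fin 3) ℂ} (hM : Mᴴ * M = 1) :
    ‖act n A M‖ ≤ ‖A‖ :=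
  (norm_mul_le _ _).trans ((mul_le_mul (norm_diagOp_le A) (norm_matOp_le (cpow_isometry hM))
    (norm_nonneg _) (norm_nonneg _)).trans (mul_one _).le)

lemma star_act (A : H →L[ℂ] H) (M : Matrix (Fin 3) (Fin 3) ℂ) :
    star (act n A M) = act n (star A) Mᴴ := by
  rw [act, star_mul, star_matOp, star_diagOp, ← diagOp_matOp, cpow_conjTranspose, act]

/-- An approximate representation on `H` of the three edge groups. -/
def Model (C δ : ℝ) (U : Matrix (Fin 3) (Fin 3) ℂ → H →L[ℂ] H) : Prop :=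
  (∀ i, ‖U (gen i)‖ ≤ C ∧ ‖star (U (gen i)) - U (gen i) * U (gen i)‖ ≤ δ ∧
    ‖U (gen i) * star (U (gen i)) - 1‖ ≤ δ) ∧
  ∀ e, (∀ u, ‖U (edgeRep e u)‖ ≤ C) ∧
    (∀ u v, ‖U (edgeRep e u) * U (edgeRep e v) - U (edgeRep e (u * v))‖ ≤ δ) ∧
    ‖U (edgeRep e 1) - 1‖ ≤ δ

lemma rep_al (e : Fin 3) : edgeRep e F21.al = edgeA e := by
  simp [edgeRep, repOf, F21.al, show (1 : ZMod 3).val = 1 from rfl]

lemma rep_al2 (e : Fin 3) : edgeRep e (F21.al * F21.al) = edgeA e * edgeA e := by
  rw [← edgeRep_mul, rep_al]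

lemma rep_xi (e : Fin 3) : edgeRep e F21.xi = edgeY e := by
  simp [edgeRep, repOf, F21.xi, show (1 : ZMod 7).val = 1 from rfl]

/-- The second generator of an edge. -/
def edgeH : Fin 3 → F21 :=
  ![F21.al * F21.xi, F21.al * F21.al * F21.xi, F21.al * F21.al * F21.xi]

lemma edgeH_cases : ∀ e, F21.IsSecond (edgeH e) := by
  intro e
  fin_cases e
  · exact Or.inl rfl
  · exact Or.inr rfl
  · exact Or.inr rfl

/-- The endpoints of an edge. -/
def edgeEnds : Fin 3 → Fin 3 × Fin 3 := ![(0, 1), (0, 2), (1, 2)]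

lemma edge_images (e : Fin 3) :
    (edgeRep e F21.al = gen (edgeEnds e).1 ∧
        edgeRep e (F21.al * F21.al) = gen (edgeEnds e).1 * gen (edgeEnds e).1 ∨
      edgeRep e (F21.al * F21.al) = gen (edgeEnds e).1 ∧
        edgeRep e F21.al = gen (edgeEnds e).1 * gen (edgeEnds e).1) ∧
    (edgeRep e (edgeH e) = gen (edgeEnds e).2 ∧
        edgeRep e (edgeH e * edgeH e) = gen (edgeEnds e).2 * gen (edgeEnds e).2 ∨
      edgeRep e (edgeH e * edgeH e) = gen (edgeEnds e).2 ∧
        edgeRep e (edgeH e) = gen (edgeEnds e).2 * gen (edgeEnds e).2) := by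
  have c4 : ∀ i, gen i * gen i * (gen i * gen i) = gen i := fun i => by
    rw [← Matrix.mul_assoc, gen_cube, Matrix.one_mul]
  have h1 : ∀ i X, gen i * (gen i * (gen i * X)) = X := fun i X => by
    rw [← Matrix.mul_assoc, ← Matrix.mul_assoc, gen_cube, Matrix.one_mul]
  fin_cases e
  · refine ⟨Or.inl ⟨rep_al 0, rep_al2 0⟩, Or.inl ⟨?_, ?_⟩⟩ <;>
      simp [edgeH, edgeEnds, ← edgeRep_mul, rep_al, rep_xi, edgeA, edgeY, Matrix.mul_assoc, h1]
  · refine ⟨Or.inr ⟨?_, rep_al 1⟩, Or.inl ⟨?_, ?_⟩⟩ <;>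
      simp [edgeH, edgeEnds, ← edgeRep_mul, rep_al, rep_xi, edgeA, edgeY, Matrix.mul_assoc, h1,
        c4]
  · refine ⟨Or.inr ⟨?_, rep_al 2⟩, Or.inr ⟨?_, ?_⟩⟩ <;>
      simp [edgeH, edgeEnds, ← edgeRep_mul, rep_al, rep_xi, edgeA, edgeY, Matrix.mul_assoc, h1,
        c4]

lemma triangle_of_model {C δ : ℝ} {U : Matrix (Fin 3) (Fin 3) ℂ → H →L[ℂ] H}
    (hU : Model C δ U) :
    Triangle C (4 * δ) (fun i => act n (U (gen i)) (gen i)) := by
  obtain ⟨hg, he⟩ := hU
  have hδ : 0 ≤ δ := (norm_nonneg _).trans (hg 0).2.1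
  refine ⟨fun i => ⟨(norm_act_le _ (gen_unitary i)).trans (hg i).1, ?_, ?_⟩, ?_⟩
  · rw [star_act, act_mul, gen_conjTranspose, act_sub]
    refine (norm_act_le _ ?_).trans ((hg i).2.1.trans (by linarith))
    rw [← gen_conjTranspose, Matrix.conjTranspose_conjTranspose]
    exact mul_eq_one_comm.1 (gen_unitary i)
  · rw [star_act, act_mul, mul_eq_one_comm.1 (gen_unitary i), ← act_one, act_sub]
    exact (norm_act_le _ (by simp)).trans ((hg i).2.2.trans (by linarith))
  · have key : ∀ e, EdgeData C (4 * δ)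
        (pOp (act n (U (gen (edgeEnds e).1)) (gen (edgeEnds e).1)))
        (pOp (act n (U (gen (edgeEnds e).2)) (gen (edgeEnds e).2))) := by
      intro e
      obtain ⟨hb, hm, hone⟩ := he e
      set W : F21 → TW H n →L[ℂ] TW H n := fun u => act n (U (edgeRep e u)) (edgeRep e u) with hW
      have hW1 : ‖W 1 - 1‖ ≤ δ := by
        rw [hW]; simp only [edgeRep_one, ← act_one, act_sub]
        refine (norm_act_le _ (by simp)).trans ?_
        simpa [edgeRep_one] using hone
      refine ⟨edgeH e, W, edgeH_cases e, fun u => (norm_act_le _ (edgeRep_unitary e u)).trans (hb u),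
        fun u v => ?_, by linarith, ?_, ?_⟩
      · simp only [hW]
        rw [act_mul, edgeRep_mul, act_sub]
        exact (norm_act_le _ (edgeRep_unitary e _)).trans ((hm u v).trans (by linarith))
      all_goals
        have mk : ∀ (i : Fin 3) (g g' : F21),
            edgeRep e g = gen i → edgeRep e g' = gen i * gen i → g * g = g' →
            ‖pOp (act n (U (gen i)) (gen i)) - ((2 : ℕ) • W 1 - W g - W g')‖ ≤ 4 * δ := by
          intro i g g' h1 h2 h3
          have e1 : pOp (act n (U (gen i)) (gen i)) - ((2 : ℕ) • W 1 - W g - W g')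
              = ((W g' - W g * W g) + (W g * W g - act n (star (U (gen i))) (gen i * gen i)))
                - ((W 1 - 1) + (W 1 - 1)) := by
            rw [pOp_eq, star_act, gen_conjTranspose, two_nsmul]
            simp only [hW, h1]
            abel
          rw [e1]
          refine (norm_sub_le _ _).trans ?_
          have n1 : ‖W g' - W g * W g‖ ≤ δ := by
            simp only [hW]
            rw [act_mul, edgeRep_mul, ← h3, act_sub, norm_sub_rev] at *
            refine (norm_act_le _ (edgeRep_unitary e _)).trans ?_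
            rw [norm_sub_rev]; exact hm g g
          have n2 : ‖W g * W g - act n (star (U (gen i))) (gen i * gen i)‖ ≤ δ := by
            simp only [hW, act_mul, h1, act_sub]
            refine (norm_act_le _ ?_).trans (by rw [norm_sub_rev]; exact (hg i).2.1)
            rw [← gen_conjTranspose, Matrix.conjTranspose_conjTranspose]
            exact mul_eq_one_comm.1 (gen_unitary i)
          have a1 := norm_add_le (W g' - W g * W g)
            (W g * W g - act n (star (U (gen i))) (gen i * gen i))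
          have a2 := norm_add_le (W 1 - 1) (W 1 - 1)
          linarith
      · rw [F21.pe, lin_sub, lin_sub, lin_nsmul, lin_dl, lin_dl, lin_dl]
        rcases (edge_images e).1 with ⟨h1, h2⟩ | ⟨h1, h2⟩
        · exact mk _ _ _ h1 h2 rfl
        · rw [sub_right_comm]
          exact mk _ _ _ h1 h2 (by decide +kernel)
      · rw [F21.pe, lin_sub, lin_sub, lin_nsmul, lin_dl, lin_dl, lin_dl]
        rcases (edge_images e).2 with ⟨h1, h2⟩ | ⟨h1, h2⟩
        · exact mk _ _ _ h1 h2 rfl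
        · rw [sub_right_comm]
          refine mk _ _ _ h1 h2 ?_
          fin_cases e <;> decide +kernel
    exact ⟨key 0, key 1, key 2⟩

/-- The symmetrizer acting on `H`-valued functions. -/
noncomputable def symOp (n : ℕ) : TW H n →L[ℂ] TW H n := matOp (symProj n)

lemma map_symProj : (symProj n).map (starRingEnd ℂ) = symProj n := by
  ext w v
  simp [symProj, permMat, Matrix.sum_apply, apply_ite (starRingEnd ℂ)]

lemma symOp_comm (A : H →L[ℂ] H) (M : Matrix (Fin 3) (Fin 3) ℂ) :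
    symOp n * act n A M = act n A M * symOp n := by
  simp only [symOp, act]
  rw [← mul_assoc, ← diagOp_matOp, mul_assoc, ← matOp_mul, cpow, symProj_comm, matOp_mul,
    mul_assoc]

lemma symOp_mul_self : (symOp n * symOp n : TW H n →L[ℂ] TW H n) = symOp n := by
  rw [symOp, ← matOp_mul, symProj_mul_self]

lemma norm_symOp_apply_le (x : TW H n) : ‖symOp n x‖ ≤ ‖x‖ := by
  have h : ⟪symOp n x, symOp n x⟫_ℂ = ⟪symOp n x, x⟫_ℂ := by
    simp only [symOp]
    rw [← inner_matOp, show matOp (symProj n)ᴴ (matOp (symProj n) x)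
      = ((matOp (symProj n)ᴴ * matOp (symProj n) : TW H n →L[ℂ] TW H n)) x from rfl, ← matOp_mul, symProj_conjTranspose,
      symProj_mul_self]
  have h2 : ‖symOp n x‖ ^ 2 ≤ ‖symOp n x‖ * ‖x‖ := by
    have := norm_inner_le_norm (𝕜 := ℂ) (symOp n x) x
    rw [← h, inner_self_eq_norm_sq_to_K] at this
    simpa using this
  rcases (norm_nonneg (symOp n x)).eq_or_lt with h0 | h0
  · rw [← h0]; exact norm_nonneg x
  · exact le_of_mul_le_mul_left (by rwa [pow_two] at h2) h0

end Vale.Agent.P083
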