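import Vale.Agent.P083.Defs

/-!
The Cuntz algebra `O_2`: a concrete model, its universal property and finite approximation.
-/

namespace Vale.Agent.P083

open Finset
open scoped InnerProductSpace

section Algebra

variable {B : Type} [CStarAlgebra B]

/-- The product of the isometries along a word. -/
def wp (t : Fin 2 → B) (w : List (Fin 2)) : B := (w.map t).prod

@[simp] lemma wp_nil (t : Fin 2 → B) : wp t [] = 1 := rfl

@[simp] lemma wp_cons (t : Fin 2 → B) (i : Fin 2) (w : List (Fin 2)) :
    wp t (i :: w) = t i * wp t w := by simp [wp]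

lemma wp_append (t : Fin 2 → B) (u v : List (Fin 2)) : wp t (u ++ v) = wp t u * wp t v := by
  simp [wp]

lemma pair_ortho {t : Fin 2 → B} (h : IsCuntzPair t) (i j : Fin 2) :
    star (t i) * t j = if i = j then 1 else 0 := by
  obtain ⟨h1, h2⟩ := h
  have key : ∀ a b : Fin 2, t a * star (t a) + t b * star (t b) = 1 → star (t a) * t b = 0 := by
    intro a b hab
    have h0 : star (t a) * (t b * star (t b)) = 0 := by
      rw [show t b * star (t b) = 1 - t a * star (t a) from eq_sub_of_add_eq' hab, mul_sub,
        mul_one, ← mul_assoc, h1, one_mul, sub_self]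
    calc star (t a) * t b = star (t a) * (t b * star (t b)) * t b := by
          simp only [mul_assoc, h1, mul_one]
      _ = 0 := by rw [h0, zero_mul]
  fin_cases i <;> fin_cases j
  · simpa using h1 0
  · simpa using key 0 1 h2
  · simpa using key 1 0 (by rw [add_comm]; exact h2)
  · simpa using h1 1

lemma wp_isometry {t : Fin 2 → B} (h : IsCuntzPair t) (w : List (Fin 2)) :
    star (wp t w) * wp t w = 1 := by
  induction w with
  | nil => simp
  | cons i w ih =>
    rw [wp_cons, star_mul, mul_assoc, ← mul_assoc (star (t i)), h.1, one_mul, ih]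

lemma norm_wp_le {t : Fin 2 → B} (h : IsCuntzPair t) (w : List (Fin 2)) : ‖wp t w‖ ≤ 1 := by
  rcases subsingleton_or_nontrivial B with hB | hB
  · simp [Subsingleton.elim (wp t w) 0]
  · have := CStarRing.norm_star_mul_self (x := wp t w)
    rw [wp_isometry h, norm_one] at this
    nlinarith [norm_nonneg (wp t w)]

/-- All words of a given length. -/
def words : ℕ → Finset (List (Fin 2))
  | 0 => {[]}
  | r + 1 => (univ ×ˢ words r).image fun p => p.1 :: p.2

lemma mem_words : ∀ {r : ℕ} {w : List (Fin 2)}, w ∈ words r ↔ w.length = r := by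
  intro r
  induction r with
  | zero => intro w; simp [words]
  | succ r ih =>
    intro w
    cases w with
    | nil => simp [words]
    | cons a w => simp [words, ih]

lemma words_resolution {t : Fin 2 → B} (h : IsCuntzPair t) :
    ∀ r, ∑ w ∈ words r, wp t w * star (wp t w) = 1 := by
  intro r
  induction r with
  | zero => simp [words]
  | succ r ih =>
    rw [words, Finset.sum_image (fun a _ b _ hab => by
      simp only [List.cons.injEq] at hab; exact Prod.ext hab.1 hab.2),
      Finset.sum_product, Fin.sum_univ_two]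
    simp only [wp_cons, star_mul, mul_assoc]
    simp only [← mul_assoc (wp t _) (star (wp t _)), ← Finset.mul_sum, ← Finset.sum_mul, ih, one_mul]
    exact h.2

/-- A monomial. -/
def mono (t : Fin 2 → B) (p : List (Fin 2) × List (Fin 2)) : B := wp t p.1 * star (wp t p.2)

/-- Evaluation of a formal combination of monomials. -/
noncomputable def evalC (t : Fin 2 → B) (p : (List (Fin 2) × List (Fin 2)) →₀ ℂ) : B :=
  Finsupp.linearCombination ℂ (mono t) p

lemma evalC_single (t : Fin 2 → B) (q : List (Fin 2) × List (Fin 2)) (a : ℂ) :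
    evalC t (Finsupp.single q a) = a • mono t q := by simp [evalC]

end Algebra

/-- A universal identity: `x` acts on monomials as a partial map of indices. -/
lemma gen_mul_mono (i : Fin 2) (q : List (Fin 2) × List (Fin 2)) :
    (∀ (B : Type) [CStarAlgebra B] (t : Fin 2 → B), IsCuntzPair t →
      t i * mono t q = mono t (i :: q.1, q.2)) ∧
    ∃ p : (List (Fin 2) × List (Fin 2)) →₀ ℂ, ∀ (B : Type) [CStarAlgebra B] (t : Fin 2 → B),
      IsCuntzPair t → star (t i) * mono t q = evalC t p := by
  refine ⟨fun B _ t _ => by simp [mono, mul_assoc], ?_⟩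
  obtain ⟨μ, ν⟩ := q
  cases μ with
  | nil =>
    refine ⟨Finsupp.single ([], ν ++ [i]) 1, fun B _ t _ => ?_⟩
    simp [evalC_single, mono, wp_append, star_mul]
  | cons a μ =>
    by_cases ha : i = a
    · refine ⟨Finsupp.single (μ, ν) 1, fun B _ t ht => ?_⟩
      subst ha
      simp [evalC_single, mono, ← mul_assoc, ht.1]
    · refine ⟨0, fun B _ t ht => ?_⟩
      simp [evalC, mono, ← mul_assoc, pair_ortho ht, ha]

/-- Everything in the algebraic star algebra is uniformly a combination of monomials. -/
lemma adjoin_eq_evalC {B : Type} [CStarAlgebra B] {t : Fin 2 → B} (h : IsCuntzPair t) {x : B}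
    (hx : x ∈ StarAlgebra.adjoin ℂ (Set.range t)) : ∃ p, evalC t p = x := by
  set V := LinearMap.range (Finsupp.linearCombination ℂ (mono t)) with hV
  have one_mem : (1 : B) ∈ V := ⟨Finsupp.single ([], []) 1, by simp [mono]⟩
  suffices H : ∀ y ∈ V, x * y ∈ V ∧ star x * y ∈ V by simpa [evalC, hV] using (H 1 one_mem).1
  have gen : ∀ i, ∀ y ∈ V, t i * y ∈ V ∧ star (t i) * y ∈ V := by
    rintro i _ ⟨p, rfl⟩
    simp only [Finsupp.linearCombination_apply, Finsupp.sum, Finset.mul_sum, mul_smul_comm]
    constructor <;> refine sum_mem fun q _ => V.smul_mem _ ?_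
    · rw [(gen_mul_mono i q).1 B t h]
      exact ⟨Finsupp.single (i :: q.1, q.2) 1, by simp⟩
    · obtain ⟨r, hr⟩ := (gen_mul_mono i q).2
      rw [hr B t h]
      exact ⟨r, rfl⟩
  induction hx using StarAlgebra.adjoin_induction with
  | mem z hz =>
    obtain ⟨i, rfl⟩ := hz
    exact gen i
  | algebraMap c =>
    intro y hy
    simp only [Algebra.algebraMap_eq_smul_one, star_smul, star_one, smul_mul_assoc, one_mul]
    exact ⟨V.smul_mem _ hy, V.smul_mem _ hy⟩
  | add a b _ _ ha hb =>
    intro y hy
    simp only [star_add, add_mul]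
    exact ⟨add_mem (ha y hy).1 (hb y hy).1, add_mem (ha y hy).2 (hb y hy).2⟩
  | mul a b _ _ ha hb =>
    intro y hy
    simp only [star_mul, mul_assoc]
    exact ⟨(ha _ (hb y hy).1).1, (hb _ (ha y hy).2).2⟩
  | star a _ ha =>
    intro y hy
    rw [star_star]
    exact ⟨(ha y hy).2, (ha y hy).1⟩

/-! ### The concrete representation on `ℓ²(ℤ × ℤ)` -/

/-- The Hilbert space. -/
noncomputable abbrev H0 := lp (fun _ : ℤ × ℤ => ℂ) 2

lemma mul_apply0 (A B : H0 →L[ℂ] H0) (x : H0) : (A * B) x = A (B x) := rfl

/-- The two index maps. -/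
def idx (i : Fin 2) (a : ℤ × ℤ) : ℤ × ℤ := (2 * a.1 + (i.val : ℤ), a.2 + 1)

lemma idx_inj (i : Fin 2) : Function.Injective (idx i) := by
  intro a b h
  simp only [idx, Prod.mk.injEq] at h
  ext <;> omega

lemma idx_cover (m : ℤ × ℤ) : ∃ i a, idx i a = m := by
  rcases Int.emod_two_eq m.1 with h | h
  · exact ⟨0, (m.1 / 2, m.2 - 1), by ext <;> simp [idx] <;> omega⟩
  · exact ⟨1, (m.1 / 2, m.2 - 1), by ext <;> simp [idx] <;> omega⟩

lemma idx_disjoint {i j : Fin 2} {a b : ℤ × ℤ} (h : idx i a = idx j b) : i = j ∧ a = b := by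
  have hij : i = j := by
    simp only [idx, Prod.mk.injEq] at h
    ext
    have := i.isLt
    have := j.isLt
    omega
  subst hij
  exact ⟨rfl, idx_inj i h⟩

lemma memℓp_push (i : Fin 2) (x : H0) :
    Memℓp (Function.extend (idx i) (x : ℤ × ℤ → ℂ) 0) 2 := by
  refine memℓp_gen ?_
  have hs := (lp.memℓp x).summable (by norm_num)
  have e : (fun m => ‖Function.extend (idx i) (x : ℤ × ℤ → ℂ) 0 m‖ ^ (2 : ENNReal).toReal)
      = Function.extend (idx i) (fun a => ‖x a‖ ^ (2 : ENNReal).toReal) 0 := by
    funext m
    by_cases hm : ∃ a, idx i a = m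
    · obtain ⟨a, rfl⟩ := hm
      rw [(idx_inj i).extend_apply, (idx_inj i).extend_apply]
    · rw [Function.extend_apply' _ _ _ hm, Function.extend_apply' _ _ _ hm]
      simp
  rw [e]
  refine (summable_extend_zero (idx_inj i)).2 hs

lemma memℓp_pull (i : Fin 2) (x : H0) : Memℓp (fun a => x (idx i a)) 2 :=
  memℓp_gen (((lp.memℓp x).summable (by norm_num)).comp_injective (idx_inj i))

/-- Linear map underlying the isometry. -/
noncomputable def pushL (i : Fin 2) : H0 →ₗ[ℂ] H0 where
  toFun x := ⟨Function.extend (idx i) (x : ℤ × ℤ → ℂ) 0, memℓp_push i x⟩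
  map_add' x y := by
    refine lp.ext (funext fun m => ?_)
    simp only [lp.coeFn_add, Pi.add_apply]
    by_cases hm : ∃ a, idx i a = m
    · obtain ⟨a, rfl⟩ := hm; simp [(idx_inj i).extend_apply]
    · simp [Function.extend_apply' _ _ _ hm]
  map_smul' c x := by
    refine lp.ext (funext fun m => ?_)
    simp only [lp.coeFn_smul, Pi.smul_apply, RingHom.id_apply]
    by_cases hm : ∃ a, idx i a = m
    · obtain ⟨a, rfl⟩ := hm; simp [(idx_inj i).extend_apply]
    · simp [Function.extend_apply' _ _ _ hm]

lemma pushL_inner (i : Fin 2) (x y : H0) :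
    ⟪pushL i x, y⟫_ℂ = ∑' a, ⟪x a, y (idx i a)⟫_ℂ := by
  rw [lp.inner_eq_tsum]
  refine ((idx_inj i).tsum_eq ?_).symm.trans (tsum_congr fun a => ?_)
  · intro m hm
    by_contra h
    apply hm
    change ⟪Function.extend (idx i) (x : ℤ × ℤ → ℂ) 0 m, y m⟫_ℂ = 0
    rw [Function.extend_apply' _ _ _ (by simpa [Set.mem_range] using h)]
    simp
  · change ⟪Function.extend (idx i) (x : ℤ × ℤ → ℂ) 0 (idx i a), _⟫_ℂ = _
    rw [(idx_inj i).extend_apply]

lemma pushL_norm (i : Fin 2) (x : H0) : ‖pushL i x‖ = ‖x‖ := by
  have h : ⟪pushL i x, pushL i x⟫_ℂ = ⟪x, x⟫_ℂ := by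
    rw [pushL_inner, lp.inner_eq_tsum]
    refine tsum_congr fun a => ?_
    change ⟪x a, Function.extend (idx i) (x : ℤ × ℤ → ℂ) 0 (idx i a)⟫_ℂ = _
    rw [(idx_inj i).extend_apply]
  rw [inner_self_eq_norm_sq_to_K, inner_self_eq_norm_sq_to_K] at h
  exact (sq_eq_sq₀ (norm_nonneg _) (norm_nonneg _)).1 (by exact_mod_cast h)

/-- The concrete isometries. -/
noncomputable def S0 (i : Fin 2) : H0 →L[ℂ] H0 :=
  (pushL i).mkContinuous 1 fun x => by rw [pushL_norm, one_mul]

lemma star_S0_apply (i : Fin 2) (y : H0) (a : ℤ × ℤ) :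
    (star (S0 i) y) a = y (idx i a) := by
  have h := ContinuousLinearMap.adjoint_inner_right (S0 i) (lp.single 2 a (1 : ℂ)) y
  rw [lp.inner_single_left, ← ContinuousLinearMap.star_eq_adjoint] at h
  rw [show S0 i (lp.single 2 a (1 : ℂ)) = pushL i (lp.single 2 a (1 : ℂ)) from rfl, pushL_inner,
    tsum_eq_single a] at h
  · simpa [lp.single_apply, Pi.single_apply] using h
  · intro b hb; simp [lp.single_apply, Pi.single_apply, hb]

lemma S0_pair : IsCuntzPair S0 := by
  constructor
  · intro i
    refine ContinuousLinearMap.ext fun x => lp.ext (funext fun a => ?_)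
    change (star (S0 i) (S0 i x)) a = x a
    rw [star_S0_apply]
    change Function.extend (idx i) (x : ℤ × ℤ → ℂ) 0 (idx i a) = x a
    rw [(idx_inj i).extend_apply]
  · refine ContinuousLinearMap.ext fun x => lp.ext (funext fun m => ?_)
    change (S0 0 (star (S0 0) x) + S0 1 (star (S0 1) x) : H0) m = x m
    obtain ⟨i, a, rfl⟩ := idx_cover m
    change Function.extend (idx 0) (star (S0 0) x : ℤ × ℤ → ℂ) 0 (idx i a)
      + Function.extend (idx 1) (star (S0 1) x : ℤ × ℤ → ℂ) 0 (idx i a) = x (idx i a)
    have off : ∀ j, j ≠ i → ¬ ∃ b, idx j b = idx i a := fun j hj ⟨b, hb⟩ => hj (idx_disjoint hb).1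
    match i with
    | 0 =>
      rw [(idx_inj 0).extend_apply, Function.extend_apply' _ _ _ (off 1 (by decide)), star_S0_apply]
      simp
    | 1 =>
      rw [(idx_inj 1).extend_apply, Function.extend_apply' _ _ _ (off 0 (by decide)), star_S0_apply]
      simp

/-- The point whose orbit is free. -/
def pt (w : List (Fin 2)) : ℤ × ℤ := w.foldr idx (0, 0)

lemma pt_len : ∀ w, (pt w).2 = w.length := by
  intro w
  induction w with
  | nil => rfl
  | cons a w ih =>
    change (pt w).2 + 1 = _
    simp [ih]

lemma pt_injective : Function.Injective pt := by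
  intro u
  induction u with
  | nil =>
    intro v h
    have := congrArg Prod.snd h
    rw [pt_len, pt_len] at this
    simp at this
    exact (List.length_eq_zero_iff.1 (by omega)).symm
  | cons a u ih =>
    intro v h
    cases v with
    | nil =>
      have := congrArg Prod.snd h
      rw [pt_len, pt_len] at this
      simp at this
      omega
    | cons b v =>
      obtain ⟨rfl, h'⟩ := idx_disjoint (show idx a (pt u) = idx b (pt v) from h)
      rw [ih h']

/-- The basis vector at a word. -/
noncomputable def vec (w : List (Fin 2)) : H0 := lp.single 2 (pt w) (1 : ℂ)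

lemma S0_vec (i : Fin 2) (w : List (Fin 2)) : S0 i (vec w) = vec (i :: w) := by
  refine lp.ext (funext fun m => ?_)
  change Function.extend (idx i) (vec w : ℤ × ℤ → ℂ) 0 m = _
  by_cases hm : ∃ a, idx i a = m
  · obtain ⟨a, rfl⟩ := hm
    rw [(idx_inj i).extend_apply]
    simp only [vec, lp.single_apply, Pi.single_apply]
    have : idx i a = pt (i :: w) ↔ a = pt w := (idx_inj i).eq_iff
    simp [this]
  · rw [Function.extend_apply' _ _ _ hm]
    simp only [vec, lp.single_apply, Pi.single_apply, Pi.zero_apply]
    rw [if_neg]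
    intro h; exact hm ⟨pt w, h.symm⟩

lemma wp_vec (u w : List (Fin 2)) : wp S0 u (vec w) = vec (u ++ w) := by
  induction u with
  | nil => simp
  | cons a u ih => rw [wp_cons, mul_apply0, ih, S0_vec, List.cons_append]

lemma inner_vec (u v : List (Fin 2)) : ⟪vec u, vec v⟫_ℂ = if u = v then 1 else 0 := by
  simp [vec, lp.inner_single_left, lp.single_apply, Pi.single_apply, pt_injective.eq_iff]

/-- Matrix coefficient of an operator along the free orbit. -/
noncomputable def coef (T : H0 →L[ℂ] H0) (u v : List (Fin 2)) : ℂ := ⟪vec u, T (vec v)⟫_ℂ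

lemma wp_ortho {B : Type} [CStarAlgebra B] {t : Fin 2 → B} (h : IsCuntzPair t) :
    ∀ {a b : List (Fin 2)}, a.length = b.length → a ≠ b → star (wp t a) * wp t b = 0 := by
  intro a
  induction a with
  | nil => intro b hb hne; exact absurd (List.length_eq_zero_iff.1 hb.symm).symm hne
  | cons i a ih =>
    intro b hb hne
    cases b with
    | nil => simp at hb
    | cons j b =>
      rw [wp_cons, wp_cons, star_mul, mul_assoc, ← mul_assoc (star (t i)), pair_ortho h]
      by_cases hij : i = j
      · subst hij
        simp only [if_true, one_mul]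
        exact ih (by simpa using hb) (by simpa using hne)
      · simp [hij]

lemma star_wp_vec {μ v : List (Fin 2)} (h : μ.length ≤ v.length) :
    star (wp S0 μ) (vec v) = if μ <+: v then vec (v.drop μ.length) else 0 := by
  split_ifs with hp
  · obtain ⟨γ, rfl⟩ := hp
    rw [List.drop_left, ← wp_vec μ γ, ← mul_apply0, wp_isometry S0_pair]
    rfl
  · rw [show v = v.take μ.length ++ v.drop μ.length from (List.take_append_drop _ _).symm,
      ← wp_vec, ← mul_apply0]
    have hne : μ ≠ v.take μ.length := fun e => hp ⟨v.drop μ.length, by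
      conv_lhs => arg 1; rw [e]
      exact List.take_append_drop _ _⟩
    rw [wp_ortho S0_pair (by simp [Nat.min_eq_left h]) hne]
    rfl

lemma coef_mono {μ ν u v : List (Fin 2)} (hv : ν.length ≤ v.length) :
    coef (mono S0 (μ, ν)) u v = if ν <+: v ∧ u = μ ++ v.drop ν.length then 1 else 0 := by
  rw [coef, mono, mul_apply0, star_wp_vec hv]
  by_cases h : ν <+: v
  · simp [h, wp_vec, inner_vec]
  · simp [h]

/-- The words whose length lies in a window. -/
def window (D m : ℕ) : Finset (List (Fin 2)) := (Finset.Ico D (D + m)).biUnion words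

lemma mem_window {D m : ℕ} {w : List (Fin 2)} :
    w ∈ window D m ↔ D ≤ w.length ∧ w.length < D + m := by
  simp [window, mem_words]

lemma sum_window {M : Type*} [AddCommMonoid M] (D m : ℕ) (f : List (Fin 2) → M) :
    ∑ w ∈ window D m, f w = ∑ L ∈ Finset.Ico D (D + m), ∑ w ∈ words L, f w := by
  refine Finset.sum_biUnion fun a _ b _ hab => ?_
  rw [Function.onFun, Finset.disjoint_left]
  intro w ha hb
  exact hab ((mem_words.1 ha).symm.trans (mem_words.1 hb))

lemma window_resolution {B : Type} [CStarAlgebra B] {t : Fin 2 → B} (h : IsCuntzPair t) (D m : ℕ) :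
    ∑ w ∈ window D m, wp t w * star (wp t w) = (m : ℂ) • (1 : B) := by
  rw [sum_window]
  simp [words_resolution h, Nat.cast_smul_eq_nsmul ℂ]

/-- The lengths `L` whose shift by `μ, ν` leaves the window. -/
def goodLen (D m a b : ℕ) : Finset ℕ :=
  (Finset.Ico D (D + m)).filter fun L => D + b ≤ L + a ∧ L + a < D + m + b

lemma card_goodLen {D m a b : ℕ} (ha : a ≤ D) (hb : b ≤ D) :
    m ≤ (goodLen D m a b).card + 2 * D ∧ (goodLen D m a b).card ≤ m := by
  have e : goodLen D m a b = Finset.Ico (max D (D + b - a)) (min (D + m) (D + m + b - a)) := by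
    ext L; simp [goodLen]; omega
  rw [e, Nat.card_Ico]; omega

/-- Reconstruction of a monomial from the finite matrix of its coefficients. -/
lemma mono_reconstruct {B : Type} [CStarAlgebra B] {t : Fin 2 → B} (h : IsCuntzPair t)
    {μ ν : List (Fin 2)} {D m : ℕ} (hμ : μ.length ≤ D) (hν : ν.length ≤ D) :
    ∑ u ∈ window D m, ∑ v ∈ window D m,
        coef (mono S0 (μ, ν)) u v • (wp t u * star (wp t v))
      = ((goodLen D m μ.length ν.length).card : ℂ) • mono t (μ, ν) := by
  rw [Finset.sum_comm, sum_window]
  have e : ∀ L ∈ Finset.Ico D (D + m), ∑ v ∈ words L, ∑ u ∈ window D m,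
      coef (mono S0 (μ, ν)) u v • (wp t u * star (wp t v))
      = if L ∈ goodLen D m μ.length ν.length then mono t (μ, ν) else 0 := by
    intro L hL
    have hL' := Finset.mem_Ico.1 hL
    have e1 : ∀ v ∈ words L, ∑ u ∈ window D m, coef (mono S0 (μ, ν)) u v • (wp t u * star (wp t v))
        = if ν <+: v ∧ μ ++ v.drop ν.length ∈ window D m then
            wp t (μ ++ v.drop ν.length) * star (wp t v) else 0 := by
      intro v hv
      have hvl := mem_words.1 hv
      simp only [coef_mono (by omega : ν.length ≤ v.length), ite_smul, one_smul, zero_smul, ite_and]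
      by_cases hp : ν <+: v
      · simp [hp, Finset.sum_ite_eq']
      · simp [hp]
    rw [Finset.sum_congr rfl e1]
    have hmem : ∀ v ∈ words L, (μ ++ v.drop ν.length ∈ window D m
        ↔ L ∈ goodLen D m μ.length ν.length) := by
      intro v hv
      simp [mem_window, goodLen, mem_words.1 hv]
      omega
    by_cases hg : L ∈ goodLen D m μ.length ν.length
    · rw [if_pos hg, ← Finset.sum_filter]
      have e2 : (words L).filter (fun v => ν <+: v ∧ μ ++ v.drop ν.length ∈ window D m)
          = (words (L - ν.length)).image (fun γ => ν ++ γ) := by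
        ext v
        simp only [Finset.mem_filter, Finset.mem_image, mem_words]
        constructor
        · rintro ⟨hl, ⟨γ, rfl⟩, -⟩
          exact ⟨γ, by simp at hl; omega, rfl⟩
        · rintro ⟨γ, hl, rfl⟩
          have hl' : (ν ++ γ).length = L := by simp; omega
          exact ⟨hl', List.prefix_append _ _, (hmem _ (mem_words.2 hl')).2 hg⟩
      rw [e2, Finset.sum_image (fun a _ b _ hab => List.append_cancel_left hab)]
      simp only [List.drop_left, wp_append, star_mul, mul_assoc]
      simp only [← mul_assoc (wp t _) (star (wp t _)), ← Finset.mul_sum, ← Finset.sum_mul,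
        words_resolution h, one_mul]
      rfl
    · rw [if_neg hg]
      refine Finset.sum_eq_zero fun v hv => if_neg ?_
      rintro ⟨-, hh⟩
      exact hg ((hmem v hv).1 hh)
  rw [Finset.sum_congr rfl e, ← Finset.sum_filter, Finset.sum_const, Nat.cast_smul_eq_nsmul]
  congr 2
  ext L
  simp [goodLen]

lemma norm_le_of_between {B : Type} [CStarAlgebra B] [PartialOrder B] [StarOrderedRing B] {x : B}
    {r : ℝ} (hr : 0 ≤ r) (hx : IsSelfAdjoint x) (h1 : -algebraMap ℝ B r ≤ x)
    (h2 : x ≤ algebraMap ℝ B r) : ‖x‖ ≤ r := by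
  rw [← cfc_id' ℝ x]
  refine norm_cfc_le hr fun t ht => ?_
  rw [Real.norm_eq_abs, abs_le]
  rw [← map_neg, algebraMap_le_iff_le_spectrum] at h1
  rw [le_algebraMap_iff_spectrum_le] at h2
  exact ⟨h1 t ht, h2 t ht⟩

/-- Positivity: compressions do not increase the norm. -/
lemma norm_reconstruct_le {B : Type} [CStarAlgebra B] {t : Fin 2 → B} (h : IsCuntzPair t)
    (T : H0 →L[ℂ] H0) (hT : IsSelfAdjoint T) (D m : ℕ) :
    ‖∑ u ∈ window D m, ∑ v ∈ window D m, coef T u v • (wp t u * star (wp t v))‖ ≤ m * ‖T‖ := by
  letI := CStarAlgebra.spectralOrder B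
  letI := CStarAlgebra.spectralOrderedRing B
  let W := {u : List (Fin 2) // u ∈ window D m}
  let M : Matrix W W ℂ := fun a b => coef T a.1 b.1
  have hM : M.IsHermitian := by
    refine Matrix.IsHermitian.ext fun a b => ?_
    simp only [M, coef, Complex.star_def, inner_conj_symm]
    conv_lhs => rw [← hT.star_eq, ContinuousLinearMap.star_eq_adjoint,
      ContinuousLinearMap.adjoint_inner_left]
  let V : Matrix W W ℂ := hM.eigenvectorUnitary.1
  let l : W → ℝ := hM.eigenvalues
  have v1 : V.conjTranspose * V = 1 := Matrix.UnitaryGroup.star_mul_self _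
  have v2 : V * V.conjTranspose = 1 := mul_eq_one_comm.1 v1
  have hspec : M = V * Matrix.diagonal (fun r => (l r : ℂ)) * V.conjTranspose := by
    have := hM.spectral_theorem
    rw [Unitary.conjStarAlgAut_apply] at this
    simpa [Matrix.star_eq_conjTranspose, Function.comp_def, V, l] using this
  have hentry : ∀ a b : W, coef T a.1 b.1 = ∑ r, V a r * (l r : ℂ) * star (V b r) := by
    intro a b
    have := congrArg (fun A : Matrix W W ℂ => A a b) hspec
    simp only [Matrix.mul_apply, Matrix.diagonal_apply, mul_ite, mul_zero, Finset.sum_ite_eq',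
      Finset.mem_univ, if_true, Matrix.conjTranspose_apply] at this
    exact this
  have hl : ∀ r, |l r| ≤ ‖T‖ := by
    intro r
    set x := ∑ a : W, V a r • vec a.1 with hx
    have hinner : ∀ (f : W → ℂ) (a : W), ⟪vec a.1, ∑ b : W, f b • vec b.1⟫_ℂ = f a := by
      intro f a
      simp [inner_sum, inner_smul_right, inner_vec, Subtype.val_inj]
    have hxx : ⟪x, x⟫_ℂ = 1 := by
      have := congrArg (fun A : Matrix W W ℂ => A r r) v1
      simp only [Matrix.mul_apply, Matrix.one_apply_eq, Matrix.conjTranspose_apply] at this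
      rw [← this, hx]
      simp only [sum_inner, inner_smul_left, hinner]
      rfl
    have hxT : ⟪x, T x⟫_ℂ = (l r : ℂ) := by
      have hd : V.conjTranspose * M * V = Matrix.diagonal (fun r => (l r : ℂ)) := by
        rw [hspec]
        simp only [← Matrix.mul_assoc, v1, Matrix.one_mul]
        rw [Matrix.mul_assoc, v1, Matrix.mul_one]
      have := congrArg (fun A : Matrix W W ℂ => A r r) hd
      simp only [Matrix.mul_apply, Matrix.diagonal_apply_eq, Matrix.conjTranspose_apply,
        Finset.sum_mul] at this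
      rw [← this, hx]
      simp only [map_sum, map_smul, sum_inner, inner_sum, inner_smul_left, inner_smul_right,
        Finset.mul_sum]
      refine Finset.sum_congr rfl fun a _ => Finset.sum_congr rfl fun b _ => ?_
      simp only [M, coef, Complex.star_def]
      ring
    have hn : ‖x‖ = 1 := by
      rw [inner_self_eq_norm_sq_to_K] at hxx
      have h2 : ‖x‖ ^ 2 = 1 := by simpa [← Complex.ofReal_pow] using congrArg Complex.re hxx
      exact (sq_eq_one_iff.1 h2).resolve_right
        (by linarith [norm_nonneg x])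
    have := (norm_inner_le_norm (𝕜 := ℂ) x (T x)).trans
      (mul_le_mul_of_nonneg_left (T.le_opNorm x) (norm_nonneg x))
    rw [hxT, hn, Complex.norm_real, Real.norm_eq_abs, one_mul, mul_one] at this
    exact this
  let z : W → B := fun r => ∑ b : W, star (V b r) • star (wp t b.1)
  have hzz : ∀ r, star (z r) * z r
      = ∑ a : W, ∑ b : W, (V a r * star (V b r)) • (wp t a.1 * star (wp t b.1)) := by
    intro r
    simp only [z, star_sum, star_smul, star_star, Finset.sum_mul, Finset.mul_sum,
      smul_mul_smul_comm]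
    rw [Finset.sum_comm]
  have hsum : ∑ r, star (z r) * z r = (m : ℂ) • (1 : B) := by
    rw [← window_resolution h D m, ← Finset.sum_coe_sort (window D m)]
    simp only [hzz]
    rw [Finset.sum_comm]
    refine Finset.sum_congr rfl fun a _ => ?_
    rw [Finset.sum_comm]
    simp only [← Finset.sum_smul]
    rw [Finset.sum_eq_single a]
    · have := congrArg (fun A : Matrix W W ℂ => A a a) v2
      simp only [Matrix.mul_apply, Matrix.one_apply_eq, Matrix.conjTranspose_apply] at this
      rw [this, one_smul]
    · intro b _ hb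
      have := congrArg (fun A : Matrix W W ℂ => A a b) v2
      simp only [Matrix.mul_apply, Matrix.one_apply_ne (Ne.symm hb),
        Matrix.conjTranspose_apply] at this
      rw [this, zero_smul]
    · simp
  have hPsi : ∑ u ∈ window D m, ∑ v ∈ window D m, coef T u v • (wp t u * star (wp t v))
      = ∑ r, (l r : ℂ) • (star (z r) * z r) := by
    rw [← Finset.sum_coe_sort (window D m)]
    simp only [← Finset.sum_coe_sort (window D m) (fun v => coef T _ v • (_ * star (wp t v))),
      hentry, hzz, Finset.smul_sum, Finset.sum_smul, smul_smul]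
    conv_rhs => rw [Finset.sum_comm]
    refine Finset.sum_congr rfl fun a _ => ?_
    rw [Finset.sum_comm]
    refine Finset.sum_congr rfl fun r _ => Finset.sum_congr rfl fun b _ => ?_
    congr 1
    ring
  rw [hPsi]
  have hsa : IsSelfAdjoint (∑ r, (l r : ℂ) • (star (z r) * z r)) := by
    refine isSelfAdjoint_sum _ fun r _ => ?_
    refine IsSelfAdjoint.smul ?_ (IsSelfAdjoint.star_mul_self _)
    simp [IsSelfAdjoint]
  have key : ∑ r, ‖T‖ • (star (z r) * z r) = algebraMap ℝ B (m * ‖T‖) := by
    rw [← Finset.smul_sum, hsum, Algebra.algebraMap_eq_smul_one, ← Complex.coe_smul,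
      ← Complex.coe_smul, smul_smul]
    congr 1
    push_cast; ring
  refine norm_le_of_between (by positivity) hsa ?_ ?_
  · rw [← key, ← Finset.sum_neg_distrib]
    refine Finset.sum_le_sum fun r _ => ?_
    rw [← neg_smul, Complex.coe_smul]
    exact smul_le_smul_of_nonneg_right (abs_le.1 (hl r)).1 (star_mul_self_nonneg _)
  · rw [← key]
    refine Finset.sum_le_sum fun r _ => ?_
    rw [Complex.coe_smul]
    exact smul_le_smul_of_nonneg_right (abs_le.1 (hl r)).2 (star_mul_self_nonneg _)

end Vale.Agent.P083
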