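import Vale.Agent.P083.Cuntz

/-!
Universal property of the concrete Cuntz algebra and approximation of its elements by matrices.
-/

namespace Vale.Agent.P083

open Finset
open scoped InnerProductSpace

lemma wp_map {A B : Type} [CStarAlgebra A] [CStarAlgebra B] (φ : A →⋆ₐ[ℂ] B) (t : Fin 2 → A)
    (w : List (Fin 2)) : φ (wp t w) = wp (φ ∘ t) w := by
  induction w with
  | nil => simp
  | cons a w ih => simp [map_mul, ih]

lemma evalC_map {A B : Type} [CStarAlgebra A] [CStarAlgebra B] (φ : A →⋆ₐ[ℂ] B) (t : Fin 2 → A)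
    (p : (List (Fin 2) × List (Fin 2)) →₀ ℂ) : φ (evalC t p) = evalC (φ ∘ t) p := by
  simp [evalC, Finsupp.linearCombination_apply, Finsupp.sum, map_sum, mono, map_mul,
    map_star, wp_map]

/-- The largest word length in a combination of monomials. -/
def degree (p : (List (Fin 2) × List (Fin 2)) →₀ ℂ) : ℕ :=
  p.support.sup fun q => max q.1.length q.2.length

lemma le_degree {p : (List (Fin 2) × List (Fin 2)) →₀ ℂ} {q : List (Fin 2) × List (Fin 2)}
    (hq : q ∈ p.support) : q.1.length ≤ degree p ∧ q.2.length ≤ degree p := by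
  have := Finset.le_sup (f := fun q : List (Fin 2) × List (Fin 2) => max q.1.length q.2.length) hq
  exact ⟨(le_max_left _ _).trans this, (le_max_right _ _).trans this⟩

lemma norm_mono_le {B : Type} [CStarAlgebra B] {t : Fin 2 → B} (h : IsCuntzPair t)
    (q : List (Fin 2) × List (Fin 2)) : ‖mono t q‖ ≤ 1 :=
  (norm_mul_le _ _).trans (mul_le_one₀ (norm_wp_le h _) (norm_nonneg _)
    ((norm_star _).trans_le (norm_wp_le h _)))

lemma coef_evalC (p : (List (Fin 2) × List (Fin 2)) →₀ ℂ) (u v : List (Fin 2)) :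
    coef (evalC S0 p) u v = ∑ q ∈ p.support, p q * coef (mono S0 q) u v := by
  simp [coef, evalC, Finsupp.linearCombination_apply, Finsupp.sum, ContinuousLinearMap.sum_apply,
    inner_sum, inner_smul_right]

lemma norm_evalC_le_of_selfAdjoint {B : Type} [CStarAlgebra B] {t : Fin 2 → B}
    (h : IsCuntzPair t) (p : (List (Fin 2) × List (Fin 2)) →₀ ℂ)
    (hp : IsSelfAdjoint (evalC S0 p)) : ‖evalC t p‖ ≤ ‖evalC S0 p‖ := by
  set D := degree p
  set c := ∑ q ∈ p.support, ‖p q‖
  have key : ∀ m : ℕ, (m : ℝ) * ‖evalC t p‖ ≤ m * ‖evalC S0 p‖ + c * (2 * D) := by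
    intro m
    set Ψ := ∑ u ∈ window D m, ∑ v ∈ window D m, coef (evalC S0 p) u v • (wp t u * star (wp t v))
    have hΨ : Ψ = ∑ q ∈ p.support,
        (p q * ((goodLen D m q.1.length q.2.length).card : ℂ)) • mono t q := by
      simp only [Ψ, coef_evalC, Finset.sum_smul, mul_smul]
      rw [Finset.sum_congr rfl fun u _ => Finset.sum_comm, Finset.sum_comm]
      refine Finset.sum_congr rfl fun q hq => ?_
      simp only [← Finset.smul_sum]
      rw [mono_reconstruct h (le_degree hq).1 (le_degree hq).2]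
    have hdiff : ‖(m : ℂ) • evalC t p - Ψ‖ ≤ c * (2 * D) := by
      have e : (m : ℂ) • evalC t p - Ψ = ∑ q ∈ p.support,
          (p q * ((m : ℂ) - ((goodLen D m q.1.length q.2.length).card : ℂ))) • mono t q := by
        rw [hΨ, evalC, Finsupp.linearCombination_apply, Finsupp.sum, Finset.smul_sum,
          ← Finset.sum_sub_distrib]
        refine Finset.sum_congr rfl fun q _ => ?_
        rw [smul_smul, mul_sub, sub_smul, mul_comm (m : ℂ)]
      rw [e, Finset.sum_mul]
      refine (norm_sum_le _ _).trans (Finset.sum_le_sum fun q hq => ?_)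
      rw [norm_smul, norm_mul]
      obtain ⟨g1, g2⟩ := card_goodLen (D := D) (m := m) (le_degree hq).1 (le_degree hq).2
      rw [← Nat.cast_sub g2, Complex.norm_natCast]
      refine (mul_le_of_le_one_right (by positivity) (norm_mono_le h q)).trans ?_
      refine mul_le_mul_of_nonneg_left ?_ (norm_nonneg _)
      exact_mod_cast (by omega : m - (goodLen D m q.1.length q.2.length).card ≤ 2 * D)
    have h1 : ‖Ψ‖ ≤ m * ‖evalC S0 p‖ := norm_reconstruct_le h _ hp D m
    have h2 := norm_le_norm_add_norm_sub' ((m : ℂ) • evalC t p) Ψ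
    rw [norm_smul, Complex.norm_natCast] at h2
    linarith
  by_contra hlt
  push Not at hlt
  obtain ⟨m, hm⟩ := exists_nat_gt (c * (2 * D) / (‖evalC t p‖ - ‖evalC S0 p‖))
  rw [div_lt_iff₀ (by linarith)] at hm
  linarith [key m]

lemma pair_prod {B : Type} [CStarAlgebra B] {t : Fin 2 → B} (h : IsCuntzPair t) :
    IsCuntzPair (fun i => (S0 i, t i)) :=
  ⟨fun i => Prod.ext (S0_pair.1 i) (h.1 i), Prod.ext S0_pair.2 h.2⟩

lemma norm_nsm {A : Type} [CStarAlgebra A] (a : A) : ‖star a * a‖ = ‖a‖ * ‖a‖ :=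
  CStarRing.norm_star_mul_self

lemma adjoin_norm_le {B : Type} [CStarAlgebra B] {t : Fin 2 → B} (h : IsCuntzPair t)
    {x : (H0 →L[ℂ] H0) × B}
    (hx : x ∈ StarAlgebra.adjoin ℂ (Set.range fun i => (S0 i, t i))) : ‖x.2‖ ≤ ‖x.1‖ := by
  obtain ⟨p, hp⟩ := adjoin_eq_evalC (pair_prod h) (mul_mem (star_mem hx) hx)
  set π₁ := StarAlgHom.fst ℂ (H0 →L[ℂ] H0) B with hπ₁
  set π₂ := StarAlgHom.snd ℂ (H0 →L[ℂ] H0) B with hπ₂
  have c1 : (⇑π₁ ∘ fun i => (S0 i, t i)) = S0 := funext fun i => rfl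
  have c2 : (⇑π₂ ∘ fun i => (S0 i, t i)) = t := funext fun i => rfl
  have f1 : π₁ x = x.1 := rfl
  have f2 : π₂ x = x.2 := rfl
  have e1 : evalC S0 p = star x.1 * x.1 := by
    have := congrArg π₁ hp
    rwa [evalC_map, c1, map_mul, map_star, f1] at this
  have e2 : evalC t p = star x.2 * x.2 := by
    have := congrArg π₂ hp
    rwa [evalC_map, c2, map_mul, map_star, f2] at this
  have hsa : IsSelfAdjoint (evalC S0 p) := by rw [e1]; exact IsSelfAdjoint.star_mul_self _
  have hle := norm_evalC_le_of_selfAdjoint h p hsa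
  rw [e1, e2, norm_nsm x.1, norm_nsm x.2] at hle
  exact (mul_self_le_mul_self_iff (norm_nonneg _) (norm_nonneg _)).2 hle

/-- The concrete Cuntz algebra. -/
noncomputable def O2sub : StarSubalgebra ℂ (H0 →L[ℂ] H0) :=
  (StarAlgebra.adjoin ℂ (Set.range S0)).topologicalClosure

/-- The concrete Cuntz algebra as a type. -/
abbrev O2 : Type := O2sub

noncomputable instance : CStarAlgebra O2 :=
  StarSubalgebra.cstarAlgebra O2sub (h_closed := StarSubalgebra.isClosed_topologicalClosure _)

/-- The generators of the concrete Cuntz algebra. -/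
noncomputable def gen2 (i : Fin 2) : O2 :=
  ⟨S0 i, (StarAlgebra.adjoin ℂ (Set.range S0)).le_topologicalClosure
    (StarAlgebra.subset_adjoin _ _ ⟨i, rfl⟩)⟩

lemma gen2_pair : IsCuntzPair gen2 :=
  ⟨fun i => Subtype.ext (S0_pair.1 i), Subtype.ext S0_pair.2⟩

theorem gen2_universal (B : Type) [CStarAlgebra B] (t : Fin 2 → B) (ht : IsCuntzPair t) :
    ∃! φ : O2 →⋆ₐ[ℂ] B, ∀ i, φ (gen2 i) = t i := by
  let G : StarSubalgebra ℂ ((H0 →L[ℂ] H0) × B) :=
    (StarAlgebra.adjoin ℂ (Set.range fun i => (S0 i, t i))).topologicalClosure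
  haveI : IsClosed (G : Set ((H0 →L[ℂ] H0) × B)) := StarSubalgebra.isClosed_topologicalClosure _
  have hle : ∀ x ∈ G, ‖x.2‖ ≤ ‖x.1‖ := by
    intro x hx
    refine closure_minimal (fun y hy => adjoin_norm_le ht hy) ?_ hx
    exact isClosed_le (continuous_norm.comp continuous_snd) (continuous_norm.comp continuous_fst)
  let π₁ : G →⋆ₐ[ℂ] (H0 →L[ℂ] H0) := (StarAlgHom.fst ℂ (H0 →L[ℂ] H0) B).comp G.subtype
  have hiso : Isometry π₁ := by
    refine AddMonoidHomClass.isometry_of_norm π₁ fun x => ?_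
    change ‖(x : (H0 →L[ℂ] H0) × B).1‖ = ‖(x : (H0 →L[ℂ] H0) × B)‖
    rw [Prod.norm_def, max_eq_left (hle _ x.2)]
  have hmap : ∀ i, (S0 i, t i) ∈ G := fun i =>
    (StarAlgebra.adjoin ℂ (Set.range fun i => (S0 i, t i))).le_topologicalClosure
      (StarAlgebra.subset_adjoin _ _ ⟨i, rfl⟩)
  have hclosed : IsClosed (Set.range π₁) := by
    haveI : CompleteSpace G := IsClosed.completeSpace_coe
    exact hiso.isClosedEmbedding.isClosed_range
  have hrange : O2sub ≤ π₁.range := by
    refine StarSubalgebra.topologicalClosure_minimal ?_ ?_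
    · refine StarAlgebra.adjoin_le ?_
      rintro _ ⟨i, rfl⟩
      exact ⟨⟨_, hmap i⟩, rfl⟩
    · exact hclosed
  have hx : ∀ a : O2, ∃ g : G, π₁ g = a := fun a => hrange a.2
  choose σ hσ using hx
  have huniq : ∀ {a : O2} {g : G}, π₁ g = a → σ a = g := fun {a g} h =>
    hiso.injective ((hσ a).trans h.symm)
  let φ : O2 →⋆ₐ[ℂ] B :=
    { toFun := fun a => (σ a : (H0 →L[ℂ] H0) × B).2
      map_one' := by rw [huniq (g := 1) (by simp)]; rfl
      map_mul' := fun a b => by rw [huniq (g := σ a * σ b) (by simp [hσ])]; rfl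
      map_zero' := by rw [huniq (g := 0) (by simp)]; rfl
      map_add' := fun a b => by rw [huniq (g := σ a + σ b) (by simp [hσ])]; rfl
      commutes' := fun c => by
        rw [huniq (g := algebraMap ℂ G c) (by rw [AlgHomClass.commutes]; rfl)]; rfl
      map_star' := fun a => by rw [huniq (g := star (σ a)) (by simp [hσ, map_star])]; rfl }
  refine ⟨φ, fun i => ?_, fun ψ hψ => ?_⟩
  · change (σ (gen2 i) : (H0 →L[ℂ] H0) × B).2 = t i
    rw [huniq (g := ⟨_, hmap i⟩) rfl]
  · have hd : Dense {a : O2 | (a : H0 →L[ℂ] H0) ∈ StarAlgebra.adjoin ℂ (Set.range S0)} := by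
      refine Subtype.dense_iff.2 fun x hx => ?_
      refine closure_mono ?_ hx
      intro y hy
      exact ⟨⟨y, (StarAlgebra.adjoin ℂ (Set.range S0)).le_topologicalClosure hy⟩, hy, rfl⟩
    have hc : ∀ f : O2 →⋆ₐ[ℂ] B, Continuous f := fun f =>
      AddMonoidHomClass.continuous_of_bound f 1 fun a => by
        rw [one_mul]; exact NonUnitalStarAlgHom.norm_apply_le f a
    refine DFunLike.ext' (Continuous.ext_on hd (hc ψ) (hc φ) ?_)
    rintro ⟨x, hxm⟩ (hx : x ∈ StarAlgebra.adjoin ℂ (Set.range S0))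
    have gens : ∀ i, ψ (gen2 i) = φ (gen2 i) := fun i => by
      rw [hψ i]
      change t i = (σ (gen2 i) : (H0 →L[ℂ] H0) × B).2
      rw [huniq (g := ⟨_, hmap i⟩) rfl]
    suffices ∀ a : O2, (a : H0 →L[ℂ] H0) = x → ψ a = φ a from this ⟨x, hxm⟩ rfl
    clear hxm
    induction hx using StarAlgebra.adjoin_induction with
    | mem z hz =>
      obtain ⟨i, rfl⟩ := hz
      intro a ha
      rw [show a = gen2 i from Subtype.ext ha]; exact gens i
    | algebraMap r =>
      intro a ha
      rw [show a = algebraMap ℂ O2 r from Subtype.ext ha, AlgHomClass.commutes,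
        AlgHomClass.commutes]
    | add u v hu hv iu iv =>
      intro a ha
      let u' : O2 := ⟨u, (StarAlgebra.adjoin ℂ _).le_topologicalClosure hu⟩
      let v' : O2 := ⟨v, (StarAlgebra.adjoin ℂ _).le_topologicalClosure hv⟩
      rw [show a = u' + v' from Subtype.ext ha, map_add, map_add, iu u' rfl, iv v' rfl]
    | mul u v hu hv iu iv =>
      intro a ha
      let u' : O2 := ⟨u, (StarAlgebra.adjoin ℂ _).le_topologicalClosure hu⟩
      let v' : O2 := ⟨v, (StarAlgebra.adjoin ℂ _).le_topologicalClosure hv⟩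
      rw [show a = u' * v' from Subtype.ext ha, map_mul, map_mul, iu u' rfl, iv v' rfl]
    | star u hu iu =>
      intro a ha
      let u' : O2 := ⟨u, (StarAlgebra.adjoin ℂ _).le_topologicalClosure hu⟩
      rw [show a = star u' from Subtype.ext ha, map_star, map_star, iu u' rfl]

theorem O2_universal : IsCuntzAlgebraTwo O2 :=
  ⟨gen2, gen2_pair, fun B _ t ht => gen2_universal B t ht⟩

/-- The norm of a block of `star (wp S0 u)`. -/
lemma block (L : ℕ) (y : H0) : ∑ u ∈ words L, ‖star (wp S0 u) y‖ ^ 2 = ‖y‖ ^ 2 := by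
  have h1 : ∀ u, ⟪y, (wp S0 u * star (wp S0 u)) y⟫_ℂ
      = ((‖star (wp S0 u) y‖ ^ 2 : ℝ) : ℂ) := by
    intro u
    rw [mul_apply0, ← ContinuousLinearMap.adjoint_inner_left, ← ContinuousLinearMap.star_eq_adjoint,
      inner_self_eq_norm_sq_to_K]
    norm_cast
  have h2 : ⟪y, (∑ u ∈ words L, wp S0 u * star (wp S0 u)) y⟫_ℂ
      = ((∑ u ∈ words L, ‖star (wp S0 u) y‖ ^ 2 : ℝ) : ℂ) := by
    rw [ContinuousLinearMap.sum_apply, inner_sum, Complex.ofReal_sum]
    exact Finset.sum_congr rfl fun u _ => h1 u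
  rw [words_resolution S0_pair] at h2
  change ⟪y, y⟫_ℂ = _ at h2
  rw [inner_self_eq_norm_sq_to_K] at h2
  have h3 := congrArg Complex.re h2
  simp [← Complex.ofReal_pow] at h3
  linarith

/-- The boundary error of one monomial. -/
lemma mono_err {D m : ℕ} (μ ν : List (Fin 2)) (hμ : μ.length ≤ D) (hν : ν.length ≤ D) (x : H0) :
    ∑ u ∈ window D m, ‖star (wp S0 u) (mono S0 (μ, ν) x)
        - ∑ v ∈ window D m, coef (mono S0 (μ, ν)) u v • star (wp S0 v) x‖ ^ 2
      ≤ 2 * D * ‖x‖ ^ 2 := by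
  rw [sum_window]
  set good := goodLen D m ν.length μ.length
  have hgood : good ⊆ Finset.Ico D (D + m) := Finset.filter_subset _ _
  have e : ∀ L ∈ Finset.Ico D (D + m), ∑ u ∈ words L, ‖star (wp S0 u) (mono S0 (μ, ν) x)
      - ∑ v ∈ window D m, coef (mono S0 (μ, ν)) u v • star (wp S0 v) x‖ ^ 2
      ≤ if L ∈ good then 0 else ‖x‖ ^ 2 := by
    intro L hL
    have hL' := Finset.mem_Ico.1 hL
    have e1 : ∀ u ∈ words L, star (wp S0 u) (mono S0 (μ, ν) x)
          - ∑ v ∈ window D m, coef (mono S0 (μ, ν)) u v • star (wp S0 v) x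
        = if L ∈ good then 0 else star (wp S0 u) (mono S0 (μ, ν) x) := by
      intro u hu
      have hul := mem_words.1 hu
      have hco : ∀ v ∈ window D m, coef (mono S0 (μ, ν)) u v
          = if μ <+: u ∧ v = ν ++ u.drop μ.length then 1 else 0 := by
        intro v hv
        rw [coef_mono (by have := (mem_window.1 hv).1; omega)]
        refine if_congr ⟨?_, ?_⟩ rfl rfl
        · rintro ⟨⟨γ, rfl⟩, rfl⟩
          simp
        · rintro ⟨⟨γ, rfl⟩, rfl⟩
          simp
      have hwin : μ <+: u → (ν ++ u.drop μ.length ∈ window D m ↔ L ∈ good) := by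
        intro _
        simp [mem_window, good, goodLen, hul]
        omega
      rw [Finset.sum_congr rfl fun v hv => by rw [hco v hv]]
      simp only [ite_smul, one_smul, zero_smul, ite_and]
      by_cases hp : μ <+: u
      · simp only [hp, if_true, Finset.sum_ite_eq', hwin hp]
        split_ifs
        · obtain ⟨γ, rfl⟩ := hp
          rw [List.drop_left, sub_eq_zero]
          simp only [mono, wp_append, star_mul, mul_apply0]
          rw [← mul_apply0 (star (wp S0 μ)) (wp S0 μ), wp_isometry S0_pair]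
          rfl
        · rw [sub_zero]
      · simp only [hp, if_false, Finset.sum_const_zero, sub_zero]
        split_ifs
        · have hlen : μ.length ≤ u.length := by omega
          conv_lhs => rw [show u = u.take μ.length ++ u.drop μ.length from
            (List.take_append_drop _ _).symm]
          simp only [mono, wp_append, star_mul, mul_apply0]
          rw [← mul_apply0 (star (wp S0 (u.take μ.length))) (wp S0 μ)]
          have hne : u.take μ.length ≠ μ := fun e => hp ⟨u.drop μ.length, by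
            conv_lhs => arg 1; rw [← e]
            exact List.take_append_drop _ _⟩
          rw [wp_ortho S0_pair (by simp [Nat.min_eq_left hlen]) hne]
          simp
        · rfl
    rw [Finset.sum_congr rfl fun u hu => by rw [e1 u hu]]
    split_ifs
    · simp
    · rw [block]
      refine pow_le_pow_left₀ (norm_nonneg _) ?_ 2
      simpa using (mono S0 (μ, ν)).le_of_opNorm_le (norm_mono_le S0_pair _) x
  refine (Finset.sum_le_sum e).trans ?_
  rw [← Finset.sum_filter_add_sum_filter_not (Finset.Ico D (D + m)) (fun L => L ∈ good)]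
  rw [Finset.sum_ite_of_true (by simp), Finset.sum_ite_of_false (by simp)]
  simp only [Finset.sum_const_zero, zero_add, Finset.sum_const, nsmul_eq_mul]
  refine mul_le_mul_of_nonneg_right ?_ (sq_nonneg _)
  have hcard : ((Finset.Ico D (D + m)).filter fun L => ¬ L ∈ good).card ≤ 2 * D := by
    rw [Finset.filter_not, Finset.filter_mem_eq_inter, Finset.inter_eq_right.2 hgood,
      Finset.card_sdiff_of_subset hgood, Nat.card_Ico]
    obtain ⟨g1, -⟩ := card_goodLen (m := m) hν hμ
    simp only [good]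
    omega
  exact_mod_cast hcard

/-- The boundary error of a combination. -/
lemma comb_err {D m : ℕ} (s : Finset (List (Fin 2) × List (Fin 2)))
    (a : List (Fin 2) × List (Fin 2) → ℂ)
    (g : List (Fin 2) × List (Fin 2) → List (Fin 2) × List (Fin 2))
    (hg : ∀ q ∈ s, (g q).1.length ≤ D ∧ (g q).2.length ≤ D) (x : H0) :
    ∑ u ∈ window D m, ‖star (wp S0 u) ((∑ q ∈ s, a q • mono S0 (g q)) x)
        - ∑ v ∈ window D m, coef (∑ q ∈ s, a q • mono S0 (g q)) u v • star (wp S0 v) x‖ ^ 2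
      ≤ (∑ q ∈ s, ‖a q‖) ^ 2 * (2 * D * ‖x‖ ^ 2) := by
  set r := fun q u => star (wp S0 u) (mono S0 (g q) x)
      - ∑ v ∈ window D m, coef (mono S0 (g q)) u v • star (wp S0 v) x
  have e : ∀ u, star (wp S0 u) ((∑ q ∈ s, a q • mono S0 (g q)) x)
        - ∑ v ∈ window D m, coef (∑ q ∈ s, a q • mono S0 (g q)) u v • star (wp S0 v) x
      = ∑ q ∈ s, a q • r q u := by
    intro u
    simp only [r, coef, ContinuousLinearMap.sum_apply, ContinuousLinearMap.smul_apply, map_sum,
      map_smul, inner_sum, inner_smul_right, Finset.sum_smul, mul_smul, smul_sub,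
      Finset.smul_sum, Finset.sum_sub_distrib]
    rw [Finset.sum_comm (s := window D m)]
  calc _ ≤ ∑ u ∈ window D m, (∑ q ∈ s, ‖a q‖) * ∑ q ∈ s, ‖a q‖ * ‖r q u‖ ^ 2 := by
        refine Finset.sum_le_sum fun u _ => ?_
        rw [e]
        refine (pow_le_pow_left₀ (norm_nonneg _) (norm_sum_le _ _) 2).trans ?_
        simp only [norm_smul]
        exact Finset.sum_sq_le_sum_mul_sum_of_sq_le_mul s (fun q _ => norm_nonneg _)
          (fun q _ => mul_nonneg (norm_nonneg _) (sq_nonneg _)) fun q _ => le_of_eq (by ring)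
    _ ≤ (∑ q ∈ s, ‖a q‖) * ∑ q ∈ s, ‖a q‖ * (2 * D * ‖x‖ ^ 2) := by
        rw [← Finset.mul_sum, Finset.sum_comm]
        refine mul_le_mul_of_nonneg_left (Finset.sum_le_sum fun q hq => ?_)
          (Finset.sum_nonneg fun q _ => norm_nonneg _)
        rw [← Finset.mul_sum]
        exact mul_le_mul_of_nonneg_left (mono_err _ _ (hg q hq).1 (hg q hq).2 x) (norm_nonneg _)
    _ = _ := by rw [← Finset.sum_mul]; ring

/-- Perturbation of the approximation. -/
lemma approx_perturb {D m : ℕ} {ε cst : ℝ} (hε : 0 < ε) (hm : 2 * D * (4 * cst / ε) ^ 2 < m)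
    (hm0 : 0 < m) {c : ℂ} (hc2 : ‖c‖ ^ 2 = 1 / m) (R T : H0 →L[ℂ] H0) (A : ℝ) (hA : A ≤ cst)
    (hA0 : 0 ≤ A) (hRT : ‖R - T‖ ≤ ε / 4) (x : H0)
    (hT : ∑ u ∈ window D m, ‖star (wp S0 u) (T x)
        - ∑ v ∈ window D m, coef T u v • star (wp S0 v) x‖ ^ 2 ≤ A ^ 2 * (2 * D * ‖x‖ ^ 2)) :
    ∑ u ∈ window D m, ‖c • star (wp S0 u) (R x)
        - ∑ v ∈ window D m, coef T u v • c • star (wp S0 v) x‖ ^ 2 ≤ (ε * ‖x‖) ^ 2 := by
  have hm' : (0 : ℝ) < m := by exact_mod_cast hm0
  have hu : ∀ u, ‖c • star (wp S0 u) (R x)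
        - ∑ v ∈ window D m, coef T u v • c • star (wp S0 v) x‖ ^ 2
      ≤ 1 / m * (2 * ‖star (wp S0 u) ((R - T) x)‖ ^ 2 + 2 * ‖star (wp S0 u) (T x)
        - ∑ v ∈ window D m, coef T u v • star (wp S0 v) x‖ ^ 2) := by
    intro u
    simp only [smul_comm _ c, ← Finset.smul_sum, ← smul_sub, norm_smul, mul_pow, hc2]
    refine mul_le_mul_of_nonneg_left ?_ (by positivity)
    have e : star (wp S0 u) (R x) - ∑ v ∈ window D m, coef T u v • star (wp S0 v) x
        = star (wp S0 u) ((R - T) x) + (star (wp S0 u) (T x)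
          - ∑ v ∈ window D m, coef T u v • star (wp S0 v) x) := by
      rw [_root_.sub_apply, map_sub]; abel
    rw [e]
    refine (pow_le_pow_left₀ (norm_nonneg _) (norm_add_le _ _) 2).trans ?_
    linarith [two_mul_le_add_sq ‖star (wp S0 u) ((R - T) x)‖ ‖star (wp S0 u) (T x)
          - ∑ v ∈ window D m, coef T u v • star (wp S0 v) x‖]
  refine (Finset.sum_le_sum fun u _ => hu u).trans ?_
  rw [← Finset.mul_sum, Finset.sum_add_distrib, ← Finset.mul_sum, ← Finset.mul_sum]
  have e2 : ∑ u ∈ window D m, ‖star (wp S0 u) ((R - T) x)‖ ^ 2 = m * ‖(R - T) x‖ ^ 2 := by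
    rw [sum_window]
    simp only [block, Finset.sum_const, Nat.card_Ico, nsmul_eq_mul]
    rw [show D + m - D = m by omega]
  rw [e2, div_mul_eq_mul_div, one_mul, div_le_iff₀ hm']
  have h1 : ‖(R - T) x‖ ^ 2 ≤ (ε / 4 * ‖x‖) ^ 2 :=
    pow_le_pow_left₀ (norm_nonneg _) ((R - T).le_of_opNorm_le hRT x) 2
  have h2 : A ^ 2 * (2 * D) ≤ m * (ε / 4) ^ 2 := by
    have : cst ^ 2 * (2 * D) ≤ m * (ε / 4) ^ 2 := by
      rw [div_pow] at hm
      rw [mul_div_assoc', div_lt_iff₀ (by positivity)] at hm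
      nlinarith
    exact le_trans (mul_le_mul_of_nonneg_right (pow_le_pow_left₀ hA0 hA 2) (by positivity)) this
  have h3 := mul_le_mul_of_nonneg_left h1 hm'.le
  have h4 := mul_le_mul_of_nonneg_right h2 (sq_nonneg ‖x‖)
  have : 0 ≤ (m : ℝ) * (ε * ‖x‖) ^ 2 := by positivity
  nlinarith

/-- The compression of a finite family of operators to matrices. -/
theorem finite_approximation {ι : Type} [Fintype ι] (U : ι → H0 →L[ℂ] H0)
    (hU : ∀ i, U i ∈ O2sub) {ε : ℝ} (hε : 0 < ε) :
    ∃ (k : ℕ) (c : ℂ) (e : Fin k → List (Fin 2)) (K : ι → Matrix (Fin k) (Fin k) ℂ),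
      (∀ x : H0, ∑ a, ‖c • star (wp S0 (e a)) x‖ ^ 2 = ‖x‖ ^ 2) ∧
      ∀ i (x : H0),
        ∑ a, ‖c • star (wp S0 (e a)) (U i x) - ∑ b, K i a b • c • star (wp S0 (e b)) x‖ ^ 2
          ≤ (ε * ‖x‖) ^ 2 ∧
        ∑ a, ‖c • star (wp S0 (e a)) (star (U i) x)
            - ∑ b, star (K i b a) • c • star (wp S0 (e b)) x‖ ^ 2 ≤ (ε * ‖x‖) ^ 2 := by
  have happ : ∀ i, ∃ p, ‖U i - evalC S0 p‖ ≤ ε / 4 := by
    intro i
    have : U i ∈ closure (StarAlgebra.adjoin ℂ (Set.range S0) : Set (H0 →L[ℂ] H0)) := hU i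
    obtain ⟨T, hT, hd⟩ := Metric.mem_closure_iff.1 this (ε / 4) (by linarith)
    obtain ⟨p, rfl⟩ := adjoin_eq_evalC S0_pair hT
    exact ⟨p, (dist_eq_norm _ _).symm.le.trans hd.le⟩
  choose p hp using happ
  set D := univ.sup fun i => degree (p i)
  set cst := ∑ i, ∑ q ∈ (p i).support, ‖p i q‖
  obtain ⟨m, hm⟩ := exists_nat_gt (2 * D * (4 * cst / ε) ^ 2)
  have hm0 : 0 < m := by
    by_contra h
    push Not at h
    interval_cases m
    have : 0 ≤ 2 * (D : ℝ) * (4 * cst / ε) ^ 2 := by positivity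
    simp at hm
    linarith
  set c : ℂ := ((1 / Real.sqrt m : ℝ) : ℂ) with hc
  have hc2 : ‖c‖ ^ 2 = 1 / m := by
    rw [hc, Complex.norm_real, Real.norm_eq_abs, sq_abs, div_pow, one_pow,
      Real.sq_sqrt (Nat.cast_nonneg m)]
  let eq := (window D m).equivFin
  refine ⟨(window D m).card, c, fun a => (eq.symm a).1,
    fun i a b => coef (evalC S0 (p i)) (eq.symm a).1 (eq.symm b).1, ?_, ?_⟩
  all_goals
    have reindex : ∀ (M : Type) [AddCommMonoid M] (f : List (Fin 2) → M),
        ∑ a : Fin (window D m).card, f (eq.symm a).1 = ∑ u ∈ window D m, f u := by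
      intro M _ f
      rw [← Finset.sum_coe_sort (window D m)]
      exact Equiv.sum_comp eq.symm (fun u => f u.1)
  · intro x
    rw [reindex _ (fun u => ‖c • star (wp S0 u) x‖ ^ 2), sum_window]
    simp only [norm_smul, mul_pow, ← Finset.mul_sum, block, Finset.sum_const, Nat.card_Ico,
      nsmul_eq_mul, hc2]
    rw [show D + m - D = m by omega]
    field_simp
  · intro i x
    have hdeg : ∀ q ∈ (p i).support, q.1.length ≤ D ∧ q.2.length ≤ D := fun q hq => by
      have hD : degree (p i) ≤ D := Finset.le_sup (f := fun i => degree (p i)) (mem_univ i)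
      exact ⟨(le_degree hq).1.trans hD, (le_degree hq).2.trans hD⟩
    have hA : ∑ q ∈ (p i).support, ‖p i q‖ ≤ cst :=
      Finset.single_le_sum (f := fun i => ∑ q ∈ (p i).support, ‖p i q‖)
        (fun j _ => Finset.sum_nonneg fun q _ => norm_nonneg _) (mem_univ i)
    have hev : evalC S0 (p i) = ∑ q ∈ (p i).support, p i q • mono S0 q := by
      rw [evalC, Finsupp.linearCombination_apply, Finsupp.sum]
    have hevs : star (evalC S0 (p i))
        = ∑ q ∈ (p i).support, star (p i q) • mono S0 (q.2, q.1) := by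
      rw [hev, star_sum]
      exact Finset.sum_congr rfl fun q _ => by simp [star_smul, mono, star_mul]
    constructor
    · have h := approx_perturb hε hm hm0 hc2 (U i) (evalC S0 (p i)) _ hA (Finset.sum_nonneg fun q _ => norm_nonneg _) (hp i) x
        (by rw [hev]; exact comb_err _ _ (fun q => q) hdeg x)
      refine le_trans (le_of_eq ?_) h
      rw [← reindex ℝ (fun u => ‖c • star (wp S0 u) (U i x)
        - ∑ v ∈ window D m, coef (evalC S0 (p i)) u v • c • star (wp S0 v) x‖ ^ 2)]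
      refine Finset.sum_congr rfl fun a _ => ?_
      rw [reindex _ (fun v => coef (evalC S0 (p i)) (eq.symm a).1 v • c • star (wp S0 v) x)]
    · have h := approx_perturb hε hm hm0 hc2 (star (U i)) (star (evalC S0 (p i))) (∑ q ∈ (p i).support, ‖star (p i q)‖)
        (by simpa using hA) (Finset.sum_nonneg fun q _ => norm_nonneg _)
        (by rw [← star_sub, norm_star]; exact hp i) x
        (by rw [hevs]; exact comb_err _ _ (fun q => (q.2, q.1)) (fun q hq => (hdeg q hq).symm) x)
      refine le_trans (le_of_eq ?_) h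
      rw [← reindex ℝ (fun u => ‖c • star (wp S0 u) (star (U i) x)
        - ∑ v ∈ window D m, coef (star (evalC S0 (p i))) u v • c • star (wp S0 v) x‖ ^ 2)]
      refine Finset.sum_congr rfl fun a _ => ?_
      rw [← reindex _ (fun v => coef (star (evalC S0 (p i))) (eq.symm a).1 v • c • star (wp S0 v) x)]
      congr 3
      refine Finset.sum_congr rfl fun b _ => ?_
      congr 1
      simp only [coef, Complex.star_def, inner_conj_symm]
      rw [ContinuousLinearMap.star_eq_adjoint, ContinuousLinearMap.adjoint_inner_right]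

end Vale.Agent.P083
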