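import Mathlib

/-!
The universal Cuntz algebra and unital embeddings into norm ultrapowers.
-/

namespace Vale.Agent.P083

open Filter
open scoped Topology

/-- Two isometries with orthogonal ranges summing to one. -/
def IsCuntzPair {B : Type} [CStarAlgebra B] (t : Fin 2 → B) : Prop :=
  (∀ i, star (t i) * t i = 1) ∧ t 0 * star (t 0) + t 1 * star (t 1) = 1

/-- `O` is the universal unital C*-algebra generated by two isometries `s 0`, `s 1` with
`s 0 * star (s 0) + s 1 * star (s 1) = 1`. -/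
def IsCuntzAlgebraTwo (O : Type) [CStarAlgebra O] : Prop :=
  ∃ s : Fin 2 → O, IsCuntzPair s ∧
    ∀ (B : Type) [CStarAlgebra B] (t : Fin 2 → B), IsCuntzPair t →
      ∃! φ : O →⋆ₐ[ℂ] B, ∀ i, φ (s i) = t i

/-- There is a unital injective `*`-homomorphism from `A` into the norm ultrapower
`ℓ^∞(ℕ, B) / {b : ‖b n‖ → 0 along ω}`, written out on representatives: every `φ a` is a bounded
sequence, all algebraic operations are respected modulo sequences whose norm tends to `0` along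
`ω`, and only `0` is represented by such a sequence. -/
def HasUnitalEmbeddingInUltrapower (A B : Type) [CStarAlgebra A] [CStarAlgebra B]
    (ω : Filter ℕ) : Prop :=
  ∃ φ : A → ℕ → B,
    (∀ a, ∃ C : ℝ, ∀ n, ‖φ a n‖ ≤ C) ∧
    (∀ a b, Tendsto (fun n => ‖φ (a + b) n - (φ a n + φ b n)‖) ω (𝓝 0)) ∧
    (∀ (c : ℂ) a, Tendsto (fun n => ‖φ (c • a) n - c • φ a n‖) ω (𝓝 0)) ∧
    (∀ a b, Tendsto (fun n => ‖φ (a * b) n - φ a n * φ b n‖) ω (𝓝 0)) ∧
    (∀ a, Tendsto (fun n => ‖φ (star a) n - star (φ a n)‖) ω (𝓝 0)) ∧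
    Tendsto (fun n => ‖φ 1 n - 1‖) ω (𝓝 0) ∧
    ∀ a, Tendsto (fun n => ‖φ a n‖) ω (𝓝 0) → a = 0

end Vale.Agent.P083
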