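import Vale.Agent.P083.Induction

/-!
No `k`-dimensional operators can almost fix a symmetric tensor of high order.
-/

namespace Vale.Agent.P083

open Finset Matrix
open scoped InnerProductSpace ComplexOrder

/-- Squared Frobenius norm. -/
noncomputable def fsq {a b : Type*} [Fintype a] [Fintype b] (M : Matrix a b ℂ) : ℝ :=
  ∑ j, ∑ i, ‖M i j‖ ^ 2

section fsq

variable {a b : Type*} [Fintype a] [Fintype b]

lemma fsq_nonneg (M : Matrix a b ℂ) : 0 ≤ fsq M :=
  Finset.sum_nonneg fun _ _ => Finset.sum_nonneg fun _ _ => sq_nonneg _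

lemma fsq_eq_trace (M : Matrix a b ℂ) : fsq M = (Mᴴ * M).trace.re := by
  simp only [fsq, Matrix.trace, Matrix.diag, Matrix.mul_apply, Matrix.conjTranspose_apply,
    Complex.re_sum]
  refine Finset.sum_congr rfl fun j _ => Finset.sum_congr rfl fun i _ => ?_
  rw [Complex.star_def, Complex.conj_mul', ← Complex.ofReal_pow, Complex.ofReal_re]

lemma fsq_mul_unitary [DecidableEq b] (M : Matrix a b ℂ) {U : Matrix b b ℂ} (hU : U * Uᴴ = 1) :
    fsq (M * U) = fsq M := by
  rw [fsq_eq_trace, fsq_eq_trace, Matrix.conjTranspose_mul, Matrix.mul_assoc, Matrix.trace_mul_comm,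
    ← Matrix.mul_assoc Mᴴ, Matrix.mul_assoc (Mᴴ * M), hU, Matrix.mul_one]

lemma fsq_unitary_mul [DecidableEq a] (M : Matrix a b ℂ) {U : Matrix a a ℂ} (hU : Uᴴ * U = 1) :
    fsq (U * M) = fsq M := by
  rw [fsq_eq_trace, fsq_eq_trace, Matrix.conjTranspose_mul, Matrix.mul_assoc,
    ← Matrix.mul_assoc Uᴴ, hU, Matrix.one_mul]

lemma fsq_sub_comm (M N : Matrix a b ℂ) : fsq (M - N) = fsq (N - M) := by
  simp [fsq, norm_sub_rev]

lemma sum_col_inner (M N : Matrix a b ℂ) :
    ∑ j, ‖∑ i, star (M i j) * N i j‖ ≤ Real.sqrt (fsq M) * Real.sqrt (fsq N) := by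
  have h : ∀ j, ‖∑ i, star (M i j) * N i j‖
      ≤ Real.sqrt (∑ i, ‖M i j‖ ^ 2) * Real.sqrt (∑ i, ‖N i j‖ ^ 2) := by
    intro j
    refine (norm_sum_le _ _).trans ?_
    simp only [norm_mul, norm_star]
    exact Real.sum_mul_le_sqrt_mul_sqrt _ _ _
  refine (Finset.sum_le_sum fun j _ => h j).trans ?_
  refine (Real.sum_mul_le_sqrt_mul_sqrt _ _ _).trans (le_of_eq ?_)
  simp only [fsq]
  congr 1 <;> congr 1 <;>
    exact Finset.sum_congr rfl fun j _ => Real.sq_sqrt (Finset.sum_nonneg fun i _ => sq_nonneg _)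

end fsq

/-- The Powers–Størmer estimate in the form used here. -/
lemma powers_stormer {a b : Type*} [Fintype a] [Fintype b] [DecidableEq b]
    {S T : Matrix b b ℂ} (hS : S.PosSemidef) (hT : T.PosSemidef)
    (M Z N L : Matrix a b ℂ) (hT2 : T * T = Mᴴ * M) (hS2 : S * S = Zᴴ * Z)
    (hMZ : ∀ V : Matrix b b ℂ, ∀ j, ((Z * V)ᴴ * (Z * V)) j j - ((M * V)ᴴ * (M * V)) j j
      = ((Z * V)ᴴ * (N * V)) j j + ((L * V)ᴴ * (M * V)) j j) :
    fsq (S - T)
      ≤ Real.sqrt (fsq Z) * Real.sqrt (fsq N) + Real.sqrt (fsq L) * Real.sqrt (fsq M) := by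
  set D := S - T
  have hD : D.IsHermitian := hS.1.sub hT.1
  set V : Matrix b b ℂ := hD.eigenvectorUnitary.1 with hV
  set d := hD.eigenvalues
  have v1 : Vᴴ * V = 1 := Matrix.UnitaryGroup.star_mul_self _
  have v2 : V * Vᴴ = 1 := mul_eq_one_comm.1 v1
  have hdiag : Vᴴ * D * V = Matrix.diagonal (fun i => (d i : ℂ)) := by
    have := hD.conjStarAlgAut_star_eigenvectorUnitary
    rw [Unitary.conjStarAlgAut_apply] at this
    simpa [Matrix.star_eq_conjTranspose, Function.comp_def, V, d] using this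
  set S' := Vᴴ * S * V
  set T' := Vᴴ * T * V
  have hS' : S'.PosSemidef := hS.conjTranspose_mul_mul_same V
  have hT' : T'.PosSemidef := hT.conjTranspose_mul_mul_same V
  have hsub : S' - T' = Matrix.diagonal (fun i => (d i : ℂ)) := by
    rw [← hdiag]; simp only [S', T', D, Matrix.mul_sub, Matrix.sub_mul]
  have hsq : ∀ (A : Matrix b b ℂ), (Vᴴ * A * V) * (Vᴴ * A * V) = Vᴴ * (A * A) * V := by
    intro A
    simp only [Matrix.mul_assoc]
    rw [← Matrix.mul_assoc V, v2, Matrix.one_mul]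
  have key : ∀ j, d j ^ 2 ≤ ‖(Vᴴ * (S * S) * V) j j - (Vᴴ * (T * T) * V) j j‖ := by
    intro j
    have e : (Vᴴ * (S * S) * V) j j - (Vᴴ * (T * T) * V) j j
        = (d j : ℂ) * (S' j j + T' j j) := by
      rw [← hsq, ← hsq, ← Matrix.sub_apply]
      have : S' * S' - T' * T'
          = Matrix.diagonal (fun i => (d i : ℂ)) * S' + T' * Matrix.diagonal (fun i => (d i : ℂ)) := by
        rw [← hsub]; noncomm_ring
      rw [this, Matrix.add_apply, Matrix.diagonal_mul, Matrix.mul_diagonal]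
      ring
    have hd : (d j : ℂ) = S' j j - T' j j := by
      have := congrArg (fun A : Matrix b b ℂ => A j j) hsub
      simpa using this.symm
    obtain ⟨sr, si⟩ := Complex.le_def.1 (hS'.diag_nonneg (i := j))
    obtain ⟨tr, ti⟩ := Complex.le_def.1 (hT'.diag_nonneg (i := j))
    have hd' := congrArg Complex.re hd
    simp at sr si tr ti hd'
    rw [e]
    refine le_trans ?_ (Complex.abs_re_le_norm _)
    simp only [Complex.re_ofReal_mul, Complex.add_re, abs_mul]
    rw [← sq_abs, pow_two]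
    refine mul_le_mul_of_nonneg_left ?_ (abs_nonneg _)
    rw [abs_of_nonneg (by linarith : 0 ≤ (S' j j).re + (T' j j).re), abs_le]
    constructor <;> linarith
  have hl : fsq D = ∑ j, d j ^ 2 := by
    have h1 : fsq (Vᴴ * D * V) = fsq D := by
      rw [fsq_mul_unitary _ v2, fsq_unitary_mul]
      rw [Matrix.conjTranspose_conjTranspose]; exact v2
    rw [← h1, hdiag, fsq]
    refine Finset.sum_congr rfl fun j _ => ?_
    rw [Finset.sum_eq_single j]
    · simp
    · intro i _ hi; simp [hi]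
    · simp
  rw [hl]
  refine (Finset.sum_le_sum fun j _ => key j).trans ?_
  rw [← fsq_mul_unitary Z v2, ← fsq_mul_unitary N v2, ← fsq_mul_unitary L v2,
    ← fsq_mul_unitary M v2]
  refine le_trans ?_ (add_le_add (sum_col_inner (Z * V) (N * V)) (sum_col_inner (L * V) (M * V)))
  rw [← Finset.sum_add_distrib]
  refine Finset.sum_le_sum fun j _ => ?_
  have e2 := hMZ V j
  simp only [Matrix.conjTranspose_mul, Matrix.mul_assoc] at e2
  rw [hS2, hT2]
  simp only [Matrix.mul_assoc]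
  rw [e2]
  refine (norm_add_le _ _).trans (le_of_eq ?_)
  simp only [← Matrix.conjTranspose_apply, ← Matrix.mul_apply, Matrix.conjTranspose_mul,
    Matrix.mul_assoc]

lemma symProj_diag_sum {n : ℕ} : (n + 1 : ℝ) ≤ ((symProj n).trace).re := by
  set wds : Fin (n + 1) → Wd n := fun j i => if i.val < j.val then 1 else 0
  have hdisj : ∀ j₁ j₂ : Fin (n + 1), ∀ p : Equiv.Perm (Fin n), wds j₁ = wds j₂ ∘ p → j₁ = j₂ := by
    intro j₁ j₂ p h
    have hc : ∀ j : Fin (n + 1), ∑ i, ((wds j i : Fin 3) : ℕ) = j.val := by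
      intro j
      have : ∀ i : Fin n, ((wds j i : Fin 3) : ℕ) = if i.val < j.val then 1 else 0 := fun i => by
        simp only [wds]; split_ifs <;> rfl
      simp only [this, Finset.sum_boole]
      have hcard : (univ.filter fun i : Fin n => i.val < j.val).card = j.val := by
        rw [Fin.card_filter_val_lt]; omega
      simpa using hcard
    apply Fin.ext
    rw [← hc j₁, ← hc j₂, h]
    exact Equiv.sum_comp p (fun i => ((wds j₂ i : Fin 3) : ℕ))
  let orb : Fin (n + 1) → Finset (Wd n) := fun j =>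
    univ.image fun p : Equiv.Perm (Fin n) => wds j ∘ p
  have nonneg : ∀ v w, 0 ≤ (symProj n v w).re := by
    intro v w
    simp only [symProj, Matrix.smul_apply, Matrix.sum_apply, smul_eq_mul, permMat]
    rw [show ((n.factorial : ℂ))⁻¹ = (((n.factorial : ℝ)⁻¹ : ℝ) : ℂ) by norm_num,
      Complex.re_ofReal_mul, Complex.re_sum]
    exact mul_nonneg (by positivity) (Finset.sum_nonneg fun p _ => by split_ifs <;> norm_num)
  have horb : ∀ j, 1 ≤ ∑ v ∈ orb j, (symProj n v v).re := by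
    intro j
    have e1 : ∀ v ∈ orb j, symProj n v v = symProj n (wds j) v := by
      intro v hv
      obtain ⟨p, -, rfl⟩ := Finset.mem_image.1 hv
      have := congrArg (fun A : Matrix (Wd n) (Wd n) ℂ => A (wds j) (wds j ∘ p))
        (permMat_symProj (n := n) p)
      rw [Matrix.mul_apply, Finset.sum_eq_single (wds j ∘ p)] at this
      · simpa [permMat] using this
      · intro u _ hu; simp [permMat, hu]
      · simp
    have e2 : ∑ v ∈ orb j, symProj n (wds j) v = 1 := by
      simp only [symProj, Matrix.smul_apply, Matrix.sum_apply, smul_eq_mul, ← Finset.mul_sum]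
      rw [Finset.sum_comm]
      have : ∀ p : Equiv.Perm (Fin n), ∑ v ∈ orb j, permMat ℂ p (wds j) v = 1 := by
        intro p
        rw [Finset.sum_eq_single (wds j ∘ p)]
        · simp [permMat]
        · intro u _ hu; simp [permMat, hu]
        · intro h; exact absurd (Finset.mem_image.2 ⟨p, mem_univ _, rfl⟩) h
      simp only [this, Finset.sum_const, card_univ, Fintype.card_perm, Fintype.card_fin,
        nsmul_eq_mul, mul_one]
      exact inv_mul_cancel₀ (Nat.cast_ne_zero.2 n.factorial_ne_zero)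
    rw [← Complex.re_sum, Finset.sum_congr rfl e1, e2, Complex.one_re]
  have hd : ((univ : Finset (Fin (n + 1))) : Set (Fin (n + 1))).PairwiseDisjoint orb := by
    intro j₁ _ j₂ _ hne
    rw [Function.onFun, Finset.disjoint_left]
    intro v h1 h2
    obtain ⟨p, -, rfl⟩ := Finset.mem_image.1 h1
    obtain ⟨q, -, hq⟩ := Finset.mem_image.1 h2
    apply hne
    refine hdisj j₁ j₂ (q * p⁻¹) ?_
    funext i
    have := congrFun hq (p⁻¹ i)
    simp at this
    simp [this]
  calc (n + 1 : ℝ) = ∑ _j : Fin (n + 1), (1 : ℝ) := by simp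
    _ ≤ ∑ j, ∑ v ∈ orb j, (symProj n v v).re := Finset.sum_le_sum fun j _ => horb j
    _ = ∑ v ∈ univ.biUnion orb, (symProj n v v).re := (Finset.sum_biUnion hd).symm
    _ ≤ ∑ v, (symProj n v v).re :=
        Finset.sum_le_sum_of_subset_of_nonneg (subset_univ _) fun v _ _ => nonneg v v
    _ = ((symProj n).trace).re := by simp [Matrix.trace, Complex.re_sum]

/-- The positive square root of `Mᴴ M`, with a bound on its trace. -/
lemma exists_abs {k : ℕ} {b : Type*} [Fintype b] [DecidableEq b] (M : Matrix (Fin k) b ℂ) :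
    ∃ T : Matrix b b ℂ, T.PosSemidef ∧ T * T = Mᴴ * M ∧
      T.trace.re ≤ Real.sqrt k * Real.sqrt (fsq M) ∧ ∀ Q : Matrix b b ℂ, M * Q = M → T * Q = T := by
  have hG : (Mᴴ * M).PosSemidef := Matrix.posSemidef_conjTranspose_mul_self M
  set V : Matrix b b ℂ := hG.1.eigenvectorUnitary.1 with hV
  set l := hG.1.eigenvalues with hl
  have v1 : Vᴴ * V = 1 := Matrix.UnitaryGroup.star_mul_self _
  have v2 : V * Vᴴ = 1 := mul_eq_one_comm.1 v1
  have hl0 : ∀ i, 0 ≤ l i := hG.eigenvalues_nonneg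
  have hspec : Mᴴ * M = V * Matrix.diagonal (fun i => (l i : ℂ)) * Vᴴ := by
    have := hG.1.spectral_theorem
    rw [Unitary.conjStarAlgAut_apply] at this
    simpa [Matrix.star_eq_conjTranspose, Function.comp_def, V, l] using this
  set T := V * Matrix.diagonal (fun i => ((Real.sqrt (l i) : ℝ) : ℂ)) * Vᴴ with hT
  have hTT : T * T = Mᴴ * M := by
    rw [hspec, hT]
    simp only [Matrix.mul_assoc]
    rw [← Matrix.mul_assoc Vᴴ, v1, Matrix.one_mul, ← Matrix.mul_assoc (Matrix.diagonal _),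
      Matrix.diagonal_mul_diagonal]
    congr; funext i
    rw [← Complex.ofReal_mul, Real.mul_self_sqrt (hl0 i)]
  have hTp : T.PosSemidef := by
    refine Matrix.PosSemidef.mul_mul_conjTranspose_same (Matrix.PosSemidef.diagonal ?_) V
    intro i; exact Complex.zero_le_real.2 (Real.sqrt_nonneg _)
  refine ⟨T, hTp, hTT, ?_, ?_⟩
  · have ht : T.trace.re = ∑ i, Real.sqrt (l i) := by
      rw [hT, Matrix.trace_mul_comm, ← Matrix.mul_assoc, v1, Matrix.one_mul, Matrix.trace_diagonal,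
        Complex.re_sum]
      rfl
    have hf : fsq M = ∑ i, l i := by
      rw [fsq_eq_trace, hG.1.trace_eq_sum_eigenvalues, Complex.re_sum]
      rfl
    set s := univ.filter fun i => l i ≠ 0 with hs
    have hcard : s.card ≤ k := by
      have h1 := hG.1.rank_eq_card_non_zero_eigs
      have h2 : (Mᴴ * M).rank ≤ k := by
        refine (Matrix.rank_mul_le_right _ _).trans ?_
        simpa using M.rank_le_card_height
      rw [h1, Fintype.card_subtype] at h2
      exact h2
    rw [ht, hf]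
    calc ∑ i, Real.sqrt (l i) = ∑ i ∈ s, 1 * Real.sqrt (l i) := by
          simp only [one_mul]
          refine (Finset.sum_subset (subset_univ s) fun i _ hi => ?_).symm
          simp [hs] at hi; simp [hi]
      _ ≤ Real.sqrt (∑ i ∈ s, (1 : ℝ) ^ 2) * Real.sqrt (∑ i ∈ s, Real.sqrt (l i) ^ 2) :=
          Real.sum_mul_le_sqrt_mul_sqrt _ _ _
      _ ≤ Real.sqrt k * Real.sqrt (∑ i, l i) := by
          gcongr
          · simpa using (by exact_mod_cast hcard : (s.card : ℝ) ≤ k)
          · simp only [Real.sq_sqrt (hl0 _)]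
            exact Finset.sum_le_sum_of_subset_of_nonneg (subset_univ _) fun i _ _ => hl0 i
  · intro Q hQ
    rw [← sub_eq_zero, show T * Q - T = T * (Q - 1) by rw [Matrix.mul_sub, Matrix.mul_one]]
    refine Matrix.conjTranspose_mul_self_eq_zero.1 ?_
    rw [Matrix.conjTranspose_mul, hTp.1.eq, Matrix.mul_assoc, ← Matrix.mul_assoc T, hTT]
    simp [Matrix.mul_assoc, Matrix.mul_sub, hQ]

/-- A function on words with values in `ℂ^a`, as a matrix. -/
noncomputable def toMat {a n : ℕ} (Y : TW (EuclideanSpace ℂ (Fin a)) n) :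
    Matrix (Fin a) (Wd n) ℂ := fun i w => Y w i

lemma fsq_toMat {a n : ℕ} (Y : TW (EuclideanSpace ℂ (Fin a)) n) : fsq (toMat Y) = ‖Y‖ ^ 2 := by
  simp [fsq, toMat, PiLp.norm_sq_eq_of_L2, EuclideanSpace.norm_sq_eq]

lemma cpow_apply {n : ℕ} (M : Matrix (Fin 3) (Fin 3) ℂ) (w v : Wd n) :
    cpow n M w v = (pow' n M)ᴴ v w := by
  simp [cpow, pow', ten_apply, Matrix.conjTranspose_apply]

lemma toMat_act {a n : ℕ} (K : Matrix (Fin a) (Fin a) ℂ) (M : Matrix (Fin 3) (Fin 3) ℂ)
    (Y : TW (EuclideanSpace ℂ (Fin a)) n) :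
    toMat (act n (Matrix.toEuclideanCLM (𝕜 := ℂ) K) M Y) = K * toMat Y * (pow' n M)ᴴ := by
  ext i w
  simp only [toMat, act_apply, Matrix.ofLp_toEuclideanCLM, Matrix.mul_apply, Matrix.mulVec,
    dotProduct]
  simp only [WithLp.ofLp_sum, WithLp.ofLp_smul, Finset.sum_apply, Pi.smul_apply, smul_eq_mul,
    cpow_apply, Finset.mul_sum, Finset.sum_mul]
  rw [Finset.sum_comm]
  exact Finset.sum_congr rfl fun v _ => Finset.sum_congr rfl fun j _ => by ring

lemma toMat_sub {a n : ℕ} (X Y : TW (EuclideanSpace ℂ (Fin a)) n) :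
    toMat (X - Y) = toMat X - toMat Y := by
  ext i w; simp [toMat]

/-- Columns of a square matrix as a vector-valued function of words. -/
noncomputable def ofMat {n : ℕ} (T : Matrix (Wd n) (Wd n) ℂ) :
    TW (EuclideanSpace ℂ (Wd n)) n :=
  WithLp.toLp 2 fun w => WithLp.toLp 2 fun v => T v w

lemma fsq_ofMat {n : ℕ} (T : Matrix (Wd n) (Wd n) ℂ) : ‖ofMat T‖ ^ 2 = fsq T := by
  simp [fsq, ofMat, PiLp.norm_sq_eq_of_L2, EuclideanSpace.norm_sq_eq]

lemma act_ofMat {n : ℕ} (A : Matrix (Wd n) (Wd n) ℂ) (M : Matrix (Fin 3) (Fin 3) ℂ)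
    (T : Matrix (Wd n) (Wd n) ℂ) :
    act n (Matrix.toEuclideanCLM (𝕜 := ℂ) A) M (ofMat T) = ofMat (A * T * (pow' n M)ᴴ) := by
  ext w v
  simp only [act_apply, Matrix.ofLp_toEuclideanCLM, ofMat, Matrix.mul_apply, Matrix.mulVec,
    dotProduct]
  simp only [WithLp.ofLp_sum, WithLp.ofLp_smul, Finset.sum_apply, Pi.smul_apply, smul_eq_mul,
    cpow_apply, Finset.mul_sum, Finset.sum_mul]
  rw [Finset.sum_comm]
  exact Finset.sum_congr rfl fun x _ => Finset.sum_congr rfl fun y _ => by ring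

lemma ofMat_surj {n : ℕ} (y : TW (EuclideanSpace ℂ (Wd n)) n) : ∃ T, ofMat T = y :=
  ⟨fun v w => y w v, by ext w v; rfl⟩

lemma ofMat_sub {n : ℕ} (S T : Matrix (Wd n) (Wd n) ℂ) : ofMat (S - T) = ofMat S - ofMat T := by
  ext w v; simp [ofMat]

lemma pow'_unitary {n : ℕ} {M : Matrix (Fin 3) (Fin 3) ℂ} (hM : Mᴴ * M = 1) :
    (pow' n M)ᴴ * pow' n M = 1 := by
  rw [pow'_conjTranspose, ← pow'_mul, hM, pow'_one]

/-- The exact model given by the tensor power itself. -/
lemma exact_model (n : ℕ) :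
    Model 1 0 (fun M => Matrix.toEuclideanCLM (𝕜 := ℂ) (pow' n M)) := by
  have bd : ∀ M : Matrix (Fin 3) (Fin 3) ℂ, Mᴴ * M = 1 →
      ‖Matrix.toEuclideanCLM (𝕜 := ℂ) (pow' n M)‖ ≤ 1 := by
    intro M hM
    have : star (Matrix.toEuclideanCLM (𝕜 := ℂ) (pow' n M))
        * Matrix.toEuclideanCLM (𝕜 := ℂ) (pow' n M) = 1 := by
      rw [← map_star, ← map_mul, Matrix.star_eq_conjTranspose, pow'_unitary hM, map_one]
    have h2 := CStarRing.norm_star_mul_self (x := Matrix.toEuclideanCLM (𝕜 := ℂ) (pow' n M))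
    rw [this] at h2
    have h1 : ‖(1 : EuclideanSpace ℂ (Wd n) →L[ℂ] EuclideanSpace ℂ (Wd n))‖ ≤ 1 :=
      ContinuousLinearMap.norm_id_le
    nlinarith [norm_nonneg (Matrix.toEuclideanCLM (𝕜 := ℂ) (pow' n M))]
  refine ⟨fun i => ⟨bd _ (gen_unitary i), ?_, ?_⟩, fun e => ⟨fun u => bd _ (edgeRep_unitary e u),
    fun u v => ?_, ?_⟩⟩
  · rw [← map_star, ← map_mul, ← map_sub, Matrix.star_eq_conjTranspose, pow'_conjTranspose,
      gen_conjTranspose, pow'_mul, sub_self, map_zero, norm_zero]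
  · rw [← map_star, ← map_mul, Matrix.star_eq_conjTranspose, pow'_conjTranspose, ← pow'_mul,
      mul_eq_one_comm.1 (gen_unitary i), pow'_one, map_one, sub_self, norm_zero]
  · rw [← map_mul, ← map_sub, ← pow'_mul, edgeRep_mul, sub_self, map_zero, norm_zero]
  · simp only [edgeRep_one, pow'_one, map_one, sub_self, norm_zero, le_refl]

/-- The finite dimensional obstruction. -/
theorem no_finite_approx :
    ∃ η : ℝ, 0 < η ∧ ∀ k : ℕ, ∃ n : ℕ, ∀ K : Fin 3 → Matrix (Fin k) (Fin k) ℂ,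
      ∀ Y : TW (EuclideanSpace ℂ (Fin k)) n, ‖Y‖ = 1 → symOp n Y = Y →
      (∀ i, ‖act n (Matrix.toEuclideanCLM (𝕜 := ℂ) (K i)) (gen i) Y - Y‖ ≤ η) →
      (∀ i, ‖act n (Matrix.toEuclideanCLM (𝕜 := ℂ) (K i)ᴴ) ((gen i)ᴴ) Y - Y‖ ≤ η) → False := by
  obtain ⟨Kc, hKc0, hKc⟩ := correction 1 zero_le_one
  set ε : ℝ := 1 / (4 * (Kc + 1)) with hε
  have hε0 : 0 < ε := by positivity
  refine ⟨ε ^ 2 / 2, by positivity, fun k => ⟨64 * k, ?_⟩⟩
  generalize hnk : 64 * k = n
  intro K Y hY1 hYs hA hB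
  set M := toMat Y with hM
  have hM1 : fsq M = 1 := by rw [hM, fsq_toMat, hY1, one_pow]
  have hMP : ∀ p, M * permMat ℂ p = M := by
    intro p
    ext i w
    change ∑ u, M i u * permMat ℂ p u w = M i w
    rw [Finset.sum_eq_single (w ∘ p.symm)]
    · have : w = (w ∘ p.symm) ∘ p := by funext a; simp
      simp only [permMat, if_pos this, mul_one, hM, toMat]
      exact congrArg (fun x : EuclideanSpace ℂ (Fin k) => x i) ((symm_of_fixed hYs p.symm w))
    · intro u _ hu
      have : ¬ w = u ∘ p := fun h => hu (by rw [h]; funext a; simp)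
      simp [permMat, this]
    · simp
  obtain ⟨T, hTp, hTT, htr, hTQ⟩ := exists_abs M
  have hT1 : fsq T = 1 := by
    rw [fsq_eq_trace, hTp.1.eq, hTT, ← fsq_eq_trace, hM1]
  have hTperm : ∀ p, T * permMat ℂ p = T := fun p => hTQ _ (hMP p)
  have hε1 : ε ≤ 1 / 4 := by
    rw [hε, div_le_div_iff₀ (by positivity) (by norm_num)]; linarith
  have hinv : ∀ i, ‖act n (Matrix.toEuclideanCLM (𝕜 := ℂ) (pow' n (gen i))) (gen i) (ofMat T)
      - ofMat T‖ ≤ ε := by
    intro i
    set G := pow' n (gen i)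
    have g1 : Gᴴ * G = 1 := pow'_unitary (gen_unitary i)
    have g2 : G * Gᴴ = 1 := mul_eq_one_comm.1 g1
    set Z := M * G with hZ
    have hN : fsq (Z - K i * M) ≤ (ε ^ 2 / 2) ^ 2 := by
      have h := pow_le_pow_left₀ (norm_nonneg _) (hA i) 2
      rw [← fsq_toMat, toMat_sub, toMat_act] at h
      refine le_trans (le_of_eq ?_) h
      rw [← fsq_mul_unitary (Z - K i * M) (show Gᴴ * Gᴴᴴ = 1 by
        rw [Matrix.conjTranspose_conjTranspose]; exact g1), fsq_sub_comm]
      congr 1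
      simp [hZ, hM, G, Matrix.sub_mul, Matrix.mul_assoc, g2]
    have hL : fsq ((K i)ᴴ * Z - M) ≤ (ε ^ 2 / 2) ^ 2 := by
      have h := pow_le_pow_left₀ (norm_nonneg _) (hB i) 2
      rw [← fsq_toMat, toMat_sub, toMat_act, pow'_conjTranspose,
        Matrix.conjTranspose_conjTranspose] at h
      refine le_trans (le_of_eq ?_) h
      rw [hZ, Matrix.mul_assoc]
    have hS : (Gᴴ * T * G).PosSemidef := hTp.conjTranspose_mul_mul_same G
    have hS2 : (Gᴴ * T * G) * (Gᴴ * T * G) = Zᴴ * Z := by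
      simp only [hZ, Matrix.conjTranspose_mul, Matrix.mul_assoc]
      rw [← Matrix.mul_assoc G, g2, Matrix.one_mul, ← Matrix.mul_assoc T, hTT]
      simp only [Matrix.mul_assoc]
    have hps := powers_stormer hS hTp M Z (Z - K i * M) ((K i)ᴴ * Z - M) hTT hS2 (by
      intro V j
      rw [← Matrix.add_apply, ← Matrix.sub_apply]
      refine congrArg (fun A : Matrix (Wd n) (Wd n) ℂ => A j j) ?_
      simp only [Matrix.sub_mul, Matrix.mul_sub, Matrix.conjTranspose_sub,
        Matrix.conjTranspose_mul, Matrix.conjTranspose_conjTranspose, Matrix.mul_assoc]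
      abel)
    rw [hM1, fsq_mul_unitary M g2, hM1, Real.sqrt_one, one_mul, mul_one] at hps
    have hle : fsq (Gᴴ * T * G - T) ≤ ε ^ 2 := by
      refine hps.trans ?_
      have := Real.sqrt_le_sqrt hN
      have := Real.sqrt_le_sqrt hL
      rw [Real.sqrt_sq (by positivity)] at *
      linarith
    refine (sq_le_sq₀ (norm_nonneg _) hε0.le).1 ?_
    rw [act_ofMat, ← ofMat_sub, fsq_ofMat]
    refine le_trans (le_of_eq ?_) hle
    rw [fsq_sub_comm (Gᴴ * T * G), ← fsq_unitary_mul (T - Gᴴ * T * G) (U := G) g1,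
      ← fsq_mul_unitary (G * (T - Gᴴ * T * G)) (U := Gᴴ)
        (by rw [Matrix.conjTranspose_conjTranspose]; exact g1)]
    congr 1
    have : G * (Gᴴ * T * G) * Gᴴ = T := by
      simp only [← Matrix.mul_assoc, g2, Matrix.one_mul]
      rw [Matrix.mul_assoc, g2, Matrix.mul_one]
    rw [Matrix.mul_sub, Matrix.sub_mul, this]
  obtain ⟨y, hy1, hy2⟩ := hKc (TW (EuclideanSpace ℂ (Wd n)) n) (4 * 0) (by norm_num) (by norm_num) _
    (triangle_of_model (exact_model n)) (ofMat T) ε hinv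
  simp only [mul_zero, zero_mul, add_zero, Real.sqrt_zero] at hy1 hy2
  obtain ⟨T0, rfl⟩ := ofMat_surj y
  have hcomm : ∀ i, Commute T0 (pow' n (gen i)) := by
    intro i
    set G := pow' n (gen i)
    have g1 : Gᴴ * G = 1 := pow'_unitary (gen_unitary i)
    have h : ‖ofMat (G * T0 * Gᴴ) - ofMat T0‖ = 0 := by
      refine le_antisymm ?_ (norm_nonneg _)
      rw [← act_ofMat]
      exact hy2 i
    rw [← ofMat_sub, ← sq_eq_zero_iff, fsq_ofMat] at h
    have h0 : G * T0 * Gᴴ - T0 = 0 := by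
      ext v w
      have := (Finset.sum_eq_zero_iff_of_nonneg
        (fun j _ => Finset.sum_nonneg fun i _ => sq_nonneg _)).1 h w (mem_univ w)
      have := (Finset.sum_eq_zero_iff_of_nonneg (fun i _ => sq_nonneg _)).1 this v (mem_univ v)
      simpa using this
    have h1 : G * T0 * Gᴴ = T0 := sub_eq_zero.1 h0
    change T0 * G = G * T0
    conv_lhs => rw [← h1, Matrix.mul_assoc, g1, Matrix.mul_one]
  set P := symProj n
  have hPr : ∀ p, P * permMat ℂ p = P := by
    intro p
    have := congrArg Matrix.conjTranspose (permMat_symProj (n := n) p⁻¹)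
    rwa [Matrix.conjTranspose_mul, symProj_conjTranspose, permMat_conjTranspose, inv_inv] at this
  obtain ⟨c, hc⟩ := irreducible (T := T0 * P)
    (fun p => by rw [Matrix.mul_assoc, hPr])
    (fun i => (hcomm i).mul_left (symProj_comm (gen i)))
  have hTP : T * P = T := by
    simp only [P, symProj, Matrix.mul_smul, Matrix.mul_sum, hTperm, Finset.sum_const, card_univ,
      Fintype.card_perm, Fintype.card_fin, ← Nat.cast_smul_eq_nsmul ℂ, smul_smul]
    rw [inv_mul_cancel₀ (Nat.cast_ne_zero.2 n.factorial_ne_zero), one_smul]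
  have hnear : fsq (c • P - T) ≤ (1 / 4 : ℝ) ^ 2 := by
    rw [← hc]
    conv_lhs => arg 1; arg 2; rw [← hTP]
    rw [← Matrix.sub_mul]
    have h1 : fsq ((T0 - T) * P) ≤ fsq (T0 - T) := by
      have e : fsq (T0 - T) = fsq ((T0 - T) * P) + fsq ((T0 - T) * (1 - P)) := by
        have hP' : (1 - P)ᴴ = 1 - P := by simp [P, symProj_conjTranspose]
        have key : ∀ Q : Matrix (Wd n) (Wd n) ℂ, Qᴴ = Q → Q * Q = Q →
            fsq ((T0 - T) * Q) = ((T0 - T)ᴴ * (T0 - T) * Q).trace.re := by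
          intro Q q1 q2
          rw [fsq_eq_trace, Matrix.conjTranspose_mul, q1, Matrix.mul_assoc Q, Matrix.trace_mul_comm]
          simp only [Matrix.mul_assoc, q2]
        rw [key P symProj_conjTranspose symProj_mul_self,
          key _ hP' (by simp [Matrix.sub_mul, Matrix.mul_sub, P, symProj_mul_self]),
          Matrix.mul_sub ((T0 - T)ᴴ * (T0 - T)) 1 P, Matrix.mul_one, Matrix.trace_sub,
          Complex.sub_re, fsq_eq_trace (T0 - T)]
        ring
      linarith [fsq_nonneg ((T0 - T) * (1 - P))]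
    refine h1.trans ?_
    rw [← fsq_ofMat, ofMat_sub]
    refine pow_le_pow_left₀ (norm_nonneg _) (hy1.trans ?_) 2
    rw [hε, mul_one_div, div_le_div_iff₀ (by positivity) (by norm_num)]
    linarith
  have hP1 := symProj_diag_sum (n := n)
  have hPP : fsq (c • P) = ‖c‖ ^ 2 * P.trace.re := by
    rw [show ‖c‖ ^ 2 * P.trace.re = ‖c‖ ^ 2 * (Pᴴ * P).trace.re by
      rw [symProj_conjTranspose, symProj_mul_self], ← fsq_eq_trace]
    simp [fsq, norm_smul, mul_pow, Finset.mul_sum]
  have hcross : fsq (c • P - T) = fsq (c • P) + fsq T - 2 * c.re * T.trace.re := by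
    have hPT : P * T = T := by
      have := congrArg Matrix.conjTranspose hTP
      rwa [Matrix.conjTranspose_mul, symProj_conjTranspose, hTp.1.eq] at this
    have htim : T.trace.im = 0 := (Complex.le_def.1 hTp.trace_nonneg).2.symm
    rw [fsq_eq_trace, fsq_eq_trace, fsq_eq_trace, Matrix.conjTranspose_sub,
      Matrix.conjTranspose_smul, symProj_conjTranspose, hTp.1.eq]
    change P * T = T at hPT
    rw [show symProj n = P from rfl]
    simp only [Matrix.sub_mul, Matrix.mul_sub, Matrix.smul_mul, Matrix.mul_smul, hPT, hTP,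
      Matrix.trace_sub, Matrix.trace_smul, smul_eq_mul]
    simp [htim]
    ring
  have htr' : T.trace.re ≤ Real.sqrt k := by simpa [hM1] using htr
  have ht0 : 0 ≤ T.trace.re := (Complex.le_def.1 hTp.trace_nonneg).1
  set q := ‖c‖
  have hq : c.re ≤ q := Complex.re_le_norm c
  have hk : Real.sqrt k ^ 2 = k := Real.sq_sqrt (Nat.cast_nonneg k)
  have h1 : q ^ 2 * (64 * (k : ℝ) + 1) + 15 / 16 ≤ 2 * q * Real.sqrt k := by
    have h2 : q ^ 2 * ((n : ℝ) + 1) ≤ fsq (c • P) := by
      rw [hPP]; exact mul_le_mul_of_nonneg_left hP1 (sq_nonneg q)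
    have h3 : c.re * T.trace.re ≤ q * Real.sqrt k :=
      (mul_le_mul_of_nonneg_right hq ht0).trans (mul_le_mul_of_nonneg_left htr' (norm_nonneg _))
    have hn : (n : ℝ) = 64 * k := by rw [← hnk]; norm_num
    rw [hn] at h2
    rw [hcross, hT1] at hnear
    linarith
  nlinarith [sq_nonneg (8 * q * Real.sqrt k - 1 / 8), sq_nonneg q, Real.sqrt_nonneg (k : ℝ),
    mul_nonneg (norm_nonneg c) (Real.sqrt_nonneg (k : ℝ))]

end Vale.Agent.P083
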