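import Vale.Agent.P083.Induction

/-!
The full Fock space over `ℂ³` and the separable algebra of creation operators and second
quantisations.
-/

namespace Vale.Agent.P083

open Finset Matrix
open scoped InnerProductSpace

/-- The full Fock space over `ℂ³`. -/
noncomputable abbrev Fock := lp (fun n : ℕ => EuclideanSpace ℂ (Wd n)) 2

lemma fock_mul_apply (A B : Fock →L[ℂ] Fock) (x : Fock) : (A * B) x = A (B x) := rfl

/-- The tensor power of a matrix as an operator on one level. -/
noncomputable def blk (n : ℕ) (M : Matrix (Fin 3) (Fin 3) ℂ) :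
    EuclideanSpace ℂ (Wd n) →L[ℂ] EuclideanSpace ℂ (Wd n) :=
  toEuclideanCLM (𝕜 := ℂ) (pow' n M)

lemma blk_apply (n : ℕ) (M : Matrix (Fin 3) (Fin 3) ℂ) (x : EuclideanSpace ℂ (Wd n)) (w : Wd n) :
    blk n M x w = ∑ v, pow' n M w v * x v := by
  simp [blk, Matrix.ofLp_toEuclideanCLM, Matrix.mulVec, dotProduct]

lemma blk_mul (n : ℕ) (M N : Matrix (Fin 3) (Fin 3) ℂ) : blk n (M * N) = blk n M * blk n N := by
  simp only [blk, pow'_mul, map_mul]

lemma blk_one (n : ℕ) : blk n 1 = 1 := by simp only [blk, pow'_one, map_one]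

lemma star_blk (n : ℕ) (M : Matrix (Fin 3) (Fin 3) ℂ) : star (blk n M) = blk n Mᴴ := by
  simp only [blk, ← map_star, Matrix.star_eq_conjTranspose, pow'_conjTranspose]

lemma norm_blk_apply (n : ℕ) {M : Matrix (Fin 3) (Fin 3) ℂ} (hM : Mᴴ * M = 1)
    (x : EuclideanSpace ℂ (Wd n)) : ‖blk n M x‖ = ‖x‖ := by
  have h : ⟪blk n M x, blk n M x⟫_ℂ = ⟪x, x⟫_ℂ := by
    rw [← ContinuousLinearMap.adjoint_inner_left, ← ContinuousLinearMap.star_eq_adjoint, star_blk]
    change ⟪(blk n Mᴴ * blk n M) x, x⟫_ℂ = _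
    rw [← blk_mul, hM, blk_one]; rfl
  rw [inner_self_eq_norm_sq_to_K, inner_self_eq_norm_sq_to_K] at h
  exact (sq_eq_sq₀ (norm_nonneg _) (norm_nonneg _)).1 (by exact_mod_cast h)

lemma memℓp_blk {M : Matrix (Fin 3) (Fin 3) ℂ} (hM : Mᴴ * M = 1) (x : Fock) :
    Memℓp (fun n => blk n M (x n)) 2 := by
  refine memℓp_gen ?_
  simpa only [norm_blk_apply _ hM] using (lp.memℓp x).summable (by norm_num)

/-- Second quantisation as a linear map. -/
noncomputable def gamL (M : Matrix (Fin 3) (Fin 3) ℂ) (hM : Mᴴ * M = 1) : Fock →ₗ[ℂ] Fock where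
  toFun x := ⟨fun n => blk n M (x n), memℓp_blk hM x⟩
  map_add' x y := lp.ext (funext fun n => map_add (blk n M) (x n) (y n))
  map_smul' c x := lp.ext (funext fun n => map_smul (blk n M) c (x n))

lemma norm_gamL (M : Matrix (Fin 3) (Fin 3) ℂ) (hM : Mᴴ * M = 1) (x : Fock) :
    ‖gamL M hM x‖ = ‖x‖ := by
  rw [lp.norm_eq_tsum_rpow (by norm_num), lp.norm_eq_tsum_rpow (by norm_num)]
  congr 1
  refine tsum_congr fun n => ?_
  change ‖blk n M (x n)‖ ^ _ = _
  rw [norm_blk_apply n hM]

open Classical in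
/-- Second quantisation of a unitary. -/
noncomputable def gam (M : Matrix (Fin 3) (Fin 3) ℂ) : Fock →L[ℂ] Fock :=
  if hM : Mᴴ * M = 1 then
    (gamL M hM).mkContinuous 1 fun x => by rw [norm_gamL, one_mul]
  else 0

lemma gam_apply {M : Matrix (Fin 3) (Fin 3) ℂ} (hM : Mᴴ * M = 1) (x : Fock) (n : ℕ) :
    gam M x n = blk n M (x n) := by
  rw [gam, dif_pos hM]; rfl

lemma gam_mul {M N : Matrix (Fin 3) (Fin 3) ℂ} (hM : Mᴴ * M = 1) (hN : Nᴴ * N = 1) :
    gam M * gam N = gam (M * N) := by
  have hMN : (M * N)ᴴ * (M * N) = 1 := by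
    rw [Matrix.conjTranspose_mul, Matrix.mul_assoc, ← Matrix.mul_assoc Mᴴ, hM, Matrix.one_mul, hN]
  refine ContinuousLinearMap.ext fun x => lp.ext (funext fun n => ?_)
  rw [fock_mul_apply, gam_apply hM, gam_apply hN, gam_apply hMN, blk_mul]
  rfl

lemma gam_one : gam 1 = 1 := by
  refine ContinuousLinearMap.ext fun x => lp.ext (funext fun n => ?_)
  rw [gam_apply (by simp), blk_one]
  rfl

lemma star_gam {M : Matrix (Fin 3) (Fin 3) ℂ} (hM : Mᴴ * M = 1) : star (gam M) = gam Mᴴ := by
  have hM' : Mᴴᴴ * Mᴴ = 1 := by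
    rw [Matrix.conjTranspose_conjTranspose]; exact mul_eq_one_comm.1 hM
  rw [ContinuousLinearMap.star_eq_adjoint, eq_comm, ContinuousLinearMap.eq_adjoint_iff]
  intro x y
  rw [lp.inner_eq_tsum, lp.inner_eq_tsum]
  refine tsum_congr fun n => ?_
  rw [gam_apply hM, gam_apply hM', ← star_blk, ContinuousLinearMap.star_eq_adjoint,
    ContinuousLinearMap.adjoint_inner_left]

/-- The underlying function of a creation operator. -/
noncomputable def crFun (d : Fin 3) (x : Fock) : (n : ℕ) → EuclideanSpace ℂ (Wd n)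
  | 0 => 0
  | n + 1 => WithLp.toLp 2 fun w => if w 0 = d then x n (Fin.tail w) else 0

lemma inner_crFun (c d : Fin 3) (x y : Fock) (n : ℕ) :
    ⟪crFun c x (n + 1), crFun d y (n + 1)⟫_ℂ = if c = d then ⟪x n, y n⟫_ℂ else 0 := by
  simp only [crFun, PiLp.inner_apply]
  rw [sum_wordsC]
  rw [Finset.sum_eq_single c]
  · simp only [Fin.cons_zero, Fin.tail_cons, if_true]
    split_ifs <;> simp [PiLp.inner_apply]
  · intro b _ hb
    simp [Fin.cons_zero, hb]
  · simp

lemma norm_crFun (d : Fin 3) (x : Fock) (n : ℕ) : ‖crFun d x (n + 1)‖ = ‖x n‖ := by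
  have h := inner_crFun d d x x n
  rw [if_pos rfl, inner_self_eq_norm_sq_to_K, inner_self_eq_norm_sq_to_K] at h
  exact (sq_eq_sq₀ (norm_nonneg _) (norm_nonneg _)).1 (by exact_mod_cast h)

lemma memℓp_crFun (d : Fin 3) (x : Fock) : Memℓp (crFun d x) 2 := by
  refine memℓp_gen ((summable_nat_add_iff 1).1 ?_)
  simpa only [norm_crFun] using (lp.memℓp x).summable (by norm_num)

/-- The creation operator as a linear map. -/
noncomputable def crL (d : Fin 3) : Fock →ₗ[ℂ] Fock where
  toFun x := ⟨crFun d x, memℓp_crFun d x⟩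
  map_add' x y := lp.ext (funext fun n => by
    change crFun d (x + y) n = crFun d x n + crFun d y n
    match n with
    | 0 => simp [crFun, lp.coeFn_add, lp.coeFn_smul]
    | n + 1 =>
      ext w
      by_cases h : w 0 = d <;> simp [crFun, h, lp.coeFn_add, lp.coeFn_smul])
  map_smul' c x := lp.ext (funext fun n => by
    change crFun d (c • x) n = c • crFun d x n
    match n with
    | 0 => simp [crFun, lp.coeFn_add, lp.coeFn_smul]
    | n + 1 =>
      ext w
      by_cases h : w 0 = d <;> simp [crFun, h, lp.coeFn_add, lp.coeFn_smul])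

lemma inner_crL (c d : Fin 3) (x y : Fock) :
    ⟪crL c x, crL d y⟫_ℂ = if c = d then ⟪x, y⟫_ℂ else 0 := by
  have hsum := lp.summable_inner (𝕜 := ℂ) (crL c x) (crL d y)
  rw [lp.inner_eq_tsum (𝕜 := ℂ) (crL c x) (crL d y), Summable.tsum_eq_zero_add hsum]
  have h0 : ⟪crL c x 0, crL d y 0⟫_ℂ = 0 := by
    change ⟪(0 : EuclideanSpace ℂ (Wd 0)), _⟫_ℂ = 0
    exact inner_zero_left _
  have h1 : ∀ n, ⟪crL c x (n + 1), crL d y (n + 1)⟫_ℂ = if c = d then ⟪x n, y n⟫_ℂ else 0 :=
    fun n => inner_crFun c d x y n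
  simp only [h0, h1, zero_add]
  split_ifs
  · rw [lp.inner_eq_tsum]
  · exact tsum_zero

lemma norm_crL (d : Fin 3) (x : Fock) : ‖crL d x‖ = ‖x‖ := by
  have h := inner_crL d d x x
  rw [if_pos rfl, inner_self_eq_norm_sq_to_K, inner_self_eq_norm_sq_to_K] at h
  exact (sq_eq_sq₀ (norm_nonneg _) (norm_nonneg _)).1 (by exact_mod_cast h)

/-- The creation operators. -/
noncomputable def cr (d : Fin 3) : Fock →L[ℂ] Fock :=
  (crL d).mkContinuous 1 fun x => by rw [norm_crL, one_mul]

lemma star_cr_mul_cr (c d : Fin 3) : star (cr c) * cr d = if c = d then 1 else 0 := by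
  refine ContinuousLinearMap.ext fun y => ext_inner_left ℂ fun x => ?_
  rw [fock_mul_apply, ContinuousLinearMap.star_eq_adjoint, ContinuousLinearMap.adjoint_inner_right]
  change ⟪crL c x, crL d y⟫_ℂ = _
  rw [inner_crL]
  split_ifs with h
  · rfl
  · exact (inner_zero_right _).symm

lemma gam_mul_cr {M : Matrix (Fin 3) (Fin 3) ℂ} (hM : Mᴴ * M = 1) (d : Fin 3) :
    gam M * cr d = ∑ c, M c d • (cr c * gam M) := by
  refine ContinuousLinearMap.ext fun x => lp.ext (funext fun n => ?_)
  simp only [fock_mul_apply, ContinuousLinearMap.sum_apply, ContinuousLinearMap.smul_apply,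
    lp.coeFn_sum, Finset.sum_apply, lp.coeFn_smul, Pi.smul_apply, gam_apply hM]
  change blk n M (crFun d x n) = ∑ c, M c d • crFun c (gam M x) n
  match n with
  | 0 => simp [crFun]
  | n + 1 =>
    ext w
    rw [blk_apply, sum_wordsC]
    simp only [crFun, Fin.cons_zero, Fin.tail_cons, gam_apply hM, WithLp.ofLp_sum,
      WithLp.ofLp_smul, Finset.sum_apply, Pi.smul_apply, smul_eq_mul, mul_ite, mul_zero]
    rw [Finset.sum_comm]
    simp only [Finset.sum_ite_eq, Finset.sum_ite_eq', Finset.mem_univ, if_true, blk_apply, Finset.mul_sum]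
    refine Finset.sum_congr rfl fun v _ => ?_
    simp only [pow', ten_apply, Fin.prod_univ_succ, Fin.cons_zero, Fin.cons_succ, Fin.tail]
    ring

/-- The vacuum vector. -/
noncomputable def vac : Fock := lp.single 2 0 (EuclideanSpace.single Fin.elim0 1)

lemma norm_vac : ‖vac‖ = 1 := by
  rw [vac, lp.norm_single (by norm_num)]
  simp

lemma gam_vac {M : Matrix (Fin 3) (Fin 3) ℂ} (hM : Mᴴ * M = 1) : gam M vac = vac := by
  refine lp.ext (funext fun n => ?_)
  rw [gam_apply hM]
  rcases Nat.eq_zero_or_pos n with rfl | hn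
  · have : pow' 0 M = 1 := by
      ext w v
      obtain rfl := Subsingleton.elim w v
      simp [pow', ten_apply]
    rw [blk, this, map_one]
    rfl
  · simp [vac, lp.single_apply, hn.ne']

/-- The projection on the vacuum. -/
noncomputable def vacProj : Fock →L[ℂ] Fock := (innerSL ℂ vac).smulRight vac

lemma gam_vacProj {M : Matrix (Fin 3) (Fin 3) ℂ} (hM : Mᴴ * M = 1) :
    gam M * vacProj = vacProj := by
  refine ContinuousLinearMap.ext fun x => ?_
  rw [fock_mul_apply]
  simp only [vacProj, ContinuousLinearMap.smulRight_apply, map_smul, gam_vac hM]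

lemma vacProj_ne_zero : vacProj ≠ 0 := by
  intro h
  have h2 := congrArg (fun T : Fock →L[ℂ] Fock => ‖T vac‖) h
  simp [vacProj, norm_vac, inner_self_eq_norm_sq_to_K] at h2

/-- The generators of the algebra. -/
noncomputable def fockGens : Set (Fock →L[ℂ] Fock) :=
  Set.range cr ∪ Set.range (fun i => gam (gen i)) ∪
    Set.range (fun p : Fin 3 × F21 => gam (edgeRep p.1 p.2)) ∪ {vacProj}

/-- The separable C*-algebra generated by them. -/
noncomputable def fockSub : StarSubalgebra ℂ (Fock →L[ℂ] Fock) :=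
  (StarAlgebra.adjoin ℂ fockGens).topologicalClosure

/-- The algebra as a type. -/
abbrev FockAlg : Type := fockSub

noncomputable instance : CStarAlgebra FockAlg :=
  StarSubalgebra.cstarAlgebra fockSub (h_closed := StarSubalgebra.isClosed_topologicalClosure _)

lemma fockGens_subset {a : Fock →L[ℂ] Fock} (ha : a ∈ fockGens) : a ∈ fockSub :=
  (StarAlgebra.adjoin ℂ fockGens).le_topologicalClosure (StarAlgebra.subset_adjoin _ _ ha)

lemma fockGens_finite : fockGens.Finite :=
  (((Set.finite_range _).union (Set.finite_range _)).union (Set.finite_range _)).union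
    (Set.finite_singleton _)

lemma fockAlg_separable : TopologicalSpace.SeparableSpace FockAlg := by
  set s := fockGens ∪ star fockGens
  have hs : s.Finite := by
    refine fockGens_finite.union ?_
    rw [← Set.image_star]
    exact fockGens_finite.image _
  have hcl : (↑(Submonoid.closure s) : Set (Fock →L[ℂ] Fock)).Countable := by
    haveI : Countable s := hs.countable.to_subtype
    rw [Submonoid.closure_eq_image_prod, ← Set.range_list_map_coe, ← Set.range_comp]
    exact Set.countable_range _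
  have h : TopologicalSpace.IsSeparable (fockSub : Set (Fock →L[ℂ] Fock)) := by
    change TopologicalSpace.IsSeparable (closure _)
    refine TopologicalSpace.IsSeparable.closure ?_
    change TopologicalSpace.IsSeparable
      ((StarAlgebra.adjoin ℂ fockGens).toSubalgebra.toSubmodule : Set (Fock →L[ℂ] Fock))
    rw [StarAlgebra.adjoin_toSubalgebra, Algebra.adjoin_eq_span]
    exact hcl.isSeparable.span
  exact h.separableSpace

lemma fockAlg_nontrivial : Nontrivial FockAlg :=
  ⟨⟨⟨vacProj, fockGens_subset (Or.inr rfl)⟩, 0, fun h => vacProj_ne_zero (congrArg Subtype.val h)⟩⟩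

end Vale.Agent.P083
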