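import Vale.Agent.P083.Amp

/-!
In an approximate model the correction propagates to every symmetric power, with a uniform error.
-/

namespace Vale.Agent.P083

open Finset Matrix
open scoped InnerProductSpace

variable {H : Type} [NormedAddCommGroup H] [InnerProductSpace ℂ H] [CompleteSpace H] {n : ℕ}

/-- Prepend a letter using the approximate creation operators. -/
noncomputable def step (S : Fin 3 → H →L[ℂ] H) (x : TW H n) : TW H (n + 1) :=
  WithLp.toLp 2 (fun w => S (w 0) (x (Fin.tail w)))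

@[simp] lemma step_apply (S : Fin 3 → H →L[ℂ] H) (x : TW H n) (w : Wd (n + 1)) :
    step S x w = S (w 0) (x (Fin.tail w)) := rfl

lemma sum_words (f : Wd (n + 1) → ℝ) : ∑ w, f w = ∑ c, ∑ v, f (Fin.cons c v) := by
  rw [← Fintype.sum_prod_type']
  exact (Fintype.sum_equiv (Fin.consEquiv fun _ => Fin 3) _ _ fun p => rfl).symm

lemma sum_wordsC (f : Wd (n + 1) → H) : ∑ w, f w = ∑ c, ∑ v, f (Fin.cons c v) := by
  rw [← Fintype.sum_prod_type']
  exact (Fintype.sum_equiv (Fin.consEquiv fun _ => Fin 3) _ _ fun p => rfl).symm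

lemma sum_tail_sq (x : TW H n) :
    ∑ w : Wd (n + 1), ‖x (Fin.tail w)‖ ^ 2 = 3 * ‖x‖ ^ 2 := by
  rw [sum_words, PiLp.norm_sq_eq_of_L2]
  simp [Finset.sum_const]

lemma norm_step_le (S : Fin 3 → H →L[ℂ] H) {C : ℝ} (hC : 0 ≤ C) (hS : ∀ d, ‖S d‖ ≤ C)
    (x : TW H n) : ‖step S x‖ ≤ 2 * C * ‖x‖ := by
  refine (sq_le_sq₀ (norm_nonneg _) (by positivity)).1 ?_
  rw [PiLp.norm_sq_eq_of_L2]
  calc ∑ w, ‖step S x w‖ ^ 2 ≤ ∑ w : Wd (n + 1), C ^ 2 * ‖x (Fin.tail w)‖ ^ 2 := by
        refine Finset.sum_le_sum fun w _ => ?_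
        rw [← mul_pow, step_apply]
        exact pow_le_pow_left₀ (norm_nonneg _) ((S _).le_of_opNorm_le (hS _) _) 2
    _ ≤ (2 * C * ‖x‖) ^ 2 := by
        rw [← Finset.mul_sum, sum_tail_sq]
        nlinarith [mul_nonneg (sq_nonneg C) (sq_nonneg ‖x‖)]

lemma norm_entry_le {M : Matrix (Fin 3) (Fin 3) ℂ} (hM : Mᴴ * M = 1) (i j : Fin 3) :
    ‖M i j‖ ≤ 1 := entry_norm_bound_of_unitary (Matrix.mem_unitaryGroup_iff'.2 hM) i j

lemma step_equivariant {S : Fin 3 → H →L[ℂ] H} {A : H →L[ℂ] H}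
    {M : Matrix (Fin 3) (Fin 3) ℂ} (hM : Mᴴ * M = 1) {δ : ℝ} (hδ : 0 ≤ δ)
    (hAS : ∀ d, ‖A * S d - ∑ c, M c d • (S c * A)‖ ≤ δ) (x : TW H n) :
    ‖act (n + 1) A M (step S x) - step S (act n A M x)‖ ≤ 6 * δ * ‖x‖ := by
  set q := matOp (cpow n M) x with hq
  have hqn : ‖q‖ = ‖x‖ := norm_matOp_apply (cpow_isometry hM) x
  have hMM : M * Mᴴ = 1 := mul_eq_one_comm.1 hM
  have comp : ∀ (c : Fin 3) (v : Wd n),
      (act (n + 1) A M (step S x) - step S (act n A M x)) (Fin.cons c v)
        = ∑ d, star (M c d) • ((A * S d - ∑ e, M e d • (S e * A)) (q v)) := by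
    intro c v
    have e1 : act (n + 1) A M (step S x) (Fin.cons c v) = ∑ d, star (M c d) • A (S d (q v)) := by
      rw [act_apply, sum_wordsC]
      simp only [map_sum, map_smul, step_apply, Fin.cons_zero, Fin.tail_cons]
      refine Finset.sum_congr rfl fun d _ => ?_
      simp only [hq, matOp_apply, map_sum, map_smul, Finset.smul_sum, smul_smul]
      refine Finset.sum_congr rfl fun u _ => ?_
      congr 1
      simp [cpow, pow', ten_apply, Fin.prod_univ_succ, Complex.star_def]
    have e2 : step S (act n A M x) (Fin.cons c v) = S c (A (q v)) := by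
      simp [act_apply, hq, map_sum]
    have e3 : ∑ d, star (M c d) • (∑ e, M e d • (S e * A)) (q v) = S c (A (q v)) := by
      simp only [ContinuousLinearMap.sum_apply, ContinuousLinearMap.smul_apply, Finset.smul_sum,
        smul_smul]
      rw [Finset.sum_comm]
      simp only [← Finset.sum_smul]
      have : ∀ e, (∑ d, star (M c d) * M e d) = if e = c then 1 else 0 := by
        intro e
        have := congrArg (fun N : Matrix (Fin 3) (Fin 3) ℂ => N e c) hMM
        simp only [Matrix.mul_apply, Matrix.conjTranspose_apply, Matrix.one_apply] at this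
        rw [← this]; exact Finset.sum_congr rfl fun d _ => mul_comm _ _
      simp only [this, ite_smul, one_smul, zero_smul, Finset.sum_ite_eq', mem_univ, if_true]
      rfl
    simp only [PiLp.sub_apply]
    rw [e1, e2, ← e3, ← Finset.sum_sub_distrib]
    refine Finset.sum_congr rfl fun d _ => ?_
    rw [← smul_sub]; rfl
  refine (sq_le_sq₀ (norm_nonneg _) (by positivity)).1 ?_
  rw [PiLp.norm_sq_eq_of_L2, sum_words]
  calc ∑ c, ∑ v, ‖(act (n + 1) A M (step S x) - step S (act n A M x)) (Fin.cons c v)‖ ^ 2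
      ≤ ∑ _c : Fin 3, ∑ v, (3 * δ * ‖q v‖) ^ 2 := by
        refine Finset.sum_le_sum fun c _ => Finset.sum_le_sum fun v _ => ?_
        refine pow_le_pow_left₀ (norm_nonneg _) ?_ 2
        rw [comp]
        refine (norm_sum_le _ _).trans ?_
        have : ∀ d, ‖star (M c d) • ((A * S d - ∑ e, M e d • (S e * A)) (q v))‖ ≤ δ * ‖q v‖ := by
          intro d
          rw [norm_smul, norm_star]
          exact (mul_le_of_le_one_left (norm_nonneg _) (norm_entry_le hM c d)).trans
            (ContinuousLinearMap.le_of_opNorm_le _ (hAS d) _)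
        refine (Finset.sum_le_sum fun d _ => this d).trans (le_of_eq ?_)
        simp; ring
    _ = 3 * (3 * δ) ^ 2 * ‖q‖ ^ 2 := by
        rw [PiLp.norm_sq_eq_of_L2, Finset.mul_sum]
        simp only [mul_pow, Finset.sum_const, card_univ, Fintype.card_fin, nsmul_eq_mul,
          Finset.mul_sum, mul_assoc]
        norm_num
    _ ≤ (6 * δ * ‖x‖) ^ 2 := by
        rw [hqn]; nlinarith [mul_nonneg (sq_nonneg δ) (sq_nonneg ‖x‖)]

lemma symm_of_fixed {x : TW H n} (hx : symOp n x = x) (q : Equiv.Perm (Fin n)) (w : Wd n) :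
    x (w ∘ q) = x w := by
  have h : matOp (permMat ℂ q) x = x := by
    conv_lhs => rw [← hx]
    have : (matOp (permMat ℂ q) * matOp (symProj n) : TW H n →L[ℂ] TW H n) x = x := by
      rw [← matOp_mul, permMat_symProj]; exact hx
    exact this
  have h' := congrArg (fun y : TW H n => y w) h
  simpa [permMat, ite_smul] using h'

lemma norm_sym_step {S : Fin 3 → H →L[ℂ] H} {δ : ℝ} (hδ : 0 ≤ δ)
    (hS : ∀ c d, ‖star (S c) * S d - (if c = d then 1 else 0)‖ ≤ δ) {x : TW H n}
    (hx : symOp n x = x) (hx1 : ‖x‖ = 1) :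
    1 - 4 * δ ≤ ‖symOp (n + 1) (step S x)‖ ^ 2 := by
  have hin : ∀ c d a b, |(⟪S c a, S d b⟫_ℂ).re - if c = d then (⟪a, b⟫_ℂ).re else 0|
      ≤ δ * (‖a‖ * ‖b‖) := by
    intro c d a b
    have e : ⟪a, (star (S c) * S d - (if c = d then 1 else 0) : H →L[ℂ] H) b⟫_ℂ
        = ⟪S c a, S d b⟫_ℂ - if c = d then ⟪a, b⟫_ℂ else 0 := by
      change ⟪a, ContinuousLinearMap.adjoint (S c) (S d b) - _⟫_ℂ = _
      rw [inner_sub_right, ContinuousLinearMap.adjoint_inner_right]
      split_ifs <;> simp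
    have h := (norm_inner_le_norm (𝕜 := ℂ) a
      ((star (S c) * S d - (if c = d then 1 else 0) : H →L[ℂ] H) b)).trans
      (mul_le_mul_of_nonneg_left (ContinuousLinearMap.le_of_opNorm_le _ (hS c d) b) (norm_nonneg _))
    rw [e] at h
    have h2 := (Complex.abs_re_le_norm _).trans h
    split_ifs at h2 ⊢ <;> simp only [Complex.sub_re, Complex.zero_re] at h2 <;> linarith
  set Z := step S x with hZ
  have hperm : ∀ p : Equiv.Perm (Fin (n + 1)),
      1 - 4 * δ ≤ ∑ w, (⟪Z w, Z (w ∘ p)⟫_ℂ).re := by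
    intro p
    have key : ∀ w : Wd (n + 1), (if w 0 = w (p 0) then ‖x (Fin.tail w)‖ ^ 2 else 0)
        - δ * ((‖x (Fin.tail w)‖ ^ 2 + ‖x (Fin.tail (w ∘ p))‖ ^ 2) / 2)
        ≤ (⟪Z w, Z (w ∘ p)⟫_ℂ).re := by
      intro w
      have h := (abs_le.1 (hin (w 0) (w (p 0)) (x (Fin.tail w)) (x (Fin.tail (w ∘ p))))).1
      have hm : δ * (‖x (Fin.tail w)‖ * ‖x (Fin.tail (w ∘ p))‖)
          ≤ δ * ((‖x (Fin.tail w)‖ ^ 2 + ‖x (Fin.tail (w ∘ p))‖ ^ 2) / 2) :=
        mul_le_mul_of_nonneg_left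
          (by linarith [two_mul_le_add_sq ‖x (Fin.tail w)‖ ‖x (Fin.tail (w ∘ p))‖]) hδ
      simp only [hZ, step_apply, Function.comp_apply]
      by_cases hw : w 0 = w (p 0)
      · have : x (Fin.tail (w ∘ p)) = x (Fin.tail w) := by
          set p' := Equiv.swap 0 (p 0) * p with hp'
          have h0 : p' 0 = 0 := by simp [hp']
          have hne : ∀ i : Fin n, p' i.succ ≠ 0 := fun i h => by
            exact Fin.succ_ne_zero i (p'.injective (h.trans h0.symm))
          let q0 : Fin n → Fin n := fun i => (p' i.succ).pred (hne i)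
          have hq0 : Function.Bijective q0 := by
            rw [← Finite.injective_iff_bijective]
            intro a b hab
            exact Fin.succ_injective n (p'.injective (Fin.pred_inj.1 hab))
          have e : Fin.tail (w ∘ p) = Fin.tail w ∘ Equiv.ofBijective q0 hq0 := by
            funext i
            simp only [Fin.tail, Function.comp_apply, Equiv.ofBijective_apply, q0, Fin.succ_pred]
            simp only [hp', Equiv.Perm.mul_apply, Equiv.swap_apply_def]
            split_ifs with a b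
            · rw [a, hw]
            · rw [b]; exact hw.symm
            · rfl
          rw [e, symm_of_fixed hx]
        rw [if_pos hw] at h ⊢
        rw [this] at h hm ⊢
        rw [show (⟪x (Fin.tail w), x (Fin.tail w)⟫_ℂ).re = ‖x (Fin.tail w)‖ ^ 2 from
          inner_self_eq_norm_sq (𝕜 := ℂ) _] at h
        linarith
      · rw [if_neg hw] at h ⊢
        linarith
    refine le_trans ?_ (Finset.sum_le_sum fun w _ => key w)
    rw [Finset.sum_sub_distrib, ← Finset.mul_sum, ← Finset.sum_div, Finset.sum_add_distrib]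
    have e1 := sum_tail_sq x
    have e2 : ∑ w : Wd (n + 1), ‖x (Fin.tail (w ∘ p))‖ ^ 2 = 3 * ‖x‖ ^ 2 := by
      rw [← e1]
      exact Fintype.sum_equiv (Equiv.arrowCongr p (Equiv.refl (Fin 3))).symm _ _ fun w => rfl
    have e3 : (1 : ℝ) ≤ ∑ w : Wd (n + 1), if w 0 = w (p 0) then ‖x (Fin.tail w)‖ ^ 2 else 0 := by
      rw [sum_words, Finset.sum_comm]
      have : ‖x‖ ^ 2 = ∑ v, ‖x v‖ ^ 2 := PiLp.norm_sq_eq_of_L2 _ x
      rw [hx1, one_pow] at this
      refine (le_of_eq this).trans (Finset.sum_le_sum fun v _ => ?_)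
      have hex : ∃ c : Fin 3, (Fin.cons c v : Wd (n + 1)) 0 = (Fin.cons c v : Wd (n + 1)) (p 0) := by
        rcases Fin.eq_zero_or_eq_succ (p 0) with h | ⟨j, h⟩
        · exact ⟨0, by rw [h]⟩
        · exact ⟨v j, by rw [h, Fin.cons_zero, Fin.cons_succ]⟩
      obtain ⟨c, hc⟩ := hex
      refine le_trans ?_ (Finset.single_le_sum (fun d _ => by split_ifs <;> positivity) (mem_univ c))
      simp [hc]
    rw [e1, e2, hx1]
    linarith
  have h : ⟪symOp (n + 1) Z, symOp (n + 1) Z⟫_ℂ = ⟪Z, symOp (n + 1) Z⟫_ℂ := by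
    simp only [symOp]
    conv_lhs => arg 2; rw [← symProj_conjTranspose]
    rw [inner_matOp, show matOp (symProj (n + 1)) (matOp (symProj (n + 1)) Z)
      = ((matOp (symProj (n + 1)) * matOp (symProj (n + 1)) : TW H (n + 1) →L[ℂ] TW H (n + 1))) Z
      from rfl, ← matOp_mul, symProj_mul_self]
  have h2 : ‖symOp (n + 1) Z‖ ^ 2
      = ((n + 1).factorial : ℝ)⁻¹ * ∑ p : Equiv.Perm (Fin (n + 1)), ∑ w, (⟪Z w, Z (w ∘ p)⟫_ℂ).re := by
    rw [← inner_self_eq_norm_sq (𝕜 := ℂ), h]
    have e : ∀ w, symOp (n + 1) Z w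
        = ((n + 1).factorial : ℂ)⁻¹ • ∑ p : Equiv.Perm (Fin (n + 1)), Z (w ∘ p) := by
      intro w
      simp only [symOp, matOp_apply, symProj, Matrix.smul_apply, Matrix.sum_apply, smul_eq_mul,
        Finset.smul_sum]
      simp only [Finset.mul_sum, Finset.sum_smul]
      rw [Finset.sum_comm]
      exact Finset.sum_congr rfl fun p _ => by simp [permMat, ite_smul]
    simp only [PiLp.inner_apply, e, inner_smul_right, inner_sum, Finset.mul_sum]
    rw [Finset.sum_comm, map_sum]
    refine Finset.sum_congr rfl fun p _ => ?_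
    rw [map_sum]
    refine Finset.sum_congr rfl fun w _ => ?_
    rw [show ((n + 1).factorial : ℂ)⁻¹ = (((n + 1).factorial : ℝ)⁻¹ : ℝ) by norm_num]
    exact RCLike.re_ofReal_mul (K := ℂ) _ _
  rw [h2, inv_mul_eq_div, le_div_iff₀ (by positivity)]
  refine le_trans (le_of_eq ?_) (Finset.sum_le_sum fun p _ => hperm p)
  simp [Finset.card_univ, Fintype.card_perm]; ring

/-- The data of an approximate copy of the Fock space algebra. -/
def FockModel (C δ : ℝ) (U : Matrix (Fin 3) (Fin 3) ℂ → H →L[ℂ] H)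
    (S : Fin 3 → H →L[ℂ] H) (Ω : H) : Prop :=
  Model C δ U ∧ (∀ d, ‖S d‖ ≤ C) ∧ (∀ c d, ‖star (S c) * S d - (if c = d then 1 else 0)‖ ≤ δ) ∧
    (∀ i d, ‖U (gen i) * S d - ∑ c, gen i c d • (S c * U (gen i))‖ ≤ δ) ∧
    ‖Ω‖ = 1 ∧ ∀ i, ‖U (gen i) Ω - Ω‖ ≤ δ

/-- Uniform propagation to every symmetric power. -/
theorem propagation (C : ℝ) (hC : 1 ≤ C) (η : ℝ) (hη : 0 < η) :
    ∃ δ : ℝ, 0 < δ ∧ ∀ (H : Type) [NormedAddCommGroup H] [InnerProductSpace ℂ H] [CompleteSpace H]
      (U : Matrix (Fin 3) (Fin 3) ℂ → H →L[ℂ] H) (S : Fin 3 → H →L[ℂ] H) (Ω : H),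
      FockModel C δ U S Ω → ∀ n, ∃ X : TW H n, ‖X‖ = 1 ∧ symOp n X = X ∧
        ∀ i, ‖act n (U (gen i)) (gen i) X - X‖ ≤ η := by
  obtain ⟨K, hK0, hK⟩ := correction C (by linarith)
  -- a smaller target error makes the correction step apply
  set η' := min η (1 / (20 * (K + 1) * C)) with hη'def
  have hη' : 0 < η' := lt_min hη (by positivity)
  set r := η' / (8 * (K + 1) * (6 * C + 1)) with hr
  set δ := min (min (1 / 40) η') (min (1 / (20 * (K + 1) * (9 + 12 * C))) (r ^ 2)) with hδdef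
  have hδ : 0 < δ := lt_min (lt_min (by norm_num) hη') (lt_min (by positivity) (by positivity))
  have d1 : δ ≤ 1 / 40 := (min_le_left _ _).trans (min_le_left _ _)
  have d2 : δ ≤ η' := (min_le_left _ _).trans (min_le_right _ _)
  have d3 : δ * (20 * (K + 1) * (9 + 12 * C)) ≤ 1 := by
    rw [← le_div_iff₀ (by positivity)]; exact (min_le_right _ _).trans (min_le_left _ _)
  have d4 : Real.sqrt (4 * δ) ≤ 2 * r := by
    rw [Real.sqrt_le_left (by positivity)]
    have : δ ≤ r ^ 2 := (min_le_right _ _).trans (min_le_right _ _)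
    nlinarith
  have e1 : η' * (20 * (K + 1) * C) ≤ 1 := by
    rw [← le_div_iff₀ (by positivity)]; exact min_le_right _ _
  refine ⟨δ, hδ, ?_⟩
  intro H _ _ _ U S Ω ⟨hU, hSn, hSS, hUS, hΩ, hUΩ⟩
  suffices ∀ n, ∃ X : TW H n, ‖X‖ = 1 ∧ symOp n X = X ∧
      ∀ i, ‖act n (U (gen i)) (gen i) X - X‖ ≤ η' by
    intro n
    obtain ⟨X, a, b, c⟩ := this n
    exact ⟨X, a, b, fun i => (c i).trans (min_le_left _ _)⟩
  intro n
  induction n with
  | zero =>
    refine ⟨WithLp.toLp 2 (fun _ => Ω), ?_, ?_, ?_⟩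
    · rw [PiLp.norm_eq_of_L2]; simp [hΩ]
    · have : symProj 0 = 1 := by
        ext w v
        obtain rfl := Subsingleton.elim w v
        rw [Matrix.one_apply_eq]
        simp [symProj, permMat, Matrix.sum_apply, Subsingleton.elim (w ∘ _) w]
      rw [symOp, this, matOp_one]; rfl
    · intro i
      rw [PiLp.norm_eq_of_L2]
      simp only [PiLp.sub_apply, act_apply, cpow, pow', ten_apply]
      simp [Real.sqrt_sq (norm_nonneg _)]
      exact (hUΩ i).trans d2
  | succ n ih =>
    obtain ⟨X, hX1, hXs, hXi⟩ := ih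
    set Z := step S X
    set Z' := symOp (n + 1) Z with hZ'
    have hC0 : 0 ≤ C := by linarith
    have hZ'2 : ‖Z'‖ ≤ 2 * C := by
      refine (norm_symOp_apply_le _).trans ((norm_step_le S hC0 hSn X).trans ?_)
      rw [hX1, mul_one]
    have hZ'1 : 9 / 10 ≤ ‖Z'‖ := by
      have := norm_sym_step hδ.le hSS hXs hX1
      have h81 : (9 / 10 : ℝ) ^ 2 ≤ ‖Z'‖ ^ 2 := by linarith
      exact (sq_le_sq₀ (by norm_num) (norm_nonneg _)).1 h81
    set e := 6 * δ + 2 * C * η'
    have hZe : ∀ i, ‖act (n + 1) (U (gen i)) (gen i) Z' - Z'‖ ≤ e := by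
      intro i
      have ec : act (n + 1) (U (gen i)) (gen i) Z'
          = symOp (n + 1) (act (n + 1) (U (gen i)) (gen i) Z) := by
        rw [hZ']
        exact (DFunLike.congr_fun (symOp_comm (n := n + 1) (U (gen i)) (gen i)) Z).symm
      rw [ec, hZ', ← map_sub]
      refine (norm_symOp_apply_le _).trans ?_
      refine (norm_sub_le_norm_sub_add_norm_sub _ (step S (act n (U (gen i)) (gen i) X)) _).trans ?_
      refine add_le_add ((step_equivariant (gen_unitary i) hδ.le (hUS i) X).trans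
        (by rw [hX1, mul_one])) ?_
      have : step S (act n (U (gen i)) (gen i) X) - Z
          = step S (act n (U (gen i)) (gen i) X - X) := by
        ext w; simp [Z]
      rw [this]
      exact (norm_step_le S hC0 hSn _).trans
        (mul_le_mul_of_nonneg_left (hXi i) (by positivity))
    obtain ⟨Y, hY1, hY2⟩ := hK (TW H (n + 1)) (4 * δ) (by positivity) (by linarith) _
      (triangle_of_model hU) Z' e hZe
    set Y' := symOp (n + 1) Y with hY'
    have hZs : symOp (n + 1) Z' = Z' := by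
      rw [hZ']; exact DFunLike.congr_fun (symOp_mul_self (n := n + 1)) Z
    have hsmall : ‖Y - Z'‖ ≤ 3 / 10 := by
      refine hY1.trans ?_
      have : K * (4 * δ * ‖Z'‖) ≤ K * (4 * δ * (2 * C)) := by gcongr
      have : K * δ * (9 + 12 * C) ≤ 1 / 20 := by
        have : 0 ≤ δ * (9 + 12 * C) := by positivity
        nlinarith
      have : K * η' * C ≤ 1 / 20 := by
        have : 0 ≤ η' * C := by positivity
        nlinarith
      have : 0 ≤ K * δ := by positivity
      have : 0 ≤ K * δ * C := by positivity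
      simp only [e]
      nlinarith
    have hY'1 : 1 / 2 ≤ ‖Y'‖ := by
      have : ‖Y' - Z'‖ ≤ ‖Y - Z'‖ := by
        conv_lhs => rw [hY', ← hZs, ← map_sub]
        exact norm_symOp_apply_le _
      have := norm_sub_norm_le Z' Y'
      rw [norm_sub_rev] at this
      linarith
    have hYn : ‖Y‖ ≤ 2 * C + 1 := by
      have := norm_le_norm_add_norm_sub' Y Z'
      linarith
    have hY'0 : ‖Y'‖ ≠ 0 := by linarith
    refine ⟨((‖Y'‖⁻¹ : ℝ) : ℂ) • Y', ?_, ?_, fun i => ?_⟩
    · rw [norm_smul, Complex.norm_real, norm_inv, norm_norm, inv_mul_cancel₀ hY'0]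
    · rw [map_smul, hY']
      congr 1
      exact DFunLike.congr_fun (symOp_mul_self (n := n + 1)) Y
    · rw [map_smul, ← smul_sub, norm_smul, Complex.norm_real, norm_inv, norm_norm]
      have ec : act (n + 1) (U (gen i)) (gen i) Y'
          = symOp (n + 1) (act (n + 1) (U (gen i)) (gen i) Y) := by
        rw [hY']
        exact (DFunLike.congr_fun (symOp_comm (n := n + 1) (U (gen i)) (gen i)) Y).symm
      have h1 : ‖act (n + 1) (U (gen i)) (gen i) Y' - Y'‖ ≤ K * (2 * r) * (6 * C + 1) := by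
        rw [ec, hY', ← map_sub]
        refine (norm_symOp_apply_le _).trans ((hY2 i).trans ?_)
        exact mul_le_mul (mul_le_mul_of_nonneg_left d4 hK0) (by linarith) (by positivity)
          (by positivity)
      calc ‖Y'‖⁻¹ * ‖act (n + 1) (U (gen i)) (gen i) Y' - Y'‖
          ≤ 2 * (K * (2 * r) * (6 * C + 1)) := by
            refine mul_le_mul ?_ h1 (norm_nonneg _) (by norm_num)
            rw [inv_le_comm₀ (by linarith) (by norm_num)]
            linarith
        _ ≤ η' := by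
            have hr' : r * (8 * (K + 1) * (6 * C + 1)) = η' := by
              rw [hr]; field_simp
            have : 0 ≤ r * (6 * C + 1) := by positivity
            nlinarith

end Vale.Agent.P083
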