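import Vale.Agent.P083.Finite
import Vale.Agent.P083.CuntzModel
import Vale.Agent.P083.Fock

/-!
The Fock space algebra has no unital embedding into the norm ultrapower of the Cuntz algebra.
-/

namespace Vale.Agent.P083

open Finset Matrix Filter
open scoped InnerProductSpace Topology

/-- Every universal Cuntz algebra is isometrically represented inside the concrete one. -/
lemma exists_isometric_model {O : Type} [CStarAlgebra O] (hO : IsCuntzAlgebraTwo O) :
    ∃ π : O →⋆ₐ[ℂ] (H0 →L[ℂ] H0), (∀ a, ‖π a‖ = ‖a‖) ∧ ∀ a, π a ∈ O2sub := by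
  obtain ⟨s, hs, univ⟩ := hO
  obtain ⟨π, hπ, -⟩ := univ O2 gen2 gen2_pair
  have hback : ∃ ρ : O2 →⋆ₐ[ℂ] O, ∀ i, ρ (gen2 i) = s i := by
    obtain ⟨ρ, hρ, -⟩ := gen2_universal O s hs
    exact ⟨ρ, hρ⟩
  obtain ⟨ρ, hρ⟩ := hback
  have hid : ρ.comp π = StarAlgHom.id ℂ O := by
    obtain ⟨θ, -, huni⟩ := univ O s hs
    rw [huni (ρ.comp π) (fun i => by simp [hπ, hρ]), huni (StarAlgHom.id ℂ O) (fun i => rfl)]
  refine ⟨O2sub.subtype.comp π, fun a => ?_, fun a => (π a).2⟩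
  refine le_antisymm (NonUnitalStarAlgHom.norm_apply_le π a) ?_
  conv_lhs => rw [show a = ρ (π a) from (DFunLike.congr_fun hid a).symm]
  exact NonUnitalStarAlgHom.norm_apply_le ρ (π a)

section Lift

variable {A B : Type} [CStarAlgebra A] [CStarAlgebra B] {ω : Filter ℕ}

/-- Equality modulo sequences tending to zero along a filter. -/
def Sim (ω : Filter ℕ) (f g : ℕ → B) : Prop := Tendsto (fun n => ‖f n - g n‖) ω (𝓝 0)

lemma Sim.refl (f : ℕ → B) : Sim ω f f := by simpa [Sim] using tendsto_const_nhds (x := (0 : ℝ))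

lemma Sim.symm {f g : ℕ → B} (h : Sim ω f g) : Sim ω g f := by
  simpa [Sim, norm_sub_rev] using h

lemma Sim.trans {f g h : ℕ → B} (h1 : Sim ω f g) (h2 : Sim ω g h) : Sim ω f h :=
  squeeze_zero (fun n => norm_nonneg _) (fun n => norm_sub_le_norm_sub_add_norm_sub _ (g n) _)
    (by simpa using Tendsto.add h1 h2)

lemma Sim.add {f g f' g' : ℕ → B} (h1 : Sim ω f g) (h2 : Sim ω f' g') :
    Sim ω (fun n => f n + f' n) (fun n => g n + g' n) := by
  refine squeeze_zero (g := fun n => ‖f n - g n‖ + ‖f' n - g' n‖) (fun n => norm_nonneg _)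
    (fun n => ?_) (by simpa using Tendsto.add h1 h2)
  dsimp only
  rw [add_sub_add_comm]
  exact norm_add_le _ _

lemma Sim.smul {f g : ℕ → B} (c : ℂ) (h : Sim ω f g) :
    Sim ω (fun n => c • f n) (fun n => c • g n) := by
  simpa [Sim, ← smul_sub, norm_smul] using Tendsto.const_mul ‖c‖ h

lemma Sim.mul_left {f g a : ℕ → B} {C : ℝ} (ha : ∀ n, ‖a n‖ ≤ C) (h : Sim ω f g) :
    Sim ω (fun n => a n * f n) (fun n => a n * g n) := by
  refine squeeze_zero (g := fun n => C * ‖f n - g n‖) (fun n => norm_nonneg _)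
    (fun n => ?_) (by simpa using Tendsto.const_mul C h)
  dsimp only
  rw [← mul_sub]
  exact (norm_mul_le _ _).trans (mul_le_mul_of_nonneg_right (ha n) (norm_nonneg _))

lemma Sim.mul_right {f g a : ℕ → B} {C : ℝ} (ha : ∀ n, ‖a n‖ ≤ C) (h : Sim ω f g) :
    Sim ω (fun n => f n * a n) (fun n => g n * a n) := by
  refine squeeze_zero (g := fun n => ‖f n - g n‖ * C) (fun n => norm_nonneg _)
    (fun n => ?_) (by simpa using Tendsto.mul_const C h)
  dsimp only
  rw [← sub_mul]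
  exact (norm_mul_le _ _).trans (mul_le_mul_of_nonneg_left (ha n) (norm_nonneg _))

lemma Sim.eventually_le {f g : ℕ → B} (h : Sim ω f g) {δ : ℝ} (hδ : 0 < δ) :
    ∀ᶠ n in ω, ‖f n - g n‖ ≤ δ :=
  (h.eventually (eventually_lt_nhds hδ)).mono fun _ hn => hn.le

lemma sim_sum {φ : A → ℕ → B} (hadd : ∀ a b, Sim ω (φ (a + b)) (fun n => φ a n + φ b n))
    (hsmul : ∀ (c : ℂ) a, Sim ω (φ (c • a)) (fun n => c • φ a n)) {ι : Type} (s : Finset ι)
    (c : ι → ℂ) (a : ι → A) :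
    Sim ω (φ (∑ i ∈ s, c i • a i)) (fun n => ∑ i ∈ s, c i • φ (a i) n) := by
  classical
  induction s using Finset.induction_on with
  | empty => simpa using hsmul 0 0
  | insert i s hi ih =>
    simp only [Finset.sum_insert hi]
    exact (hadd _ _).trans ((hsmul _ _).add ih)

end Lift

/-- The element of the algebra belonging to a second quantisation. -/
noncomputable def gamA (M : Matrix (Fin 3) (Fin 3) ℂ) : FockAlg :=
  open Classical in if h : gam M ∈ fockSub then ⟨gam M, h⟩ else 0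

/-- The creation operators inside the algebra. -/
noncomputable def crA (d : Fin 3) : FockAlg :=
  ⟨cr d, fockGens_subset (Or.inl (Or.inl (Or.inl ⟨d, rfl⟩)))⟩

/-- The vacuum projection inside the algebra. -/
noncomputable def vacA : FockAlg := ⟨vacProj, fockGens_subset (Or.inr rfl)⟩

lemma gamA_gen (i : Fin 3) : (gamA (gen i) : Fock →L[ℂ] Fock) = gam (gen i) := by
  have h : gam (gen i) ∈ fockSub := fockGens_subset (Or.inl (Or.inl (Or.inr ⟨i, rfl⟩)))
  simp [gamA, h]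

lemma gamA_edge (e : Fin 3) (u : F21) :
    (gamA (edgeRep e u) : Fock →L[ℂ] Fock) = gam (edgeRep e u) := by
  have h : gam (edgeRep e u) ∈ fockSub := fockGens_subset (Or.inl (Or.inr ⟨(e, u), rfl⟩))
  simp [gamA, h]

lemma gamA_rels :
    (∀ i, star (gamA (gen i)) = gamA (gen i) * gamA (gen i)) ∧
    (∀ i, gamA (gen i) * star (gamA (gen i)) = 1) ∧
    (∀ e u v, gamA (edgeRep e u) * gamA (edgeRep e v) = gamA (edgeRep e (u * v))) ∧
    (∀ e, gamA (edgeRep e 1) = 1) ∧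
    (∀ c d, star (crA c) * crA d = if c = d then 1 else 0) ∧
    (∀ i d, gamA (gen i) * crA d = ∑ c, gen i c d • (crA c * gamA (gen i))) ∧
    ∀ i, gamA (gen i) * vacA = vacA := by
  refine ⟨fun i => Subtype.ext ?_, fun i => Subtype.ext ?_, fun e u v => Subtype.ext ?_,
    fun e => Subtype.ext ?_, fun c d => Subtype.ext ?_, fun i d => Subtype.ext ?_,
    fun i => Subtype.ext ?_⟩
  · simp only [StarMemClass.coe_star, MulMemClass.coe_mul, gamA_gen]
    rw [star_gam (gen_unitary i), gam_mul (gen_unitary i) (gen_unitary i), gen_conjTranspose]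
  · simp only [StarMemClass.coe_star, MulMemClass.coe_mul, gamA_gen, OneMemClass.coe_one]
    rw [star_gam (gen_unitary i), gam_mul (gen_unitary i), mul_eq_one_comm.1 (gen_unitary i),
      gam_one]
    rw [Matrix.conjTranspose_conjTranspose]
    exact mul_eq_one_comm.1 (gen_unitary i)
  · simp only [MulMemClass.coe_mul, gamA_edge]
    rw [gam_mul (edgeRep_unitary e u) (edgeRep_unitary e v), edgeRep_mul]
  · rw [OneMemClass.coe_one, gamA_edge, edgeRep_one, gam_one]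
  · rw [MulMemClass.coe_mul, StarMemClass.coe_star]
    change star (cr c) * cr d = _
    rw [star_cr_mul_cr]
    split_ifs <;> rfl
  · rw [MulMemClass.coe_mul, gamA_gen, AddSubmonoidClass.coe_finset_sum]
    change gam (gen i) * cr d = ∑ c, gen i c d • (cr c * (gamA (gen i) : Fock →L[ℂ] Fock))
    rw [gamA_gen, gam_mul_cr (gen_unitary i)]
  · rw [MulMemClass.coe_mul, gamA_gen]
    exact gam_vacProj (gen_unitary i)

lemma exists_vector_of_le_norm {H : Type} [NormedAddCommGroup H] [InnerProductSpace ℂ H]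
    (Q : H →L[ℂ] H) {r : ℝ} (hr : 0 < r) (hQ : r ≤ ‖Q‖) :
    ∃ ξ, r / 2 * ‖ξ‖ < ‖Q ξ‖ := by
  by_contra h
  push Not at h
  have := Q.opNorm_le_bound (by linarith) h
  linarith

/-- A lifted embedding gives models of every accuracy inside the concrete Cuntz algebra. -/
theorem models_of_embedding {O : Type} [CStarAlgebra O] (hO : IsCuntzAlgebraTwo O)
    (ω : Ultrafilter ℕ) (h : HasUnitalEmbeddingInUltrapower FockAlg O ω) :
    ∃ C : ℝ, 1 ≤ C ∧ ∀ δ > 0, ∃ U S Ω,
      FockModel (H := H0) C δ U S Ω ∧ ∀ i, U (gen i) ∈ O2sub := by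
  obtain ⟨π, hπn, hπm⟩ := exists_isometric_model hO
  obtain ⟨φ₀, hb, hadd, hsmul, hmul, hstar, hone, hinj⟩ := h
  set φ : FockAlg → ℕ → H0 →L[ℂ] H0 := fun a n => π (φ₀ a n) with hφ
  have tr : ∀ {f g : ℕ → O}, Tendsto (fun n => ‖f n - g n‖) (ω : Filter ℕ) (𝓝 0) →
      Sim (ω : Filter ℕ) (fun n => π (f n)) (fun n => π (g n)) := by
    intro f g h
    simpa [Sim, ← map_sub, hπn] using h
  have add' : ∀ a b, Sim (ω : Filter ℕ) (φ (a + b)) (fun n => φ a n + φ b n) := fun a b => by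
    simpa [hφ] using tr (hadd a b)
  have smul' : ∀ (c : ℂ) a, Sim (ω : Filter ℕ) (φ (c • a)) (fun n => c • φ a n) := fun c a => by
    simpa [hφ] using tr (hsmul c a)
  have mul' : ∀ a b, Sim (ω : Filter ℕ) (φ (a * b)) (fun n => φ a n * φ b n) := fun a b => by
    simpa [hφ] using tr (hmul a b)
  have star' : ∀ a, Sim (ω : Filter ℕ) (φ (star a)) (fun n => star (φ a n)) := fun a => by
    simpa [hφ, map_star] using tr (hstar a)
  have one' : Sim (ω : Filter ℕ) (φ 1) (fun _ => 1) := by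
    simpa [hφ] using tr (f := φ₀ 1) (g := fun _ => 1) hone
  have zero' : Sim (ω : Filter ℕ) (φ 0) (fun _ => 0) := by
    simpa using smul' 0 0
  choose Cb hCb using fun a => hb a
  have hbd : ∀ a n, ‖φ a n‖ ≤ |Cb a| := fun a n =>
    (hπn _).trans_le ((hCb a n).trans (le_abs_self _))
  set C := 1 + ((∑ i, |Cb (gamA (gen i))|) + (∑ p : Fin 3 × F21, |Cb (gamA (edgeRep p.1 p.2))|)
    + ∑ d, |Cb (crA d)|) with hC
  have n1 : 0 ≤ ∑ i, |Cb (gamA (gen i))| := Finset.sum_nonneg fun _ _ => abs_nonneg _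
  have n2 : 0 ≤ ∑ p : Fin 3 × F21, |Cb (gamA (edgeRep p.1 p.2))| :=
    Finset.sum_nonneg fun _ _ => abs_nonneg _
  have n3 : 0 ≤ ∑ d, |Cb (crA d)| := Finset.sum_nonneg fun _ _ => abs_nonneg _
  refine ⟨C, by linarith, ?_⟩
  obtain ⟨r1, r2, r3, r4, r5, r6, r7⟩ := gamA_rels
  set U : ℕ → Matrix (Fin 3) (Fin 3) ℂ → H0 →L[ℂ] H0 := fun n M => φ (gamA M) n with hU
  have a1 : ∀ i, Sim (ω : Filter ℕ) (fun n => star (U n (gen i)))
      (fun n => U n (gen i) * U n (gen i)) := fun i => by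
    have := (star' (gamA (gen i))).symm
    rw [r1 i] at this
    exact this.trans (mul' _ _)
  have a2 : ∀ i, Sim (ω : Filter ℕ) (fun n => U n (gen i) * star (U n (gen i))) (fun _ => 1) :=
    fun i => by
      have := (mul' (gamA (gen i)) (star (gamA (gen i)))).symm
      rw [r2 i] at this
      exact (((star' _).symm.mul_left (hbd (gamA (gen i)))).trans this).trans one'
  have a3 : ∀ e u v, Sim (ω : Filter ℕ) (fun n => U n (edgeRep e u) * U n (edgeRep e v))
      (fun n => U n (edgeRep e (u * v))) := fun e u v => by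
    have := (mul' (gamA (edgeRep e u)) (gamA (edgeRep e v))).symm
    rwa [r3] at this
  have a4 : ∀ e, Sim (ω : Filter ℕ) (fun n => U n (edgeRep e 1)) (fun _ => 1) := fun e => by
    simp only [hU, r4]; exact one'
  have a5 : ∀ c d : Fin 3, Sim (ω : Filter ℕ) (fun n => star (φ (crA c) n) * φ (crA d) n)
      (fun _ => if c = d then 1 else 0) := fun c d => by
    have h1 := (mul' (star (crA c)) (crA d)).symm
    rw [r5] at h1
    refine (((star' _).symm.mul_right (hbd (crA d))).trans h1).trans ?_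
    by_cases hcd : c = d
    · simpa only [if_pos hcd] using one'
    · simpa only [if_neg hcd] using zero'
  have a6 : ∀ i d, Sim (ω : Filter ℕ) (fun n => U n (gen i) * φ (crA d) n)
      (fun n => ∑ c, gen i c d • (φ (crA c) n * U n (gen i))) := fun i d => by
    have h1 := (mul' (gamA (gen i)) (crA d)).symm
    rw [r6] at h1
    refine h1.trans ((sim_sum add' smul' univ (fun c => gen i c d)
      (fun c => crA c * gamA (gen i))).trans ?_)
    simp only [Fin.sum_univ_three, hU]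
    exact (((mul' _ _).smul _).add ((mul' _ _).smul _)).add ((mul' _ _).smul _)
  have a7 : ∀ i, Sim (ω : Filter ℕ) (fun n => U n (gen i) * φ vacA n) (φ vacA) := fun i => by
    have := (mul' (gamA (gen i)) vacA).symm
    rwa [r7] at this
  obtain ⟨r, hr, hrQ⟩ : ∃ r > 0, ∀ᶠ n in (ω : Filter ℕ), r ≤ ‖φ vacA n‖ := by
    by_contra hcon
    push Not at hcon
    have hv : vacA = 0 := by
      refine hinj vacA (NormedAddGroup.tendsto_nhds_zero.2 fun r hr => ?_)
      refine (hcon r hr).mono fun n hn => ?_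
      rw [norm_norm, ← hπn]
      exact hn
    exact vacProj_ne_zero (congrArg Subtype.val hv)
  intro δ hδ
  have ht : 0 < δ * r / 2 := by positivity
  have ev := ((((((eventually_all.2 fun i => (a1 i).eventually_le hδ).and
    (eventually_all.2 fun i => (a2 i).eventually_le hδ)).and
    (eventually_all.2 fun e => eventually_all.2 fun u => eventually_all.2 fun v =>
      (a3 e u v).eventually_le hδ)).and
    (eventually_all.2 fun e => (a4 e).eventually_le hδ)).and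
    (eventually_all.2 fun c => eventually_all.2 fun d => (a5 c d).eventually_le hδ)).and
    (eventually_all.2 fun i => eventually_all.2 fun d => (a6 i d).eventually_le hδ)).and
    ((eventually_all.2 fun i => (a7 i).eventually_le ht).and hrQ)
  obtain ⟨m, ⟨⟨⟨⟨⟨e1, e2⟩, e3⟩, e4⟩, e5⟩, e6⟩, e7, e8⟩ := ev.exists
  obtain ⟨ξ, hξ⟩ := exists_vector_of_le_norm (φ vacA m) hr e8
  have hpos : 0 < ‖φ vacA m ξ‖ := lt_of_le_of_lt (by positivity) hξ
  refine ⟨U m, fun d => φ (crA d) m, (((‖φ vacA m ξ‖)⁻¹ : ℝ) : ℂ) • φ vacA m ξ,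
    ⟨⟨fun i => ⟨?_, e1 i, e2 i⟩, fun e => ⟨fun u => ?_, e3 e, e4 e⟩⟩, fun d => ?_, e5, e6, ?_,
      fun i => ?_⟩, fun i => hπm _⟩
  · refine (hbd _ m).trans ?_
    have := Finset.single_le_sum (f := fun i => |Cb (gamA (gen i))|) (fun _ _ => abs_nonneg _)
      (mem_univ i)
    linarith
  · refine (hbd _ m).trans ?_
    have := Finset.single_le_sum (f := fun p : Fin 3 × F21 => |Cb (gamA (edgeRep p.1 p.2))|)
      (fun _ _ => abs_nonneg _) (mem_univ (e, u))
    dsimp only at this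
    linarith
  · refine (hbd _ m).trans ?_
    have := Finset.single_le_sum (f := fun d => |Cb (crA d)|) (fun _ _ => abs_nonneg _)
      (mem_univ d)
    linarith
  · rw [norm_smul, Complex.norm_real, norm_inv, norm_norm, inv_mul_cancel₀ hpos.ne']
  · rw [map_smul, ← smul_sub, norm_smul, Complex.norm_real, norm_inv, norm_norm,
      inv_mul_le_iff₀ hpos]
    have h1 : ‖U m (gen i) (φ vacA m ξ) - φ vacA m ξ‖ ≤ δ * r / 2 * ‖ξ‖ :=
      ContinuousLinearMap.le_of_opNorm_le _ (e7 i) ξ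
    have h2 := mul_le_mul_of_nonneg_left hξ.le hδ.le
    linarith

/-- The coefficients of a vector of amplified words along a vector and compressed by words. -/
noncomputable def slice {k n : ℕ} (b : H0) (c : ℂ) (e : Fin k → List (Fin 2)) :
    TW H0 n →ₗ[ℂ] TW (EuclideanSpace ℂ (Fin k)) n where
  toFun Z := WithLp.toLp 2 fun w =>
    WithLp.toLp 2 fun a => ⟪b, c • star (wp S0 (e a)) (Z w)⟫_ℂ
  map_add' Z Z' := by
    ext w a
    simp [inner_add_right]
  map_smul' s Z := by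
    ext w a
    simp [inner_smul_right]
    ring

lemma slice_apply {k n : ℕ} (b : H0) (c : ℂ) (e : Fin k → List (Fin 2)) (Z : TW H0 n) (w : Wd n)
    (a : Fin k) : slice b c e Z w a = ⟪b, c • star (wp S0 (e a)) (Z w)⟫_ℂ := rfl

lemma slice_symOp {k n : ℕ} (b : H0) (c : ℂ) (e : Fin k → List (Fin 2)) (Z : TW H0 n) :
    slice b c e (symOp n Z) = symOp n (slice b c e Z) := by
  ext w a
  simp [symOp, slice_apply, inner_sum, inner_smul_right, Finset.mul_sum, mul_left_comm]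

lemma slice_norm_sq {k n : ℕ} (b : H0) (c : ℂ) (e : Fin k → List (Fin 2)) (Z : TW H0 n) :
    ‖slice b c e Z‖ ^ 2 = ∑ w, ∑ a, ‖⟪b, c • star (wp S0 (e a)) (Z w)⟫_ℂ‖ ^ 2 := by
  rw [PiLp.norm_sq_eq_of_L2]
  exact Finset.sum_congr rfl fun w _ => PiLp.norm_sq_eq_of_L2 _ _

/-- Bessel for slices. -/
lemma sum_slice_le {k n d : ℕ} {b : Fin d → H0} (hb : Orthonormal ℂ b) (c : ℂ)
    (e : Fin k → List (Fin 2))
    (hiso : ∀ x : H0, ∑ a, ‖c • star (wp S0 (e a)) x‖ ^ 2 = ‖x‖ ^ 2) (Z : TW H0 n) :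
    ∑ x, ‖slice (b x) c e Z‖ ^ 2 ≤ ‖Z‖ ^ 2 := by
  simp only [slice_norm_sq]
  rw [Finset.sum_comm, PiLp.norm_sq_eq_of_L2]
  refine Finset.sum_le_sum fun w _ => ?_
  rw [Finset.sum_comm, ← hiso]
  exact Finset.sum_le_sum fun a _ => hb.sum_inner_products_le _

/-- Compressed operators follow the original ones. -/
lemma sum_slice_act {k n d : ℕ} {b : Fin d → H0} (hb : Orthonormal ℂ b) (c : ℂ)
    (e : Fin k → List (Fin 2)) {ε : ℝ} (A : H0 →L[ℂ] H0) (K : Matrix (Fin k) (Fin k) ℂ)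
    {M : Matrix (Fin 3) (Fin 3) ℂ} (hM : Mᴴ * M = 1)
    (herr : ∀ x : H0, ∑ a, ‖c • star (wp S0 (e a)) (A x)
      - ∑ a', K a a' • c • star (wp S0 (e a')) x‖ ^ 2 ≤ (ε * ‖x‖) ^ 2) (Z : TW H0 n) :
    ∑ x, ‖slice (b x) c e (act n A M Z) - act n (toEuclideanCLM (𝕜 := ℂ) K) M (slice (b x) c e Z)‖ ^ 2
      ≤ (ε * ‖Z‖) ^ 2 := by
  set q := matOp (cpow n M) Z with hq
  have e1 : ∀ (x : Fin d) w a,
      (slice (b x) c e (act n A M Z) - act n (toEuclideanCLM (𝕜 := ℂ) K) M (slice (b x) c e Z)) w a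
      = ⟪b x, c • star (wp S0 (e a)) (A (q w))
          - ∑ a', K a a' • c • star (wp S0 (e a')) (q w)⟫_ℂ := by
    intro x w a
    simp only [PiLp.sub_apply, WithLp.ofLp_sub, Pi.sub_apply, slice_apply, act_apply, hq,
      matOp_apply, inner_sub_right]
    congr 1
    simp only [Matrix.ofLp_toEuclideanCLM, Matrix.mulVec, dotProduct, WithLp.ofLp_sum,
      WithLp.ofLp_smul, Finset.sum_apply, Pi.smul_apply, smul_eq_mul, slice_apply, map_sum,
      map_smul, inner_sum, inner_smul_right, Finset.mul_sum, Finset.smul_sum]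
    rw [Finset.sum_comm]
    exact Finset.sum_congr rfl fun a' _ => Finset.sum_congr rfl fun v _ => by ring
  have e2 : ∀ x, ‖slice (b x) c e (act n A M Z)
      - act n (toEuclideanCLM (𝕜 := ℂ) K) M (slice (b x) c e Z)‖ ^ 2
      = ∑ w, ∑ a, ‖⟪b x, c • star (wp S0 (e a)) (A (q w))
          - ∑ a', K a a' • c • star (wp S0 (e a')) (q w)⟫_ℂ‖ ^ 2 := by
    intro x
    rw [PiLp.norm_sq_eq_of_L2]
    refine Finset.sum_congr rfl fun w _ => ?_
    rw [PiLp.norm_sq_eq_of_L2]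
    exact Finset.sum_congr rfl fun a _ => by rw [← e1]
  simp only [e2]
  rw [Finset.sum_comm, ← norm_matOp_apply (cpow_isometry hM) Z, ← hq, mul_pow,
    PiLp.norm_sq_eq_of_L2, Finset.mul_sum]
  refine Finset.sum_le_sum fun w _ => ?_
  rw [Finset.sum_comm, ← mul_pow]
  exact (Finset.sum_le_sum fun a _ => hb.sum_inner_products_le _).trans (herr _)

/-- One almost invariant pair, compressed. -/
lemma sum_slice_fixed {k n d : ℕ} {b : Fin d → H0} (hb : Orthonormal ℂ b) (c : ℂ)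
    (e : Fin k → List (Fin 2))
    (hiso : ∀ x : H0, ∑ a, ‖c • star (wp S0 (e a)) x‖ ^ 2 = ‖x‖ ^ 2)
    {ε η : ℝ} (A : H0 →L[ℂ] H0) (K : Matrix (Fin k) (Fin k) ℂ) {M : Matrix (Fin 3) (Fin 3) ℂ}
    (hM : Mᴴ * M = 1)
    (herr : ∀ x : H0, ∑ a, ‖c • star (wp S0 (e a)) (A x)
      - ∑ a', K a a' • c • star (wp S0 (e a')) x‖ ^ 2 ≤ (ε * ‖x‖) ^ 2) {X : TW H0 n}
    (hX : ‖X‖ = 1) (hfix : ‖act n A M X - X‖ ≤ η) :
    ∑ x, ‖act n (toEuclideanCLM (𝕜 := ℂ) K) M (slice (b x) c e X) - slice (b x) c e X‖ ^ 2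
      ≤ 2 * ε ^ 2 + 2 * η ^ 2 := by
  set u := fun x => act n (toEuclideanCLM (𝕜 := ℂ) K) M (slice (b x) c e X) with hu
  set v := fun x => slice (b x) c e (act n A M X) with hv
  have h1 : ∀ x, ‖u x - slice (b x) c e X‖ ^ 2
      ≤ 2 * ‖v x - u x‖ ^ 2 + 2 * ‖slice (b x) c e (act n A M X - X)‖ ^ 2 := by
    intro x
    rw [map_sub]
    have h : ‖u x - slice (b x) c e X‖ ≤ ‖v x - u x‖ + ‖v x - slice (b x) c e X‖ := by
      rw [norm_sub_rev (v x) (u x)]; exact norm_sub_le_norm_sub_add_norm_sub _ _ _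
    refine (pow_le_pow_left₀ (norm_nonneg _) h 2).trans ?_
    simp only [hv]
    linarith [two_mul_le_add_sq ‖v x - u x‖ ‖v x - slice (b x) c e X‖]
  refine (Finset.sum_le_sum fun x _ => h1 x).trans ?_
  rw [Finset.sum_add_distrib, ← Finset.mul_sum, ← Finset.mul_sum]
  have s1 : ∑ x, ‖v x - u x‖ ^ 2 ≤ ε ^ 2 :=
    (sum_slice_act hb c e A K hM herr X).trans_eq (by rw [hX, mul_one])
  have s2 := (sum_slice_le hb c e hiso (act n A M X - X)).trans
    (pow_le_pow_left₀ (norm_nonneg _) hfix 2)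
  linarith

/-- Almost invariant symmetric tensors compress to finite dimensional ones. -/
lemma exists_slice {k n : ℕ} (c : ℂ) (e : Fin k → List (Fin 2))
    (hiso : ∀ x : H0, ∑ a, ‖c • star (wp S0 (e a)) x‖ ^ 2 = ‖x‖ ^ 2)
    (U : Fin 3 → H0 →L[ℂ] H0) (K : Fin 3 → Matrix (Fin k) (Fin k) ℂ) {ε η η₀ : ℝ}
    (herr : ∀ i (x : H0),
        ∑ a, ‖c • star (wp S0 (e a)) (U i x) - ∑ a', K i a a' • c • star (wp S0 (e a')) x‖ ^ 2
          ≤ (ε * ‖x‖) ^ 2 ∧
        ∑ a, ‖c • star (wp S0 (e a)) (star (U i) x)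
            - ∑ a', star (K i a' a) • c • star (wp S0 (e a')) x‖ ^ 2 ≤ (ε * ‖x‖) ^ 2)
    {X : TW H0 n} (hX : ‖X‖ = 1) (hXs : symOp n X = X)
    (h1 : ∀ i, ‖act n (U i) (gen i) X - X‖ ≤ η)
    (h2 : ∀ i, ‖act n (star (U i)) (gen i)ᴴ X - X‖ ≤ η)
    (hη₀ : 0 < η₀) (hsmall : 12 * ε ^ 2 + 12 * η ^ 2 < η₀ ^ 2) :
    ∃ Y : TW (EuclideanSpace ℂ (Fin k)) n, ‖Y‖ = 1 ∧ symOp n Y = Y ∧
      (∀ i, ‖act n (toEuclideanCLM (𝕜 := ℂ) (K i)) (gen i) Y - Y‖ ≤ η₀) ∧
      ∀ i, ‖act n (toEuclideanCLM (𝕜 := ℂ) (K i)ᴴ) (gen i)ᴴ Y - Y‖ ≤ η₀ := by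
  set v : Wd n × Fin k → H0 := fun p => c • star (wp S0 (e p.2)) (X p.1) with hv
  set E := Submodule.span ℂ (Set.range v)
  haveI : FiniteDimensional ℂ E := FiniteDimensional.span_of_finite ℂ (Set.finite_range v)
  set B := stdOrthonormalBasis ℂ E
  set b : Fin (Module.finrank ℂ E) → H0 := fun x => (B x : H0) with hb_def
  have hb : Orthonormal ℂ b := B.orthonormal.comp_linearIsometry E.subtypeₗᵢ
  have htot : ∑ x, ‖slice (b x) c e X‖ ^ 2 = 1 := by
    simp only [slice_norm_sq]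
    rw [Finset.sum_comm, ← one_pow 2, ← hX, PiLp.norm_sq_eq_of_L2]
    refine Finset.sum_congr rfl fun w _ => ?_
    rw [Finset.sum_comm, ← hiso]
    refine Finset.sum_congr rfl fun a _ => ?_
    exact B.sum_sq_norm_inner_right ⟨v (w, a), Submodule.subset_span ⟨(w, a), rfl⟩⟩
  have hgM : ∀ i, ((gen i)ᴴ)ᴴ * (gen i)ᴴ = 1 := fun i => by
    rw [Matrix.conjTranspose_conjTranspose]; exact mul_eq_one_comm.1 (gen_unitary i)
  have b1 : ∀ i, _ := fun i => sum_slice_fixed hb c e hiso (U i) (K i) (gen_unitary i)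
    (fun x => (herr i x).1) hX (h1 i)
  have b2 : ∀ i, _ := fun i => sum_slice_fixed hb c e hiso (star (U i)) (K i)ᴴ (hgM i)
    (fun x => by simpa only [Matrix.conjTranspose_apply] using (herr i x).2) hX (h2 i)
  set T : Fin (Module.finrank ℂ E) → ℝ := fun x => ∑ i,
    (‖act n (toEuclideanCLM (𝕜 := ℂ) (K i)) (gen i) (slice (b x) c e X) - slice (b x) c e X‖ ^ 2
    + ‖act n (toEuclideanCLM (𝕜 := ℂ) (K i)ᴴ) (gen i)ᴴ (slice (b x) c e X)
        - slice (b x) c e X‖ ^ 2) with hT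
  obtain ⟨x, hx⟩ : ∃ x, T x < η₀ ^ 2 * ‖slice (b x) c e X‖ ^ 2 := by
    by_contra hcon
    push Not at hcon
    have hsum := Finset.sum_le_sum fun x (_ : x ∈ (univ : Finset _)) => hcon x
    rw [← Finset.mul_sum, htot, mul_one] at hsum
    have : ∑ x, T x ≤ 12 * ε ^ 2 + 12 * η ^ 2 := by
      rw [hT, Finset.sum_comm]
      simp only [Finset.sum_add_distrib]
      refine (add_le_add (Finset.sum_le_sum fun i _ => b1 i)
        (Finset.sum_le_sum fun i _ => b2 i)).trans (le_of_eq ?_)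
      simp [Fin.sum_univ_three]; ring
    linarith
  set Y := slice (b x) c e X with hY
  have hY0 : 0 < ‖Y‖ := by
    rcases (norm_nonneg Y).eq_or_lt with h0 | h0
    · exfalso
      rw [← h0] at hx
      have : 0 ≤ T x := Finset.sum_nonneg fun i _ => add_nonneg (sq_nonneg _) (sq_nonneg _)
      norm_num at hx
      linarith
    · exact h0
  have hTi : ∀ i, ‖act n (toEuclideanCLM (𝕜 := ℂ) (K i)) (gen i) Y - Y‖ ≤ η₀ * ‖Y‖ ∧
      ‖act n (toEuclideanCLM (𝕜 := ℂ) (K i)ᴴ) (gen i)ᴴ Y - Y‖ ≤ η₀ * ‖Y‖ := by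
    intro i
    have hle := Finset.single_le_sum (f := fun i =>
        ‖act n (toEuclideanCLM (𝕜 := ℂ) (K i)) (gen i) Y - Y‖ ^ 2
        + ‖act n (toEuclideanCLM (𝕜 := ℂ) (K i)ᴴ) (gen i)ᴴ Y - Y‖ ^ 2)
      (fun i _ => add_nonneg (sq_nonneg _) (sq_nonneg _)) (mem_univ i)
    have hlt : T x < (η₀ * ‖Y‖) ^ 2 := by rw [mul_pow]; exact hx
    constructor <;> refine (sq_le_sq₀ (norm_nonneg _) (by positivity)).1 ?_
    · exact le_trans (le_trans (le_add_of_nonneg_right (sq_nonneg _)) hle) hlt.le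
    · exact le_trans (le_trans (le_add_of_nonneg_left (sq_nonneg _)) hle) hlt.le
  refine ⟨((‖Y‖⁻¹ : ℝ) : ℂ) • Y, ?_, ?_, fun i => ?_, fun i => ?_⟩
  · rw [norm_smul, Complex.norm_real, norm_inv, norm_norm, inv_mul_cancel₀ hY0.ne']
  · rw [map_smul, hY, ← slice_symOp, hXs]
  all_goals
    rw [map_smul, ← smul_sub, norm_smul, Complex.norm_real, norm_inv, norm_norm,
      inv_mul_le_iff₀ hY0, mul_comm]
  · exact (hTi i).1
  · exact (hTi i).2

/-- The main theorem: no unital embedding. -/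
theorem no_embedding {O : Type} [CStarAlgebra O] (hO : IsCuntzAlgebraTwo O) (ω : Ultrafilter ℕ) :
    ¬ HasUnitalEmbeddingInUltrapower FockAlg O ω := by
  intro h
  obtain ⟨C, hC, hmodel⟩ := models_of_embedding hO ω h
  obtain ⟨η₀, hη₀, hno⟩ := no_finite_approx
  set η := η₀ / (16 * (C + 1)) with hη
  have hη0 : 0 < η := by positivity
  obtain ⟨δ, hδ, hprop⟩ := propagation C hC η hη0
  obtain ⟨U, S, Ω, hM, hUO⟩ := hmodel (min δ (η₀ / 16)) (lt_min hδ (by positivity))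
  obtain ⟨k, c, e, K, hiso, herr⟩ :=
    finite_approximation (fun i => U (gen i)) hUO (show 0 < η₀ / 8 by positivity)
  obtain ⟨n, hn⟩ := hno k
  obtain ⟨⟨hg, he⟩, hSn, hSS, hUS, hΩ, hUΩ⟩ := hM
  have hd : min δ (η₀ / 16) ≤ δ := min_le_left _ _
  obtain ⟨X, hX, hXs, hXi⟩ := hprop H0 U S Ω
    ⟨⟨fun i => ⟨(hg i).1, (hg i).2.1.trans hd, (hg i).2.2.trans hd⟩,
        fun e => ⟨(he e).1, fun u v => ((he e).2.1 u v).trans hd, (he e).2.2.trans hd⟩⟩,
      hSn, fun a b => (hSS a b).trans hd, fun i d => (hUS i d).trans hd, hΩ,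
      fun i => (hUΩ i).trans hd⟩ n
  have hstar : ∀ i, ‖act n (star (U (gen i))) (gen i)ᴴ X - X‖ ≤ η₀ / 8 := by
    intro i
    set P := U (gen i) with hP
    set T := act n P (gen i) with hT
    have hg2 : ((gen i)ᴴ)ᴴ * (gen i)ᴴ = 1 := by
      rw [Matrix.conjTranspose_conjTranspose]; exact mul_eq_one_comm.1 (gen_unitary i)
    have eq : act n (star P) (gen i)ᴴ X - X
        = act n (star P - P * P) (gen i)ᴴ X + (T (T X - X) + (T X - X)) := by
      rw [← act_sub, _root_.sub_apply, map_sub]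
      have : act n (P * P) (gen i)ᴴ X = T (T X) := by
        rw [gen_conjTranspose, ← act_mul]; rfl
      rw [this]; abel
    rw [eq]
    refine (norm_add_le _ _).trans ((add_le_add le_rfl (norm_add_le _ _)).trans ?_)
    have t1 : ‖act n (star P - P * P) (gen i)ᴴ X‖ ≤ η₀ / 16 := by
      refine (ContinuousLinearMap.le_of_opNorm_le _ ((norm_act_le _ hg2).trans
        ((hg i).2.1.trans (min_le_right _ _))) X).trans ?_
      rw [hX, mul_one]
    have t2 : ‖T (T X - X)‖ ≤ C * η := by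
      refine (ContinuousLinearMap.le_of_opNorm_le _ ((norm_act_le _ (gen_unitary i)).trans
        (hg i).1) _).trans ?_
      exact mul_le_mul_of_nonneg_left (hXi i) (by linarith)
    have t3 : ‖T X - X‖ ≤ η := hXi i
    have t4 : η * (16 * (C + 1)) = η₀ := by rw [hη]; field_simp
    linarith
  have hη8 : η ≤ η₀ / 8 := by
    rw [hη, div_le_div_iff₀ (by positivity) (by norm_num)]
    nlinarith
  obtain ⟨Y, hY, hYs, hY1, hY2⟩ := exists_slice c e hiso (fun i => U (gen i)) K herr hX hXs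
    (fun i => (hXi i).trans hη8) hstar hη₀ (by nlinarith)
  exact hn K Y hY hYs hY1 hY2

end Vale.Agent.P083
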