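import Vale.Agent.P083.Tensor
import Vale.Agent.P083.Gap

/-!
Operators on tensor products with finite dimensional spaces, and the self-correction lemma.
-/

namespace Vale.Agent.P083

open Finset Matrix
open scoped InnerProductSpace

section Correction

variable {F : Type} [NormedAddCommGroup F] [InnerProductSpace ℂ F] [CompleteSpace F]

/-- `2 - V - star V`. -/
noncomputable def pOp (V : F →L[ℂ] F) : F →L[ℂ] F := (2 : ℝ) • 1 - V - star V

lemma isSelfAdjoint_pOp (V : F →L[ℂ] F) : IsSelfAdjoint (pOp V) := by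
  simp [IsSelfAdjoint, pOp, star_sub, star_smul]
  abel

lemma pOp_eq (V : F →L[ℂ] F) : pOp V = 1 + 1 - V - star V := by
  simp [pOp, two_smul]

/-- Hypotheses on three approximate generators. -/
def Triangle (C δ : ℝ) (V : Fin 3 → F →L[ℂ] F) : Prop :=
  (∀ i, ‖V i‖ ≤ C ∧ ‖star (V i) - V i * V i‖ ≤ δ ∧ ‖V i * star (V i) - 1‖ ≤ δ) ∧
    EdgeData C δ (pOp (V 0)) (pOp (V 1)) ∧ EdgeData C δ (pOp (V 0)) (pOp (V 2)) ∧
    EdgeData C δ (pOp (V 1)) (pOp (V 2))

lemma re_inner_le_of_norm_le {T : F →L[ℂ] F} {r : ℝ} (h : ‖T‖ ≤ r) (x : F) :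
    |(⟪T x, x⟫_ℂ).re| ≤ r * ‖x‖ ^ 2 := by
  refine (Complex.abs_re_le_norm _).trans ((norm_inner_le_norm _ _).trans ?_)
  rw [pow_two, ← mul_assoc]
  exact mul_le_mul_of_nonneg_right (T.le_of_opNorm_le h x) (norm_nonneg _)

/-- Self-correction: an almost invariant vector is close to a very invariant one. -/
theorem correction (C : ℝ) (hC : 0 ≤ C) :
    ∃ K : ℝ, 0 ≤ K ∧ ∀ (F : Type) [NormedAddCommGroup F] [InnerProductSpace ℂ F] [CompleteSpace F]
      (δ : ℝ), 0 ≤ δ → δ ≤ 1 → ∀ V : Fin 3 → F →L[ℂ] F, Triangle C δ V →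
      ∀ (X : F) (e : ℝ), (∀ i, ‖V i X - X‖ ≤ e) →
        ∃ Y : F, ‖Y - X‖ ≤ K * (e + δ * ‖X‖) ∧ ∀ i, ‖V i Y - Y‖ ≤ K * Real.sqrt δ * (‖X‖ + ‖Y‖) := by
  obtain ⟨K, hK0, hK⟩ := edge_bounds C hC
  set K' := 34 * (3 * (C + 2) + 3) + 34 with hK'
  set A := 17 * 24 * K
  set B' := (1 + C) * Real.sqrt (3 * A + 3 * K) / 3 + 2
  refine ⟨max K' B', le_max_of_le_left (by positivity), ?_⟩
  intro F _ _ _ δ hδ hδ1 V ⟨hV, hE1, hE2, hE3⟩ X e he
  have h1 : ‖(1 : F →L[ℂ] F)‖ ≤ 1 := ContinuousLinearMap.norm_id_le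
  obtain ⟨a1, a2, a3⟩ := hK _ h1 δ hδ hδ1 _ _ hE1
  obtain ⟨-, b2, b3⟩ := hK _ h1 δ hδ hδ1 _ _ hE2
  obtain ⟨-, -, c3⟩ := hK _ h1 δ hδ hδ1 _ _ hE3
  set P := fun i => pOp (V i) with hP
  have sP : ∀ i, ‖P i * P i - (3 : ℝ) • P i‖ ≤ K * δ := fun i => by
    fin_cases i
    · exact a1
    · exact a2
    · exact b2
  obtain ⟨g1, g2⟩ := triangle_gap (P₁ := P 0) (P₂ := P 1) (P₃ := P 2)
    ⟨isSelfAdjoint_pOp _, isSelfAdjoint_pOp _, isSelfAdjoint_pOp _⟩ (by positivity : 0 ≤ K * δ)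
    (sP 0) (sP 1) (sP 2) (by
      intro D hD
      simp only [Set.mem_insert_iff, Set.mem_singleton_iff] at hD
      rcases hD with rfl | rfl | rfl
      · exact a3
      · exact b3
      · exact c3)
  set D := P 0 + P 1 + P 2 with hD
  obtain ⟨g, k, hgk, hDg, hk⟩ := gap_projection
    (((isSelfAdjoint_pOp (V 0)).add (isSelfAdjoint_pOp (V 1))).add (isSelfAdjoint_pOp (V 2)))
    (by positivity : 0 ≤ 24 * (K * δ)) g1 g2
  refine ⟨g X, ?_, ?_⟩
  · have hx : X = g X + k (D X) := by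
      conv_lhs => rw [show X = (1 : F →L[ℂ] F) X from rfl, ← hgk]
      rfl
    have hPX : ∀ i, ‖P i X‖ ≤ (C + 2) * e + δ * ‖X‖ := by
      intro i
      have e1 : P i X = (X - V i X) + (X - V i (V i X)) - (star (V i) - V i * V i) X := by
        simp [hP, pOp, two_smul]
        abel
      rw [e1]
      have b1 : ‖X - V i X‖ ≤ e := by rw [norm_sub_rev]; exact he i
      have b2 : ‖X - V i (V i X)‖ ≤ e + C * e := by
        refine (norm_sub_le_norm_sub_add_norm_sub X (V i X) _).trans (add_le_add b1 ?_)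
        rw [← map_sub]
        exact ((V i).le_of_opNorm_le (hV i).1 _).trans (mul_le_mul_of_nonneg_left b1 hC)
      have b3 := (star (V i) - V i * V i).le_of_opNorm_le (hV i).2.1 X
      have := norm_sub_le ((X - V i X) + (X - V i (V i X))) ((star (V i) - V i * V i) X)
      have := norm_add_le (X - V i X) (X - V i (V i X))
      linarith
    have hDX : ‖D X‖ ≤ 3 * ((C + 2) * e + δ * ‖X‖) := by
      simp only [hD, ContinuousLinearMap.add_apply]
      have := norm_add₃_le (a := P 0 X) (b := P 1 X) (c := P 2 X)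
      linarith [hPX 0, hPX 1, hPX 2]
    have he0 : 0 ≤ e := (norm_nonneg _).trans (he 0)
    calc ‖g X - X‖ = ‖k (D X)‖ := by
          conv_lhs => arg 1; arg 2; rw [hx]
          rw [sub_add_cancel_left, norm_neg]
      _ ≤ 34 * (3 * ((C + 2) * e + δ * ‖X‖)) :=
          (k.le_of_opNorm_le hk _).trans (mul_le_mul_of_nonneg_left hDX (by norm_num))
      _ ≤ max K' B' * (e + δ * ‖X‖) := by
          refine le_trans ?_ (mul_le_mul_of_nonneg_right (le_max_left _ _) (by positivity))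
          simp only [hK']
          nlinarith [mul_nonneg hδ (norm_nonneg X), mul_nonneg (mul_nonneg hC hδ) (norm_nonneg X)]
  · intro i
    set Y := g X
    have hA : ‖D * g‖ ≤ A * δ := hDg.trans (le_of_eq (by ring))
    have hq : ∀ j, ‖P j Y‖ ^ 2 ≤ 3 * (⟪P j Y, Y⟫_ℂ).re + K * δ * ‖Y‖ ^ 2 := by
      intro j
      have h := (abs_le.1 (re_inner_le_of_norm_le (sP j) Y)).2
      have hsa : ⟪P j (P j Y), Y⟫_ℂ = ⟪P j Y, P j Y⟫_ℂ := by
        have := ContinuousLinearMap.adjoint_inner_left (P j) Y (P j Y)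
        rwa [← ContinuousLinearMap.star_eq_adjoint, (isSelfAdjoint_pOp (V j)).star_eq] at this
      have e2 : (⟪(P j * P j - (3 : ℝ) • P j) Y, Y⟫_ℂ).re
          = ‖P j Y‖ ^ 2 - 3 * (⟪P j Y, Y⟫_ℂ).re := by
        change (⟪P j (P j Y) - (3 : ℝ) • P j Y, Y⟫_ℂ).re = _
        rw [inner_sub_left, Complex.sub_re, hsa, ← Complex.coe_smul, inner_smul_left,
          Complex.conj_ofReal, Complex.re_ofReal_mul, ← inner_self_eq_norm_sq (𝕜 := ℂ)]
        rfl
      linarith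
    have htot : ‖P 0 Y‖ ^ 2 + ‖P 1 Y‖ ^ 2 + ‖P 2 Y‖ ^ 2
        ≤ 3 * ‖D Y‖ * ‖Y‖ + 3 * (K * δ) * ‖Y‖ ^ 2 := by
      have e3 : (⟪P 0 Y, Y⟫_ℂ).re + (⟪P 1 Y, Y⟫_ℂ).re + (⟪P 2 Y, Y⟫_ℂ).re = (⟪D Y, Y⟫_ℂ).re := by
        simp [hD, inner_add_left]
      have := (Complex.re_le_norm ⟪D Y, Y⟫_ℂ).trans (norm_inner_le_norm _ _)
      linarith [hq 0, hq 1, hq 2]
    have hDY : ‖D Y‖ ≤ A * δ * ‖X‖ := (D * g).le_of_opNorm_le hA X
    set s' := ‖X‖ + ‖Y‖ with hs'
    have hPi : ‖P i Y‖ ≤ Real.sqrt (3 * A + 3 * K) * Real.sqrt δ * s' := by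
      rw [← Real.sqrt_mul (by positivity), ← Real.sqrt_sq (by positivity : 0 ≤ s'),
        ← Real.sqrt_mul (by positivity)]
      apply Real.le_sqrt_of_sq_le
      have hsum : ‖P i Y‖ ^ 2 ≤ ‖P 0 Y‖ ^ 2 + ‖P 1 Y‖ ^ 2 + ‖P 2 Y‖ ^ 2 := by
        rw [← Fin.sum_univ_three (fun j => ‖P j Y‖ ^ 2)]
        exact Finset.single_le_sum (f := fun j => ‖P j Y‖ ^ 2) (fun j _ => sq_nonneg _) (mem_univ i)
      have hx : ‖X‖ ≤ s' := le_add_of_nonneg_right (norm_nonneg _)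
      have hy : ‖Y‖ ≤ s' := le_add_of_nonneg_left (norm_nonneg _)
      have hDYY : ‖D Y‖ * ‖Y‖ ≤ A * δ * s' * s' := mul_le_mul
        (hDY.trans (mul_le_mul_of_nonneg_left hx (by positivity))) hy (norm_nonneg _) (by positivity)
      have hYY : K * δ * ‖Y‖ ^ 2 ≤ K * δ * s' ^ 2 :=
        mul_le_mul_of_nonneg_left (pow_le_pow_left₀ (norm_nonneg _) hy 2) (by positivity)
      nlinarith
    have e4 : (3 : ℝ) • (Y - V i Y)
        = (P i Y - V i (P i Y)) + (star (V i) - V i * V i) Y - (V i * star (V i) - 1) Y := by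
      simp [hP, pOp, two_smul]
      module
    have b3 := (star (V i) - V i * V i).le_of_opNorm_le (hV i).2.1 Y
    have b4 := (V i * star (V i) - 1).le_of_opNorm_le (hV i).2.2 Y
    have b5 := (V i).le_of_opNorm_le (hV i).1 (P i Y)
    have hn : 3 * ‖V i Y - Y‖ ≤ (1 + C) * ‖P i Y‖ + 2 * δ * ‖Y‖ := by
      rw [norm_sub_rev, ← Real.norm_ofNat (n := 3), ← norm_smul, e4]
      have n1 := norm_sub_le ((P i Y - V i (P i Y)) + (star (V i) - V i * V i) Y)
        ((V i * star (V i) - 1) Y)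
      have n2 := norm_add_le (P i Y - V i (P i Y)) ((star (V i) - V i * V i) Y)
      have n3 := norm_sub_le (P i Y) (V i (P i Y))
      linarith
    have hsd : δ ≤ Real.sqrt δ := by
      conv_lhs => rw [← Real.mul_self_sqrt hδ]
      exact mul_le_of_le_one_left (Real.sqrt_nonneg _) (Real.sqrt_le_one.2 hδ1)
    refine le_trans ?_ (mul_le_mul_of_nonneg_right (mul_le_mul_of_nonneg_right (le_max_right _ _)
      (Real.sqrt_nonneg _)) (by positivity))
    have hyd : δ * ‖Y‖ ≤ Real.sqrt δ * s' :=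
      mul_le_mul hsd (le_add_of_nonneg_left (norm_nonneg _)) (norm_nonneg _) (Real.sqrt_nonneg _)
    have := mul_le_mul_of_nonneg_left hPi (by linarith : 0 ≤ 1 + C)
    have : 0 ≤ Real.sqrt δ * s' := by positivity
    simp only [B']
    nlinarith

end Correction

end Vale.Agent.P083
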