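import Mathlib

/-!
Tensor powers of `3 × 3` matrices, acting on functions of words.
-/

namespace Vale.Agent.P083

open Finset Matrix

/-- Words of length `n` in three letters. -/
abbrev Wd (n : ℕ) := Fin n → Fin 3

variable {R : Type*} [CommRing R] {n : ℕ}

/-- The Kronecker product of a family of `3 × 3` matrices. -/
def ten (F : Fin n → Matrix (Fin 3) (Fin 3) R) : Matrix (Wd n) (Wd n) R :=
  fun w v => ∏ i, F i (w i) (v i)

lemma ten_apply (F : Fin n → Matrix (Fin 3) (Fin 3) R) (w v : Wd n) :
    ten F w v = ∏ i, F i (w i) (v i) := rfl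

lemma ten_mul (F G : Fin n → Matrix (Fin 3) (Fin 3) R) :
    ten F * ten G = ten (fun i => F i * G i) := by
  ext w v
  simp only [Matrix.mul_apply, ten_apply, ← Finset.prod_mul_distrib]
  exact (Fintype.prod_sum fun i c => F i (w i) c * G i c (v i)).symm

lemma ten_one : ten (fun _ : Fin n => (1 : Matrix (Fin 3) (Fin 3) R)) = 1 := by
  ext w v
  by_cases h : w = v
  · subst h; simp [ten_apply]
  · obtain ⟨i, hi⟩ := Function.ne_iff.1 h
    simp only [ten_apply, Matrix.one_apply_ne h]
    exact Finset.prod_eq_zero (mem_univ i) (Matrix.one_apply_ne hi)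

/-- The `n`-th tensor power. -/
def pow' (n : ℕ) (M : Matrix (Fin 3) (Fin 3) R) : Matrix (Wd n) (Wd n) R := ten fun _ => M

lemma pow'_mul (M N : Matrix (Fin 3) (Fin 3) R) : pow' n (M * N) = pow' n M * pow' n N := by
  simp [pow', ten_mul]

lemma pow'_one : pow' n (1 : Matrix (Fin 3) (Fin 3) R) = 1 := ten_one

lemma pow'_conjTranspose [StarRing R] (M : Matrix (Fin 3) (Fin 3) R) :
    (pow' n M)ᴴ = pow' n Mᴴ := by
  ext w v
  simp [pow', ten_apply, Matrix.conjTranspose_apply, star_prod]

lemma ten_diagonal (d : Fin n → Fin 3 → R) :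
    ten (fun i => Matrix.diagonal (d i)) = Matrix.diagonal (fun w => ∏ i, d i (w i)) := by
  ext w v
  by_cases h : w = v
  · subst h; simp [ten_apply]
  · obtain ⟨i, hi⟩ := Function.ne_iff.1 h
    rw [ten_apply, Matrix.diagonal_apply_ne _ h]
    exact Finset.prod_eq_zero (mem_univ i) (Matrix.diagonal_apply_ne _ hi)

/-- The derivation (Lie algebra action) induced by a matrix. -/
def der (n : ℕ) (M : Matrix (Fin 3) (Fin 3) R) : Matrix (Wd n) (Wd n) R :=
  ∑ i, ten (Function.update (fun _ => 1) i M)

lemma ten_update_apply (i : Fin n) (M : Matrix (Fin 3) (Fin 3) R) (w v : Wd n) :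
    ten (Function.update (fun _ => 1) i M) w v
      = M (w i) (v i) * ∏ j ∈ univ.erase i, (1 : Matrix (Fin 3) (Fin 3) R) (w j) (v j) := by
  rw [ten_apply, ← Finset.mul_prod_erase univ _ (mem_univ i), Function.update_self]
  congr 1
  refine Finset.prod_congr rfl fun j hj => ?_
  rw [Function.update_of_ne (ne_of_mem_erase hj)]

/-- `der` as a linear map. -/
def derₗ (n : ℕ) : Matrix (Fin 3) (Fin 3) R →ₗ[R] Matrix (Wd n) (Wd n) R where
  toFun := der n
  map_add' M N := by
    ext w v
    simp only [der, Matrix.add_apply, Matrix.sum_apply, ten_update_apply, add_mul,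
      Finset.sum_add_distrib]
  map_smul' c M := by
    ext w v
    simp only [der, Matrix.smul_apply, Matrix.sum_apply, ten_update_apply, smul_eq_mul,
      RingHom.id_apply, Finset.mul_sum, mul_assoc]

lemma der_conj (M P Q : Matrix (Fin 3) (Fin 3) R) (h : P * Q = 1) :
    pow' n P * der n M * pow' n Q = der n (P * M * Q) := by
  simp only [der, Finset.mul_sum, Finset.sum_mul, pow', ten_mul]
  refine Finset.sum_congr rfl fun i _ => congrArg ten (funext fun j => ?_)
  by_cases hj : j = i
  · subst hj; simp
  · simp [Function.update_of_ne hj, h]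

lemma der_diagonal (d : Fin 3 → R) :
    der n (Matrix.diagonal d) = Matrix.diagonal (fun w => ∑ i, d (w i)) := by
  have : ∀ i : Fin n, ten (Function.update (fun _ => 1) i (Matrix.diagonal d))
      = Matrix.diagonal (fun w => d (w i)) := by
    intro i
    have e : (Function.update (fun _ : Fin n => (1 : Matrix (Fin 3) (Fin 3) R)) i
        (Matrix.diagonal d)) = fun j => Matrix.diagonal (Function.update (fun _ _ => (1 : R)) i d j) := by
      funext j
      by_cases hj : j = i
      · subst hj; simp
      · simp [Function.update_of_ne hj]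
    rw [e, ten_diagonal]
    congr 1; funext w
    rw [Finset.prod_eq_single i]
    · simp
    · intro j _ hj; simp [Function.update_of_ne hj]
    · simp
  simp only [der, this]
  ext w v
  by_cases h : w = v
  · subst h; simp [Matrix.sum_apply]
  · simp [Matrix.sum_apply, Matrix.diagonal_apply_ne _ h]

/-- Permutation matrix of a permutation of the positions. -/
def permMat (R : Type*) [CommRing R] {n : ℕ} (p : Equiv.Perm (Fin n)) : Matrix (Wd n) (Wd n) R :=
  fun w v => if v = w ∘ p then 1 else 0

lemma permMat_mulVec (p : Equiv.Perm (Fin n)) (x : Wd n → R) (w : Wd n) :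
    (permMat R p *ᵥ x) w = x (w ∘ p) := by
  simp [Matrix.mulVec, dotProduct, permMat]

lemma ten_comp (M : Matrix (Fin 3) (Fin 3) R) (p : Equiv.Perm (Fin n)) (w v : Wd n) :
    pow' n M (w ∘ p) (v ∘ p) = pow' n M w v := by
  simp only [pow', ten_apply, Function.comp_apply]
  exact Equiv.prod_comp p (fun i => M (w i) (v i))

lemma permMat_comm (M : Matrix (Fin 3) (Fin 3) R) (p : Equiv.Perm (Fin n)) :
    permMat R p * pow' n M = pow' n M * permMat R p := by
  ext w v
  have e : ∀ u : Wd n, (v = u ∘ p) ↔ (v ∘ p.symm = u) := fun u => by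
    constructor
    · rintro rfl; funext i; simp
    · rintro rfl; funext i; simp
  simp only [Matrix.mul_apply, permMat, ite_mul, one_mul, zero_mul, mul_ite, mul_one, mul_zero, e]
  rw [Finset.sum_ite_eq', Finset.sum_ite_eq]
  simp only [mem_univ, if_true]
  rw [← ten_comp M p w (v ∘ p.symm)]
  congr 1; funext i; simp

/-- The symmetrizing projection. -/
noncomputable def symProj (n : ℕ) : Matrix (Wd n) (Wd n) ℂ :=
  ((n.factorial : ℂ))⁻¹ • ∑ p : Equiv.Perm (Fin n), permMat ℂ p

lemma symProj_comm (M : Matrix (Fin 3) (Fin 3) ℂ) :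
    symProj n * pow' n M = pow' n M * symProj n := by
  simp [symProj, Finset.sum_mul, Finset.mul_sum, permMat_comm]

lemma permMat_mul (p q : Equiv.Perm (Fin n)) :
    permMat R p * permMat R q = permMat R (p * q) := by
  ext w v
  simp only [Matrix.mul_apply, permMat, ite_mul, one_mul, zero_mul, Finset.sum_ite_eq',
    mem_univ, if_true]
  rfl

lemma permMat_one : permMat R (1 : Equiv.Perm (Fin n)) = 1 := by
  ext w v
  simp [permMat, Matrix.one_apply, eq_comm]

lemma permMat_conjTranspose (p : Equiv.Perm (Fin n)) :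
    (permMat ℂ p)ᴴ = permMat ℂ p⁻¹ := by
  ext w v
  have e : w = v ∘ p ↔ v = w ∘ ⇑(p⁻¹) := by
    constructor
    · rintro rfl; funext i; simp
    · rintro rfl; funext i; simp
  simp only [Matrix.conjTranspose_apply, permMat, e]
  split_ifs <;> simp

lemma permMat_symProj (p : Equiv.Perm (Fin n)) : permMat ℂ p * symProj n = symProj n := by
  simp only [symProj, Matrix.mul_smul, Finset.mul_sum, permMat_mul]
  congr 1
  exact Fintype.sum_equiv (Equiv.mulLeft p) _ _ fun q => rfl

lemma symProj_mul_self : symProj n * symProj n = symProj n := by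
  conv_lhs => arg 1; rw [symProj]
  simp only [Matrix.smul_mul, Finset.sum_mul, permMat_symProj, Finset.sum_const, card_univ,
    Fintype.card_perm, Fintype.card_fin, ← Nat.cast_smul_eq_nsmul ℂ, smul_smul]
  rw [inv_mul_cancel₀ (Nat.cast_ne_zero.2 n.factorial_ne_zero), one_smul]

lemma symProj_conjTranspose : (symProj n)ᴴ = symProj n := by
  simp only [symProj, Matrix.conjTranspose_smul, Matrix.conjTranspose_sum, permMat_conjTranspose]
  congr 1
  · simp
  · exact Fintype.sum_equiv (Equiv.inv _) _ _ fun q => rfl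

end Vale.Agent.P083
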